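import Vale.Agent.P253.Circle.Cells

/-!
P253: Frankel's variation without geodesics: the distance to a far point along a holomorphic germ
is strictly superharmonic.
-/

open scoped Manifold ContDiff InnerProductSpace Topology
open Complex Set Filter

noncomputable section

namespace Vale.Agent.P253.Circle

open Vale.Agent.Results.P253.SymmetricDomains (IsPos dz ddbar bisect)

variable {n : ℕ} {M : Type} [TopologicalSpace M] [ChartedSpace (Cn n) M]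
  [IsManifold 𝓘(ℂ, Cn n) ω M] [T2Space M] [ConnectedSpace M] {G : Metric (Cn n) M}

theorem four_mono {f h : ℂ → ℝ} {r : ℝ} (hr : 0 ≤ r) (hfh : ∀ s : ℂ, ‖s‖ = r → f s ≤ h s) :
    four f r ≤ four h r := by
  have n1 : ‖(r : ℂ)‖ = r := by simp [abs_of_nonneg hr]
  have n2 : ‖-(r : ℂ)‖ = r := by rw [norm_neg, n1]
  have n3 : ‖(r : ℂ) * I‖ = r := by rw [norm_mul, n1, Complex.norm_I, mul_one]
  have n4 : ‖-((r : ℂ) * I)‖ = r := by rw [norm_neg, n3]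
  simp only [four]
  linarith [hfh _ n1, hfh _ n2, hfh _ n3, hfh _ n4]

theorem four_add (f h : ℂ → ℝ) (r : ℝ) : four (fun s => f s + h s) r = four f r + four h r := by
  simp only [four]
  ring

theorem four_const (c r : ℝ) : four (fun _ : ℂ => c) r = 4 * c := by
  simp only [four]
  ring

theorem common_pos {ι : Type} (t : Finset ι) (f : ι → ℝ) (hf : ∀ i ∈ t, 0 < f i) :
    ∃ r > 0, ∀ i ∈ t, r ≤ f i := by
  rcases t.eq_empty_or_nonempty with h | h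
  · exact ⟨1, one_pos, by simp [h]⟩
  · obtain ⟨i, hi, hmin⟩ := t.exists_min_image f h
    exact ⟨f i, hf i hi, hmin⟩

/-- A germ read in a cell, to second order. -/
theorem germ_start (hG : IsKaehler G) {p : M} {c : Cn n} {ρ : ℝ} (hρ : 0 < ρ)
    (hsub : Metric.closedBall c (2 * ρ) ⊆ (ch n p).target) {z : M} (hz : z ∈ (ch n p).source)
    (hzb : ‖ch n p z - c‖ ≤ ρ) {g : ℂ → M} (h0 : g 0 = z) (hc : ContinuousAt g 0)
    (hd : ∀ᶠ τ in 𝓝 0, DifferentiableAt ℂ (fun τ => ch n z (g τ)) τ) :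
    ∃ Q : Cn n, ∀ ε : ℝ, 0 < ε → ∃ r₀ > 0, ∀ s : ℂ, ‖s‖ < r₀ →
      gd G (g s) ((ch n p).symm (fam (ch n p z)
        (dtr n z p (ch n z z) (deriv (fun τ => ch n z (g τ)) 0)) Q s)) ≤ ε * ‖s‖ ^ 2 := by
  set f : ℂ → Cn n := fun τ => ch n p (g τ)
  set u := dtr n z p (ch n z z) (deriv (fun τ => ch n z (g τ)) 0)
  have hzz := mem_chart_source (Cn n) z
  have hs : ∀ᶠ τ in 𝓝 0, g τ ∈ (ch n z).source ∩ (ch n p).source :=
    hc ((((ch n z).open_source.inter (ch n p).open_source).mem_nhds (by rw [h0]; exact ⟨hzz, hz⟩)))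
  have hev : f =ᶠ[𝓝 0] tr n z p ∘ fun τ => ch n z (g τ) := by
    filter_upwards [hs] with τ hτ
    simp [f, tr, (ch n z).left_inv hτ.1]
  have hfd : ∀ᶠ τ in 𝓝 0, DifferentiableAt ℂ f τ := by
    filter_upwards [hd, hs.eventually_nhds] with τ hτ hτ'
    have e : f =ᶠ[𝓝 τ] tr n z p ∘ fun τ => ch n z (g τ) := by
      filter_upwards [hτ'] with σ hσ
      simp [f, tr, (ch n z).left_inv hσ.1]
    exact ((tr_diffAt (tr_mem' hτ'.self_of_nhds.1 hτ'.self_of_nhds.2)).comp τ hτ).congr_of_eventuallyEq e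
  have hderiv : deriv f 0 = u := by
    have h1 := hd.self_of_nhds.hasDerivAt
    have h2 := ((tr_deriv (tr_mem' hzz hz)).comp_hasDerivAt_of_eq 0 h1 (by simp [h0]))
    exact (h2.congr_of_eventuallyEq hev).deriv
  have hcont : ContinuousAt f 0 := hfd.self_of_nhds.continuousAt
  have hf0 : f 0 = ch n p z := by simp [f, h0]
  have hball : ∀ᶠ τ in 𝓝 0, ‖f τ - c‖ < 2 * ρ :=
    ((hcont.sub continuousAt_const).norm).eventually_lt continuousAt_const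
      (by simp only [Pi.sub_apply, hf0]; linarith)
  obtain ⟨r₁, hr₁, hr⟩ := Metric.nhds_basis_closedBall.mem_iff.1
    (((hfd.and hball).and hs) : {τ : ℂ | (DifferentiableAt ℂ f τ ∧ ‖f τ - c‖ < 2 * ρ) ∧
      g τ ∈ (ch n z).source ∩ (ch n p).source} ∈ 𝓝 0)
  obtain ⟨Q, -, hrem⟩ := disc_taylor (f := f) (C := ‖c‖ + 2 * ρ) hr₁
    (fun τ hτ => (hr hτ).1.1.differentiableWithinAt) fun τ hτ => by
      linarith [norm_le_norm_add_norm_sub' (f τ) c, (hr hτ).1.2]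
  obtain ⟨b, hb0, hb⟩ := gd_chart_le hG hsub
  refine ⟨Q, fun ε hε => ?_⟩
  set K := 8 * (‖c‖ + 2 * ρ) / r₁ ^ 3
  have hK : 0 ≤ K := by positivity
  refine ⟨min (min r₁ 1) (min (ε / (b * K + 1)) (ρ / (‖u‖ + ‖Q‖ + 1))), by positivity,
    fun s hs' => ?_⟩
  simp only [lt_min_iff] at hs'
  have hs1 : s ∈ Metric.closedBall (0 : ℂ) r₁ := mem_closedBall_zero_iff.2 hs'.1.1.le
  set z' := fam (ch n p z) u Q s
  have hz' : z' ∈ Metric.closedBall c (2 * ρ) := by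
    rw [mem_closedBall_iff_norm]
    have e := fam_dist (y := ch n p z) (b := u) (e := Q) (s := s) hs'.1.2.le
    have e3 := (lt_div_iff₀ (by positivity)).1 hs'.2.2
    linarith [norm_sub_le_norm_sub_add_norm_sub z' (ch n p z) c, norm_nonneg s]
  obtain ⟨γ, hγ, e0, e1, hl⟩ := hb (f s) (mem_closedBall_iff_norm.2 (hr hs1).1.2.le) z' hz'
  have e5 : (ch n p).symm (f s) = g s := (ch n p).left_inv (hr hs1).2.2
  refine ((gd_le hγ (e0.trans e5) e1).trans hl).trans ?_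
  have hR := hrem s hs1
  rw [hderiv, hf0] at hR
  have e7 : f s - z' = f s - ch n p z - s • u - s ^ 2 • Q := by
    simp only [z', fam]
    abel
  rw [← e7, norm_sub_rev] at hR
  have e6 : b * K * ‖s‖ ≤ ε := by
    have h := (lt_div_iff₀ (by positivity)).1 hs'.2.1
    nlinarith [norm_nonneg s]
  calc b * ‖z' - f s‖ ≤ b * (K * ‖s‖ ^ 3) := mul_le_mul_of_nonneg_left hR hb0.le
    _ = b * K * ‖s‖ * ‖s‖ ^ 2 := by ring
    _ ≤ _ := mul_le_mul_of_nonneg_right e6 (sq_nonneg _)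

/-- Times at which the length reaches the multiples of `δ`. -/
theorem exists_times (hG : IsKaehler G) {γ : ℝ → M} (hγ : C1Curve (Cn n) γ) {N : ℕ} {δ : ℝ} (hδ : 0 < δ)
    (hL : (N : ℝ) * δ ≤ clen G γ) :
    ∃ T : ℕ → ℝ, T 0 = 0 ∧ (∀ k ≤ N, T k ∈ Icc (0 : ℝ) 1 ∧
      ∫ t in (0 : ℝ)..T k, speed G γ t = k * δ) ∧
      ∀ k < N, T k ≤ T (k + 1) ∧ ∫ t in T k..T (k + 1), speed G γ t = δ := by
  have hw := speed_continuous hG hγ
  set σ : ℝ → ℝ := fun t => ∫ s in (0 : ℝ)..t, speed G γ s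
  have hσc : Continuous σ :=
    intervalIntegral.continuous_primitive (fun a b => hw.intervalIntegrable a b) 0
  have hex : ∀ k : ℕ, ∃ t, (k = 0 → t = 0) ∧ (k ≤ N → t ∈ Icc (0 : ℝ) 1 ∧ σ t = k * δ) := fun k => by
    rcases Nat.eq_zero_or_pos k with rfl | hk
    · exact ⟨0, fun _ => rfl, fun _ => ⟨by simp, by simp [σ]⟩⟩
    by_cases hkN : k ≤ N
    · obtain ⟨t, ht, hte⟩ := intermediate_value_Icc zero_le_one hσc.continuousOn
        (show (k : ℝ) * δ ∈ Icc (σ 0) (σ 1) from ⟨by simp [σ]; positivity,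
          le_trans (mul_le_mul_of_nonneg_right (by exact_mod_cast hkN) hδ.le) hL⟩)
      exact ⟨t, fun h => absurd h hk.ne', fun _ => ⟨ht, hte⟩⟩
    · exact ⟨0, fun _ => rfl, fun h => absurd h hkN⟩
  choose T hT0 hT using hex
  refine ⟨T, hT0 0 rfl, hT, fun k hk => ?_⟩
  obtain ⟨-, e0⟩ := hT k hk.le
  obtain ⟨-, e1⟩ := hT (k + 1) hk
  have hadd : ∀ a b, σ a + ∫ s in a..b, speed G γ s = σ b := fun a b =>
    intervalIntegral.integral_add_adjacent_intervals (hw.intervalIntegrable _ _)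
      (hw.intervalIntegrable _ _)
  have hle : T k ≤ T (k + 1) := by
    by_contra h
    have hnn := intervalIntegral.integral_nonneg (le_of_not_ge h)
      (fun s _ => speed_nonneg G γ s) (μ := MeasureTheory.volume)
    have := hadd (T (k + 1)) (T k)
    push_cast at e1
    nlinarith
  have := hadd (T k) (T (k + 1))
  push_cast at e1
  exact ⟨hle, by linarith⟩

/-- Finitely many cells and constants for the variation from points of `Z`. -/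
structure Net (G : Metric (Cn n) M) (Z : Set M) (Sm SM : ℝ) where
  /-- radii -/
  ρ : M → ℝ
  /-- cells -/
  t : Finset M
  /-- number of pieces in unit length -/
  m : ℕ
  /-- length of the variation -/
  L : ℕ
  /-- curvature gain -/
  κ : ℝ
  rad : ∀ p, 0 < ρ p ∧ Metric.closedBall (ch n p p) (2 * ρ p) ⊆ (ch n p).target
  m_pos : 0 < m
  L_two : 2 ≤ L
  κ_pos : 0 < κ
  gain : 2 * SM ≤ κ * L
  conn_small : ∀ p ∈ t, ∃ C, 0 ≤ C ∧ C * (1 / (m : ℝ)) ≤ 1 / 2 ∧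
    ∀ y ∈ Metric.closedBall (ch n p p) (ρ p), ∀ v,
      ‖conn (rp G p) y v‖ ≤ C * Real.sqrt (sq (rp G p y) v)
  cells : ∀ z ∈ Z, ∀ (v : M) (d : ℝ), gd G z v ≤ d → d ≤ L → ∃ p ∈ t,
    (∀ w, gd G v w ≤ 1 / (m : ℝ) → w ∈ (ch n p).source ∧ ‖ch n p w - ch n p p‖ ≤ ρ p) ∧
    (d ≤ 1 → ∀ y ∈ Metric.closedBall (ch n p p) (ρ p), ∀ W u, sq (rp G p y) u = 1 →
      Sm / 4 ≤ sq (rp G p y) W → sq (rp G p y) W ≤ SM → κ ≤ bisect (rp G p) y W u)

theorem closedBall_target {p : M} {ρ : ℝ} (h : 0 < ρ ∧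
    Metric.closedBall (ch n p p) (2 * ρ) ⊆ (ch n p).target) :
    Metric.closedBall (ch n p p) ρ ⊆ (ch n p).target :=
  (Metric.closedBall_subset_closedBall (by linarith [h.1])).trans h.2

theorem exists_net (hG : IsKaehler G) (hK : PositiveBisect G) (hC : Complete G) {Z : Set M}
    (hZ : IsCompact Z) {Sm SM : ℝ} (hSm : 0 < Sm) : Nonempty (Net (n := n) G Z Sm SM) ∨ Z = ∅ := by
  rcases Z.eq_empty_or_nonempty with h | ⟨o, ho⟩
  · exact Or.inr h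
  left
  classical
  obtain ⟨ρ, hρ⟩ := exists_radius (n := n) (M := M)
  have hρ1 : ∀ p : M, Metric.closedBall (ch n p p) (ρ p) ⊆ (ch n p).target :=
    fun p => closedBall_target (hρ p)
  obtain ⟨D₀, hD₀'⟩ := hZ.exists_bound_of_continuousOn (continuous_gd hG o).continuousOn
  have hD₀ : ∀ z ∈ Z, gd G o z ≤ D₀ := fun z hz => (le_abs_self _).trans (hD₀' z hz)
  obtain ⟨t₁, δ₁, hδ₁, hcov₁⟩ := cover hG (fun p => (hρ p).1) hρ1 (isCompact_ball hG hC o (D₀ + 1))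
  obtain ⟨κ, hκ, hκb⟩ :=
    curvature_min hG hK t₁ hρ1 (Sm := Sm / 4) (SM := SM) (by linarith)
  obtain ⟨L, hL2, hLκ⟩ : ∃ L : ℕ, 2 ≤ L ∧ 2 * SM / κ ≤ L :=
    ⟨max 2 ⌈2 * SM / κ⌉₊, le_max_left _ _,
      (Nat.le_ceil _).trans (by exact_mod_cast le_max_right 2 ⌈2 * SM / κ⌉₊)⟩
  obtain ⟨t₂, δ₂, hδ₂, hcov₂⟩ :=
    cover hG (fun p => (hρ p).1) hρ1 (isCompact_ball hG hC o (D₀ + L))
  have hCb : ∀ p : M, ∃ C > 0, ∀ y ∈ Metric.closedBall (ch n p p) (ρ p), ∀ v,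
      ‖conn (rp G p) y v‖ ≤ C * Real.sqrt (sq (rp G p y) v) :=
    fun p => conn_bound hG (isCompact_closedBall _ _) (hρ1 p)
  choose C hC0 hCb using hCb
  obtain ⟨δ₀, hδ₀, hδ₀C⟩ := common_pos (t₁ ∪ t₂) (fun p => 1 / (2 * C p))
    (fun p _ => by have := hC0 p; positivity)
  obtain ⟨m, hm⟩ := exists_nat_gt (1 / min δ₀ (min δ₁ δ₂))
  have hm0 : 0 < (m : ℝ) := lt_trans (by positivity) hm
  have hδle : 1 / (m : ℝ) ≤ min δ₀ (min δ₁ δ₂) := by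
    rw [one_div_le hm0 (by positivity)]
    exact hm.le
  simp only [le_min_iff] at hδle
  refine ⟨{ ρ := ρ, t := t₁ ∪ t₂, m := m, L := L, κ := κ, rad := hρ
            m_pos := by exact_mod_cast hm0
            L_two := hL2, κ_pos := hκ
            gain := ((div_le_iff₀ hκ).1 hLκ).trans_eq (mul_comm _ _)
            conn_small := fun p hp => ⟨C p, (hC0 p).le, ?_, hCb p⟩
            cells := fun z hz v d hd hdL => ?_ }⟩
  · have := (le_div_iff₀ (by have := hC0 p; positivity)).1 (hδle.1.trans (hδ₀C p hp))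
    linarith
  · have h0 : gd G o v ≤ D₀ + d := by linarith [gd_triangle hG o z v, hD₀ z hz]
    by_cases hd1 : d ≤ 1
    · obtain ⟨p, hp, hpm⟩ := hcov₁ v (show gd G o v ≤ D₀ + 1 by linarith)
      exact ⟨p, Finset.mem_union_left _ hp, fun w hw => hpm w (hw.trans hδle.2.1),
        fun _ => hκb p hp⟩
    · obtain ⟨p, hp, hpm⟩ := hcov₂ v (show gd G o v ≤ D₀ + L by linarith)
      exact ⟨p, Finset.mem_union_right _ hp, fun w hw => hpm w (hw.trans hδle.2.2),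
        fun h => absurd h hd1⟩

variable {Z : Set M} {Sm SM : ℝ} (B : Net (n := n) G Z Sm SM)

/-- Length of one piece. -/
def Net.δ : ℝ := 1 / (B.m : ℝ)

theorem Net.δ_pos : 0 < B.δ := by have := B.m_pos; simp only [Net.δ]; positivity

theorem Net.m_δ : (B.m : ℝ) * B.δ = 1 := by
  have := B.m_pos
  simp only [Net.δ]
  field_simp

theorem Net.total : ((B.L * B.m : ℕ) : ℝ) * B.δ = B.L := by
  push_cast
  rw [mul_assoc, B.m_δ, mul_one]

theorem Net.two_le : (2 : ℝ) ≤ B.L := by exact_mod_cast B.L_two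

/-- Uniform piece bound. -/
def Net.PieceBound (A ε r₁ : ℝ) : Prop :=
  ∀ p ∈ B.t, ∀ γ : ℝ → M, C1Curve (Cn n) γ → ∀ t₀ t₁ : ℝ, t₀ ≤ t₁ →
      (∀ t ∈ Icc t₀ t₁, γ t ∈ (ch n p).source ∧ ‖ch n p (γ t) - ch n p p‖ ≤ B.ρ p) →
      (∫ t in t₀..t₁, speed G γ t) = B.δ → ∀ σ₀ κ : ℝ, 0 ≤ σ₀ → σ₀ + B.δ ≤ B.L → ∀ P₀ Q₀ : Cn n,
      sq (rp G p (ch n p (γ t₀))) P₀ ≤ SM → ‖Q₀‖ ≤ A →
      (∀ y ∈ Metric.closedBall (ch n p p) (B.ρ p), ∀ W u, sq (rp G p y) u = 1 →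
        (1 - (σ₀ + B.δ) / B.L) ^ 2 * sq (rp G p (ch n p (γ t₀))) P₀ ≤ sq (rp G p y) W →
        sq (rp G p y) W ≤ sq (rp G p (ch n p (γ t₀))) P₀ → κ ≤ bisect (rp G p) y W u) →
      ∃ P₁ : Cn n, sq (rp G p (ch n p (γ t₁))) P₁ = sq (rp G p (ch n p (γ t₀))) P₀ ∧
        ∀ r : ℝ, 0 ≤ r → r < r₁ →
          four (fun s => gd G ((ch n p).symm (fam (ch n p (γ t₀)) ((1 - σ₀ / B.L) • P₀) Q₀ s))
            ((ch n p).symm (fam (ch n p (γ t₁)) ((1 - (σ₀ + B.δ) / B.L) • P₁) 0 s))) r ≤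
          4 * B.δ + r ^ 2 * B.δ *
            (2 * (-κ + sq (rp G p (ch n p (γ t₀))) P₀ / (B.L : ℝ) ^ 2) + ε / 2)

theorem Net.pieces (hG : IsKaehler G) {A ε : ℝ} (hA : 0 ≤ A) (hε : 0 < ε) :
    ∃ r₁ > 0, B.PieceBound A ε r₁ := by
  have h : ∀ p ∈ B.t, ∃ r₁ > 0, ∀ γ : ℝ → M, C1Curve (Cn n) γ → ∀ t₀ t₁ : ℝ, t₀ ≤ t₁ →
      (∀ t ∈ Icc t₀ t₁, γ t ∈ (ch n p).source ∧ ‖ch n p (γ t) - ch n p p‖ ≤ B.ρ p) →
      (∫ t in t₀..t₁, speed G γ t) = B.δ → ∀ σ₀ κ : ℝ, 0 ≤ σ₀ → σ₀ + B.δ ≤ B.L → ∀ P₀ Q₀ : Cn n,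
      sq (rp G p (ch n p (γ t₀))) P₀ ≤ SM → ‖Q₀‖ ≤ A →
      (∀ y ∈ Metric.closedBall (ch n p p) (B.ρ p), ∀ W u, sq (rp G p y) u = 1 →
        (1 - (σ₀ + B.δ) / B.L) ^ 2 * sq (rp G p (ch n p (γ t₀))) P₀ ≤ sq (rp G p y) W →
        sq (rp G p y) W ≤ sq (rp G p (ch n p (γ t₀))) P₀ → κ ≤ bisect (rp G p) y W u) →
      ∃ P₁ : Cn n, sq (rp G p (ch n p (γ t₁))) P₁ = sq (rp G p (ch n p (γ t₀))) P₀ ∧
        ∀ r : ℝ, 0 ≤ r → r < r₁ →
          four (fun s => gd G ((ch n p).symm (fam (ch n p (γ t₀)) ((1 - σ₀ / B.L) • P₀) Q₀ s))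
            ((ch n p).symm (fam (ch n p (γ t₁)) ((1 - (σ₀ + B.δ) / B.L) • P₁) 0 s))) r ≤
          4 * B.δ + r ^ 2 * B.δ *
            (2 * (-κ + sq (rp G p (ch n p (γ t₀))) P₀ / (B.L : ℝ) ^ 2) + ε / 2) := fun p hp => by
    obtain ⟨C, hC, hCδ, hconn⟩ := B.conn_small p hp
    exact piece (H := G) hG (B.rad p).1 (B.rad p).2 hC hconn (SM := SM) hA hε
      (le_trans one_le_two B.two_le) B.δ_pos hCδ
  choose! r₁ hr₁ hr using h
  obtain ⟨r, hr0, hrle⟩ := common_pos B.t r₁ hr₁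
  refine ⟨r, hr0, fun p hp γ a t₀ t₁ b c d σ₀ κ e f P₀ Q₀ g h i => ?_⟩
  obtain ⟨P₁, h1, h2⟩ := hr p hp γ a t₀ t₁ b c d σ₀ κ e f P₀ Q₀ g h i
  exact ⟨P₁, h1, fun s hs hs' => h2 s hs (hs'.trans_le (hrle p hp))⟩

theorem Net.jumps (hG : IsKaehler G) : ∃ A' ≥ 0, ∀ ε : ℝ, 0 < ε → ∃ r₂ > 0,
    ∀ p ∈ B.t, ∀ q ∈ B.t, ∀ v : M,
      v ∈ (ch n p).source → ‖ch n p v - ch n p p‖ ≤ B.ρ p → v ∈ (ch n q).source →
      ‖ch n q v - ch n q q‖ ≤ B.ρ q →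
      ∀ W : Cn n, sq (rp G p (ch n p v)) W ≤ SM → ∃ Q : Cn n, ‖Q‖ ≤ A' ∧ ∀ s : ℂ, ‖s‖ < r₂ →
        gd G ((ch n p).symm (fam (ch n p v) W 0 s)) ((ch n q).symm
          (fam (ch n q v) (dtr n p q (ch n p v) W) Q s)) ≤ ε * ‖s‖ ^ 2 := by
  classical
  have hjun : ∀ q : M × M, ∃ A' ≥ 0, ∀ ε : ℝ, 0 < ε → ∃ r₀ > 0, ∀ v : M,
      v ∈ (ch n q.1).source → ‖ch n q.1 v - ch n q.1 q.1‖ ≤ B.ρ q.1 → v ∈ (ch n q.2).source →
      ‖ch n q.2 v - ch n q.2 q.2‖ ≤ B.ρ q.2 →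
      ∀ W : Cn n, sq (rp G q.1 (ch n q.1 v)) W ≤ SM → ∃ Q : Cn n, ‖Q‖ ≤ A' ∧ ∀ s : ℂ, ‖s‖ < r₀ →
        gd G ((ch n q.1).symm (fam (ch n q.1 v) W 0 s)) ((ch n q.2).symm
          (fam (ch n q.2 v) (dtr n q.1 q.2 (ch n q.1 v) W) Q s)) ≤ ε * ‖s‖ ^ 2 := by
    intro q
    obtain ⟨a, b, ha, -, hab⟩ :=
      hG.bounds (isCompact_closedBall _ _) (closedBall_target (B.rad q.1))
    obtain ⟨A', hA', h⟩ := junction hG (B.rad q.1).1 (B.rad q.2).1 (B.rad q.1).2 (B.rad q.2).2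
      (A := Real.sqrt SM / a) (div_nonneg (Real.sqrt_nonneg _) ha.le)
    refine ⟨A', hA', fun ε hε => ?_⟩
    obtain ⟨r, hr, h'⟩ := h ε hε
    refine ⟨r, hr, fun v a1 a2 a3 a4 W hW => h' v a1 a2 a3 a4 W ?_⟩
    rw [le_div_iff₀ ha]
    nlinarith [(hab _ (mem_closedBall_iff_norm.2 a2) W).1, Real.sqrt_le_sqrt hW]
  choose A' hA'0 hjun using hjun
  refine ⟨∑ q ∈ B.t ×ˢ B.t, A' q, Finset.sum_nonneg fun q _ => hA'0 q, fun ε hε => ?_⟩
  choose r hr0 hr using fun q => hjun q ε hε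
  obtain ⟨r₂, hr₂, hle⟩ := common_pos (B.t ×ˢ B.t) r fun q _ => hr0 q
  refine ⟨r₂, hr₂, fun p hp q hq v a1 a2 a3 a4 W hW => ?_⟩
  have hm := Finset.mem_product.2 (⟨hp, hq⟩ : (p, q).1 ∈ B.t ∧ (p, q).2 ∈ B.t)
  obtain ⟨Q, hQ, h⟩ := hr (p, q) v a1 a2 a3 a4 W hW
  exact ⟨Q, hQ.trans (Finset.single_le_sum (fun i _ => hA'0 i) hm),
    fun s hs => h s (hs.trans_le (hle _ hm))⟩

/-- The accumulated bound after `k` pieces. -/
def Net.acc (ε ε' : ℝ) (k : ℕ) : ℝ :=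
  4 * ε' * (k + 1) + k * B.δ * (2 * SM / (B.L : ℝ) ^ 2 + ε / 2) - 2 * B.κ * B.δ * min (k : ℝ) B.m

theorem acc_succ (ε ε' : ℝ) (k : ℕ) {S κ' : ℝ} (hS : S ≤ SM)
    (hκ : κ' = if k < B.m then B.κ else 0) :
    B.acc ε ε' k + B.δ * (2 * (-κ' + S / (B.L : ℝ) ^ 2) + ε / 2) ≤
      B.acc ε ε' (k + 1) - 4 * ε' := by
  have h := mul_le_mul_of_nonneg_left (div_le_div_of_nonneg_right hS (sq_nonneg (B.L : ℝ)))
    B.δ_pos.le
  have h2 : 2 * SM / (B.L : ℝ) ^ 2 = 2 * (SM / (B.L : ℝ) ^ 2) := by ring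
  simp only [Net.acc, h2, hκ]
  push_cast
  split_ifs with hkm
  · have : (k : ℝ) + 1 ≤ B.m := by exact_mod_cast hkm
    rw [min_eq_left this, min_eq_left (by linarith)]
    linarith
  · have : (B.m : ℝ) ≤ k := by exact_mod_cast not_lt.1 hkm
    rw [min_eq_right this, min_eq_right (by linarith)]
    linarith

theorem acc_total {ε ε' : ℝ} (hε : ε = B.κ / (2 * B.L))
    (hε' : ε' = B.κ / (16 * ((B.L * B.m : ℕ) + 1))) :
    B.acc ε ε' (B.L * B.m) ≤ -B.κ / 2 := by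
  have hL : (0 : ℝ) < B.L := lt_of_lt_of_le two_pos B.two_le
  have hmin : min ((B.L * B.m : ℕ) : ℝ) B.m = B.m := min_eq_right (by
    exact_mod_cast Nat.le_mul_of_pos_left _ (lt_of_lt_of_le two_pos B.L_two))
  have b1 : 4 * ε' * (((B.L * B.m : ℕ) : ℝ) + 1) = B.κ / 4 := by
    rw [hε']; field_simp; ring
  have b2 : (B.L : ℝ) * (2 * SM / (B.L : ℝ) ^ 2 + ε / 2) = 2 * SM / B.L + B.κ / 4 := by
    rw [hε]; field_simp; ring
  have b3 : 2 * SM / (B.L : ℝ) ≤ B.κ := by rw [div_le_iff₀ hL]; exact B.gain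
  simp only [Net.acc]
  rw [hmin, b1, B.total, b2, mul_assoc (2 * B.κ), mul_comm B.δ, B.m_δ]
  linarith

/-- The data of a curve cut into pieces. -/
structure Track (γ : ℝ → M) (z : M) where
  /-- times -/
  T : ℕ → ℝ
  /-- cells -/
  P : ℕ → M
  zero : T 0 = 0
  mem : ∀ k < B.L * B.m, P k ∈ B.t
  le : ∀ k < B.L * B.m, T k ≤ T (k + 1) ∧ ∫ t in T k..T (k + 1), speed G γ t = B.δ
  stay : ∀ k < B.L * B.m, ∀ τ ∈ Icc (T k) (T (k + 1)),
    γ τ ∈ (ch n (P k)).source ∧ ‖ch n (P k) (γ τ) - ch n (P k) (P k)‖ ≤ B.ρ (P k)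
  curved : ∀ k < B.m, ∀ y ∈ Metric.closedBall (ch n (P k) (P k)) (B.ρ (P k)), ∀ W u,
    sq (rp G (P k) y) u = 1 → Sm / 4 ≤ sq (rp G (P k) y) W → sq (rp G (P k) y) W ≤ SM →
      B.κ ≤ bisect (rp G (P k)) y W u
  finish : gd G (γ (T (B.L * B.m))) (γ 1) ≤ clen G γ - B.L

theorem exists_track (hG : IsKaehler G) (p₀ : M) {z : M} (hz : z ∈ Z) (hp₀ : p₀ ∈ B.t)
    (hp₀m : ∀ w, gd G z w ≤ B.δ → w ∈ (ch n p₀).source ∧ ‖ch n p₀ w - ch n p₀ p₀‖ ≤ B.ρ p₀)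
    (hp₀c : ∀ y ∈ Metric.closedBall (ch n p₀ p₀) (B.ρ p₀), ∀ W u, sq (rp G p₀ y) u = 1 →
      Sm / 4 ≤ sq (rp G p₀ y) W → sq (rp G p₀ y) W ≤ SM → B.κ ≤ bisect (rp G p₀) y W u)
    {γ : ℝ → M} (hγ : C1Curve (Cn n) γ) (γ0 : γ 0 = z) (hlong : (B.L : ℝ) ≤ clen G γ) :
    ∃ T : Track B γ z, T.P 0 = p₀ := by
  classical
  obtain ⟨T, hT0, hT, hTs⟩ :=
    exists_times hG hγ (N := B.L * B.m) B.δ_pos (B.total.symm ▸ hlong)
  have hw := speed_continuous hG hγ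
  have hdist : ∀ k ≤ B.L * B.m, gd G z (γ (T k)) ≤ k * B.δ := fun k hk => by
    obtain ⟨h1, h2⟩ := hT k hk
    have := subcurve hG hγ h1.1
    rw [γ0, h2] at this
    exact this
  have hcell : ∀ k < B.L * B.m, ∃ p ∈ B.t, (k = 0 → p = p₀) ∧
      (∀ τ ∈ Icc (T k) (T (k + 1)), γ τ ∈ (ch n p).source ∧ ‖ch n p (γ τ) - ch n p p‖ ≤ B.ρ p) ∧
      (k < B.m → ∀ y ∈ Metric.closedBall (ch n p p) (B.ρ p), ∀ W u, sq (rp G p y) u = 1 →
        Sm / 4 ≤ sq (rp G p y) W → sq (rp G p y) W ≤ SM → B.κ ≤ bisect (rp G p) y W u) := by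
    intro k hk
    have hnear : ∀ τ ∈ Icc (T k) (T (k + 1)), gd G (γ (T k)) (γ τ) ≤ B.δ := fun τ hτ =>
      (subcurve hG hγ hτ.1).trans ((intervalIntegral.integral_mono_interval le_rfl hτ.1 hτ.2
        (Eventually.of_forall fun s => Real.sqrt_nonneg _) (hw.intervalIntegrable _ _)).trans_eq
        (hTs k hk).2)
    by_cases hk0 : k = 0
    · refine ⟨p₀, hp₀, fun _ => rfl, fun τ hτ => hp₀m _ ?_, fun _ => hp₀c⟩
      have := hnear τ hτ
      rwa [hk0, hT0, γ0] at this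
    obtain ⟨p, hp, hm, hc⟩ := B.cells z hz (γ (T k)) (k * B.δ) (hdist k hk.le)
      (B.total ▸ mul_le_mul_of_nonneg_right (by exact_mod_cast hk.le) B.δ_pos.le)
    exact ⟨p, hp, fun h => absurd h hk0, fun τ hτ => hm _ (hnear τ hτ), fun hkm => hc
      (B.m_δ ▸ mul_le_mul_of_nonneg_right (by exact_mod_cast hkm.le) B.δ_pos.le)⟩
  have hnt : Nonempty M := ⟨z⟩
  choose! P hPt hP0 hPs hPc using hcell
  have hN : B.m ≤ B.L * B.m := Nat.le_mul_of_pos_left _ (lt_of_lt_of_le two_pos B.L_two)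
  refine ⟨{ T := T, P := P, zero := hT0, mem := hPt, le := hTs, stay := hPs
            curved := fun k hk => hPc k (hk.trans_le hN) hk
            finish := ?_ }, hP0 0 (Nat.mul_pos (lt_of_lt_of_le two_pos B.L_two) B.m_pos) rfl⟩
  obtain ⟨h1, h2⟩ := hT _ le_rfl
  refine (subcurve hG hγ h1.2).trans_eq ?_
  rw [clen, ← intervalIntegral.integral_add_adjacent_intervals
    (hw.intervalIntegrable 0 (T (B.L * B.m))) (hw.intervalIntegrable (T (B.L * B.m)) 1), h2,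
    B.total]
  ring

variable {B} {γ : ℝ → M} {z : M} (T : Track B γ z)

/-- The state entering piece `k`. -/
def Track.In (g : ℂ → M) (S A ε ε' r : ℝ) (k : ℕ) : Prop :=
  ∃ W Q : Cn n, sq (rp G (T.P k) (ch n (T.P k) (γ (T.T k)))) W = S ∧ ‖Q‖ ≤ A ∧
    four (fun s => gd G (g s) ((ch n (T.P k)).symm (fam (ch n (T.P k) (γ (T.T k)))
      ((1 - (k : ℝ) * B.δ / B.L) • W) Q s))) r ≤ 4 * k * B.δ + r ^ 2 * B.acc ε ε' k

/-- The state leaving piece `k`. -/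
def Track.Out (g : ℂ → M) (S ε ε' r : ℝ) (k : ℕ) : Prop :=
  ∃ W' : Cn n, sq (rp G (T.P k) (ch n (T.P k) (γ (T.T (k + 1))))) W' = S ∧
    four (fun s => gd G (g s) ((ch n (T.P k)).symm (fam (ch n (T.P k) (γ (T.T (k + 1))))
      ((1 - ((k : ℝ) + 1) * B.δ / B.L) • W') 0 s))) r ≤
      4 * ((k : ℝ) + 1) * B.δ + r ^ 2 * (B.acc ε ε' (k + 1) - 4 * ε')

theorem Track.step (hG : IsKaehler G) (hK : PositiveBisect G) (hγ : C1Curve (Cn n) γ) {g : ℂ → M}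
    {S A ε ε' r r₁ : ℝ} (hpc : B.PieceBound A ε r₁) (hS : Sm ≤ S) (hSm : 0 < Sm) (hSM : S ≤ SM)
    (hr : 0 ≤ r) (hrr : r < r₁) {k : ℕ} (hk : k < B.L * B.m) (hin : T.In g S A ε ε' r k) :
    T.Out g S ε ε' r k := by
  obtain ⟨W, Q, hW, hQ, hfour⟩ := hin
  have hkN : (k : ℝ) * B.δ + B.δ ≤ B.L := by
    rw [← B.total]
    have : ((k : ℝ) + 1) ≤ (B.L * B.m : ℕ) := by exact_mod_cast hk
    nlinarith [B.δ_pos]
  have hL := B.two_le
  obtain ⟨W', hW', hb⟩ := hpc (T.P k) (T.mem k hk) γ hγ (T.T k) (T.T (k + 1)) (T.le k hk).1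
    (T.stay k hk) (T.le k hk).2 ((k : ℝ) * B.δ) (if k < B.m then B.κ else 0)
    (mul_nonneg (Nat.cast_nonneg k) B.δ_pos.le) hkN W Q (hW ▸ hSM) hQ (fun y hy V u hu h1 h2 => by
      split_ifs with hkm
      · rw [hW] at h1 h2
        refine T.curved k hkm y hy V u hu (le_trans ?_ h1) (h2.trans hSM)
        have hk1 : (k : ℝ) * B.δ + B.δ ≤ 1 := by
          rw [← B.m_δ]
          have : ((k : ℝ) + 1) ≤ B.m := by exact_mod_cast hkm
          nlinarith [B.δ_pos]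
        have h3 : 1 / 2 ≤ 1 - ((k : ℝ) * B.δ + B.δ) / B.L := by
          have : ((k : ℝ) * B.δ + B.δ) / (B.L : ℝ) ≤ 1 / 2 := by
            rw [div_le_div_iff₀ (by linarith) two_pos]; linarith
          linarith
        have h4 := pow_le_pow_left₀ (by norm_num : (0 : ℝ) ≤ 1 / 2) h3 2
        nlinarith
      · exact bisect_nonneg hK (closedBall_target (B.rad _) hy) V u)
  refine ⟨W', hW'.trans hW, ?_⟩
  have hb' := hb r hr hrr
  rw [hW] at hb'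
  rw [show (1 - ((k : ℝ) + 1) * B.δ / B.L) = 1 - ((k : ℝ) * B.δ + B.δ) / B.L by ring]
  set mid : ℂ → M := fun s => (ch n (T.P k)).symm
    (fam (ch n (T.P k) (γ (T.T k))) ((1 - (k : ℝ) * B.δ / B.L) • W) Q s)
  set fin : ℂ → M := fun s => (ch n (T.P k)).symm
    (fam (ch n (T.P k) (γ (T.T (k + 1)))) ((1 - ((k : ℝ) * B.δ + B.δ) / B.L) • W') 0 s)
  refine (four_mono (h := fun s => gd G (g s) (mid s) + gd G (mid s) (fin s)) hr
    fun s _ => gd_triangle hG (g s) (mid s) (fin s)).trans ?_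
  rw [four_add]
  refine (add_le_add hfour hb').trans ?_
  have := mul_le_mul_of_nonneg_left
    (acc_succ B ε ε' k hSM (rfl : (if k < B.m then B.κ else 0) = _)) (sq_nonneg r)
  linarith

/-- Uniform jump bound. -/
def Net.JumpBound (B : Net (n := n) G Z Sm SM) (A ε' r₂ : ℝ) : Prop :=
  ∀ p ∈ B.t, ∀ q ∈ B.t, ∀ v : M,
      v ∈ (ch n p).source → ‖ch n p v - ch n p p‖ ≤ B.ρ p → v ∈ (ch n q).source →
      ‖ch n q v - ch n q q‖ ≤ B.ρ q →
      ∀ W : Cn n, sq (rp G p (ch n p v)) W ≤ SM → ∃ Q : Cn n, ‖Q‖ ≤ A ∧ ∀ s : ℂ, ‖s‖ < r₂ →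
        gd G ((ch n p).symm (fam (ch n p v) W 0 s)) ((ch n q).symm
          (fam (ch n q v) (dtr n p q (ch n p v) W) Q s)) ≤ ε' * ‖s‖ ^ 2

theorem Track.next (hG : IsKaehler G) {g : ℂ → M} {S A ε ε' r r₂ : ℝ}
    (hj : B.JumpBound A ε' r₂) (hS0 : 0 ≤ S) (hSM : S ≤ SM) (hr : 0 ≤ r) (hrr : r < r₂) {k : ℕ}
    (hk1 : k + 1 < B.L * B.m) (hout : T.Out g S ε ε' r k) : T.In g S A ε ε' r (k + 1) := by
  obtain ⟨W', hW', hfour⟩ := hout
  have hk : k < B.L * B.m := Nat.lt_of_succ_lt hk1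
  set v := γ (T.T (k + 1))
  have hv := T.stay k hk (T.T (k + 1)) (right_mem_Icc.2 (T.le k hk).1)
  have hv' := T.stay (k + 1) hk1 (T.T (k + 1)) (left_mem_Icc.2 (T.le (k + 1) hk1).1)
  set β : ℝ := 1 - ((k : ℝ) + 1) * B.δ / B.L
  have hL := B.two_le
  have hδ := B.δ_pos
  have hβ : 0 ≤ β ∧ β ≤ 1 := by
    have h1 : ((k : ℝ) + 1) * B.δ ≤ B.L := by
      rw [← B.total]
      exact mul_le_mul_of_nonneg_right (by exact_mod_cast hk1.le) B.δ_pos.le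
    exact ⟨sub_nonneg.2 ((div_le_one (by linarith)).2 h1), sub_le_self _ (by positivity)⟩
  have hWb : sq (rp G (T.P k) (ch n (T.P k) v)) (β • W') ≤ SM := by
    rw [sq_smul_real, hW']
    exact (mul_le_of_le_one_left hS0 (pow_le_one₀ hβ.1 hβ.2)).trans hSM
  obtain ⟨Q, hQ, hQs⟩ := hj _ (T.mem k hk) _ (T.mem _ hk1) v hv.1 hv.2 hv'.1 hv'.2 _ hWb
  refine ⟨dtr n (T.P k) (T.P (k + 1)) (ch n (T.P k) v) W', Q, ?_, hQ, ?_⟩
  · rw [← hW', sq_change G (tr_mem' hv.1 hv'.1) W']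
    simp [v, tr, (ch n (T.P k)).left_inv hv.1]
  · have e : (1 - ((k + 1 : ℕ) : ℝ) * B.δ / B.L) •
        dtr n (T.P k) (T.P (k + 1)) (ch n (T.P k) v) W' =
        dtr n (T.P k) (T.P (k + 1)) (ch n (T.P k) v) (β • W') := by
      push_cast
      simp [β, ← Complex.coe_smul]
    rw [e]
    refine (four_mono (h := fun s => gd G (g s)
      ((ch n (T.P k)).symm (fam (ch n (T.P k) v) (β • W') 0 s)) + ε' * r ^ 2) hr fun s hs =>
      (gd_triangle hG _ ((ch n (T.P k)).symm (fam (ch n (T.P k) v) (β • W') 0 s)) _).trans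
        (add_le_add le_rfl ?_)).trans ?_
    · have := hQs s (hs ▸ hrr)
      rwa [hs] at this
    · rw [four_add, four_const]
      push_cast
      linarith

theorem Track.finish_bound (hG : IsKaehler G) {g : ℂ → M} {S ε ε' r : ℝ} {x : M}
    (γ1 : γ 1 = x) (hr : 0 ≤ r) {k : ℕ} (hk : k + 1 = B.L * B.m)
    (hout : T.Out g S ε ε' r k) :
    four (fun s => gd G (g s) x) r ≤
      4 * clen G γ + r ^ 2 * (B.acc ε ε' (B.L * B.m) - 4 * ε') := by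
  obtain ⟨W', -, hfour⟩ := hout
  have hkR : (k : ℝ) + 1 = (B.L * B.m : ℕ) := by exact_mod_cast hk
  have hv := T.stay k (by omega) (T.T (k + 1)) (right_mem_Icc.2 (T.le k (by omega)).1)
  have hend : ∀ s : ℂ, gd G (g s) x ≤ gd G (g s) ((ch n (T.P k)).symm
      (fam (ch n (T.P k) (γ (T.T (k + 1)))) ((1 - ((k : ℝ) + 1) * B.δ / B.L) • W') 0 s)) +
      (clen G γ - B.L) := fun s => by
    have e : (ch n (T.P k)).symm (fam (ch n (T.P k) (γ (T.T (k + 1))))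
        ((1 - ((k : ℝ) + 1) * B.δ / B.L) • W') 0 s) = γ (T.T (k + 1)) := by
      rw [hkR, B.total, div_self (by linarith [B.two_le]), sub_self, zero_smul]
      simp [fam, (ch n (T.P k)).left_inv hv.1]
    rw [e]
    refine (gd_triangle hG _ (γ (T.T (k + 1))) _).trans (add_le_add le_rfl ?_)
    have := T.finish
    rwa [γ1, ← hk] at this
  refine (four_mono hr fun s _ => hend s).trans ?_
  rw [four_add, four_const]
  refine (add_le_add hfour le_rfl).trans ?_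
  rw [mul_assoc 4 ((k : ℝ) + 1), hkR, B.total, hk]
  linarith

/-- Frankel's variation: strict superharmonicity of the distance to far points. -/
theorem variation (hG : IsKaehler G) (hK : PositiveBisect G) (hC : Complete G) {Z : Set M}
    (hZ : IsCompact Z) {Sm SM : ℝ} (hSm : 0 < Sm) :
    ∃ c > 0, ∃ R : ℝ, ∀ z ∈ Z, ∀ g : ℂ → M, g 0 = z → ContinuousAt g 0 →
      (∀ᶠ τ in 𝓝 0, DifferentiableAt ℂ (fun τ => ch n z (g τ)) τ) →
      Sm ≤ sq (G z) (deriv (fun τ => ch n z (g τ)) 0) →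
      sq (G z) (deriv (fun τ => ch n z (g τ)) 0) ≤ SM →
      ∀ x, R < gd G z x → ∃ r₀ > 0, ∀ r : ℝ, 0 < r → r < r₀ →
        four (fun s => gd G (g s) x) r ≤ 4 * gd G z x - c * r ^ 2 := by
  rcases exists_net (n := n) hG hK hC hZ (SM := SM) hSm with ⟨⟨B⟩⟩ | rfl
  swap
  · exact ⟨1, one_pos, 0, fun z hz => absurd hz (notMem_empty z)⟩
  have hκ := B.κ_pos
  have hL := B.two_le
  refine ⟨B.κ / 4, by positivity, B.L, fun z hz g hg0 hgc hgd hSl hSu x hx => ?_⟩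
  obtain ⟨p₀, hp₀, hp₀m, hp₀c⟩ :=
    B.cells z hz z 0 (gd_self G z).le (Nat.cast_nonneg _)
  obtain ⟨hzs, hzb⟩ := hp₀m z (by rw [gd_self]; have := B.m_pos; positivity)
  obtain ⟨Q₀, hgerm⟩ := germ_start hG (B.rad p₀).1 (B.rad p₀).2 hzs hzb hg0 hgc hgd
  obtain ⟨A', hA', hjump⟩ := B.jumps hG
  obtain ⟨ε', hε', hε'e⟩ : ∃ ε' > 0, ε' = B.κ / (16 * ((B.L * B.m : ℕ) + 1)) :=
    ⟨_, by positivity, rfl⟩
  obtain ⟨ε, hε, hεe⟩ : ∃ ε > 0, ε = B.κ / (2 * B.L) := ⟨_, by positivity, rfl⟩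
  obtain ⟨r₂, hr₂, hj⟩ := hjump ε' hε'
  obtain ⟨r₁, hr₁, hpc⟩ := B.pieces hG (A := ‖Q₀‖ + A') (by positivity) hε
  obtain ⟨rg, hrg, hg⟩ := hgerm ε' hε'
  refine ⟨min rg (min r₁ r₂), by positivity, fun r hr hrr => ?_⟩
  simp only [lt_min_iff] at hrr
  obtain ⟨γ, hγ, γ0, γ1, hlen⟩ :=
    exists_lt hG (show gd G z x < gd G z x + B.κ * r ^ 2 / 16 from
      lt_add_of_pos_right _ (by positivity))
  obtain ⟨T, hT⟩ := exists_track B hG p₀ hz hp₀ hp₀m (hp₀c zero_le_one) hγ γ0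
    (hx.le.trans (gd_le hγ γ0 γ1))
  set S := sq (G z) (deriv (fun τ => ch n z (g τ)) 0)
  have hj' : B.JumpBound (‖Q₀‖ + A') ε' r₂ := fun p hp q hq v a b c d W hW => by
    obtain ⟨Q, h1, h2⟩ := hj p hp q hq v a b c d W hW
    exact ⟨Q, h1.trans (le_add_of_nonneg_left (norm_nonneg _)), h2⟩
  have all : ∀ k < B.L * B.m, T.In g S (‖Q₀‖ + A') ε ε' r k := by
    intro k
    induction k with
    | zero =>
      intro hN
      refine ⟨dtr n z (T.P 0) (ch n z z) (deriv (fun τ => ch n z (g τ)) 0), Q₀, ?_,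
        le_add_of_nonneg_right hA', ?_⟩
      · have e := sq_change G (tr_mem' (mem_chart_source (Cn n) z) (hT ▸ hzs :
          z ∈ (ch n (T.P 0)).source)) (deriv (fun τ => ch n z (g τ)) 0)
        rw [rep_center] at e
        simp only [S, T.zero, γ0, e]
        simp [tr, (ch n z).left_inv (mem_chart_source (Cn n) z)]
      · rw [hT]
        refine (four_mono (h := fun _ => ε' * r ^ 2) hr.le fun s hs => ?_).trans ?_
        · have := hg s (hs ▸ hrr.1)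
          rw [hs] at this
          simpa [T.zero, γ0] using this
        · rw [four_const]
          simp [Net.acc]
          linarith
    | succ k ih =>
      intro hk1
      exact T.next hG hj' (hSm.le.trans hSl) hSu hr.le hrr.2.2 hk1
        (T.step hG hK hγ hpc hSl hSm hSu hr.le hrr.2.1 (Nat.lt_of_succ_lt hk1)
          (ih (Nat.lt_of_succ_lt hk1)))
  have hN : 0 < B.L * B.m := Nat.mul_pos (lt_of_lt_of_le two_pos B.L_two) B.m_pos
  have hk : B.L * B.m - 1 + 1 = B.L * B.m := by omega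
  have hfin := T.finish_bound hG γ1 hr.le hk
    (T.step hG hK hγ hpc hSl hSm hSu hr.le hrr.2.1 (by omega) (all _ (by omega)))
  refine hfin.trans ?_
  have := mul_le_mul_of_nonneg_left (acc_total B hεe hε'e) (sq_nonneg r)
  nlinarith

end Vale.Agent.P253.Circle
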