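import Vale.Agent.P253.Circle.Moment
import Vale.Agent.P253.Circle.Variation

/-!
P253: an orbit of the complexified action with bounded moment does not exist.
-/

open scoped Manifold ContDiff InnerProductSpace Topology
open Complex Set Filter

noncomputable section

namespace Vale.Agent.P253.Circle

open Vale.Agent.Results.P253.SymmetricDomains (rot)

/-- `x^2` continued linearly outside `[-1,1]`. -/
def hub (x : ℝ) : ℝ := x ^ 2 - max (|x| - 1) 0 ^ 2

theorem continuous_hub : Continuous hub := by unfold hub; fun_prop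

theorem hub_zero : hub 0 = 0 := by simp [hub]

theorem hub_far {x : ℝ} (h : 1 ≤ |x|) : hub x = 2 * |x| - 1 := by
  rw [hub, max_eq_left (by linarith), ← sq_abs x]
  ring

theorem hub_second (x r : ℝ) : hub (x + r) + hub (x - r) ≤ 2 * hub x + 2 * r ^ 2 := by
  unfold hub
  set A := max (|x + r| - 1) 0
  set B := max (|x - r| - 1) 0
  have h1 : max (|x| - 1) 0 ≤ (A + B) / 2 := by
    refine max_le ?_ (by positivity)
    have h2 : 2 * |x| ≤ |x + r| + |x - r| := by
      have := abs_add_le (x + r) (x - r)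
      rw [show x + r + (x - r) = 2 * x by ring, abs_mul, abs_two] at this
      exact this
    linarith [le_max_left (|x + r| - 1) 0, le_max_left (|x - r| - 1) 0]
  nlinarith [pow_le_pow_left₀ (le_max_right _ _) h1 2, sq_nonneg (A - B)]

theorem hub_affine {x r : ℝ} (hx : 2 < |x|) (hr : |r| < 1) :
    hub (x + r) + hub (x - r) = 2 * hub x := by
  obtain ⟨h1, h2⟩ := abs_lt.1 hr
  rcases lt_abs.1 hx with h | h
  · have e : ∀ y, 1 ≤ y → hub y = 2 * y - 1 := fun y hy => by
      rw [hub_far (le_abs.2 (Or.inl hy)), abs_of_pos (by linarith)]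
    rw [e x (by linarith), e _ (by linarith), e _ (by linarith)]
    ring
  · have e : ∀ y, y ≤ -1 → hub y = 2 * (-y) - 1 := fun y hy => by
      rw [hub_far (le_abs.2 (Or.inr (by linarith))), abs_of_neg (by linarith)]
    rw [e x (by linarith), e _ (by linarith), e _ (by linarith)]
    ring

variable {n : ℕ} {M : Type} [TopologicalSpace M] [T2Space M] [ConnectedSpace M]
  [ChartedSpace (Cn n) M] [IsManifold 𝓘(ℂ, Cn n) ω M] {G : Metric (Cn n) M} {k : Fin n → ℕ}
  {Ψ : Cn n → M} {F : Cn n → ℝ}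

/-- The energy density of the orbit of `z₀`. -/
abbrev dens (G : Metric (Cn n) M) (k : Fin n → ℕ) (Ψ : Cn n → M) (z : Cn n) : ℝ :=
  sq (indMetric G Ψ z) (diag (fun j => (k j : ℂ)) z)

omit [T2Space M] [ConnectedSpace M] [IsManifold 𝓘(ℂ, Cn n) ω M] in
theorem continuous_dens (hH : Local univ (indMetric G Ψ)) : Continuous (dens G k Ψ) :=
  Complex.continuous_re.comp ((diag _).continuous.inner
    ((contDiffOn_univ.1 hH.smooth).continuous.clm_apply (diag _).continuous))

omit [T2Space M] [ConnectedSpace M] in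
theorem ray_dist (hG : IsKaehler G) (himm : ∀ z, Imm n Ψ z)
    (hH : Local univ (indMetric G Ψ)) (hF : ∀ z, HasFDerivAt F (form k (indMetric G Ψ) z) z)
    (z : Cn n) {x ε : ℝ} (hx : 0 ≤ x) (hε : 0 < ε) :
    gd G (Ψ z) (Ψ (rot k (x : ℂ) z)) ≤ (ε * x + (F (rot k (x : ℂ) z) - F z) / ε) / 2 := by
  set θ : ℝ → ℝ := fun s => x * Real.smoothTransition s
  have hθ : ContDiff ℝ 1 θ := contDiff_const.mul Real.smoothTransition.contDiff
  have hθm : Monotone θ := fun a b hab =>
    mul_le_mul_of_nonneg_left (Real.smoothTransition.monotone hab) hx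
  set c : ℝ → Cn n := fun s => rot k (θ s : ℂ) z
  have hcd : ∀ s, HasDerivAt c (deriv θ s • diag (fun j => (k j : ℂ)) (c s)) s := fun s =>
    (hasDerivAt_rot k z (θ s)).scomp s (hθ.differentiable one_ne_zero s).hasDerivAt
  have hcc : Continuous c := continuous_iff_continuousAt.2 fun s => (hcd s).continuousAt
  have hc : ContDiff ℝ 1 c := contDiff_one_iff_deriv.2 ⟨fun s => (hcd s).differentiableAt, by
    rw [show deriv c = fun s => deriv θ s • diag (fun j => (k j : ℂ)) (c s) from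
      funext fun s => (hcd s).deriv]
    exact (hθ.continuous_deriv le_rfl).smul ((diag _).continuous.comp hcc)⟩
  obtain ⟨hcur, hsp⟩ := curve_push G isOpen_univ (fun w _ => himm w) hc fun _ => trivial
  refine (gd_le hcur (by simp [c, θ, rot_zero]) (by simp [c, θ])).trans ?_
  set f' : ℝ → ℝ := fun s => (ε * deriv θ s + deriv θ s * dens G k Ψ (c s) / ε) / 2
  have hd : ∀ s, HasDerivAt (fun s => (ε * θ s + F (c s) / ε) / 2) (f' s) s := fun s => by
    have h := (hF (c s)).comp_hasDerivAt s (hcd s)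
    rw [map_smul, smul_eq_mul] at h
    exact (((hθ.differentiable one_ne_zero s).hasDerivAt.const_mul ε).add
      (h.div_const ε)).div_const 2
  have hcf : Continuous f' := ((continuous_const.mul (hθ.continuous_deriv le_rfl)).add
    (((hθ.continuous_deriv le_rfl).mul ((continuous_dens hH).comp hcc)).div_const ε)).div_const 2
  have hle : ∀ s, speed G (Ψ ∘ c) s ≤ f' s := fun s => by
    rw [hsp, (hcd s).deriv, sqrt_sq_smul _ hθm.deriv_nonneg]
    set e := dens G k Ψ (c s)
    have he : 0 ≤ e := (hH.pos _ trivial).nonneg _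
    have h1 : Real.sqrt e ≤ (ε + e / ε) / 2 := by
      rw [add_div' _ _ _ hε.ne', div_div, le_div_iff₀ (by positivity)]
      nlinarith [sq_nonneg (Real.sqrt e - ε), Real.sq_sqrt he]
    refine (mul_le_mul_of_nonneg_left h1 hθm.deriv_nonneg).trans_eq ?_
    simp only [f']
    ring
  calc clen G (Ψ ∘ c) ≤ ∫ s in (0 : ℝ)..1, f' s := intervalIntegral.integral_mono_on zero_le_one
        ((speed_continuous hG hcur).intervalIntegrable _ _) (hcf.intervalIntegrable _ _)
        fun s _ => hle s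
    _ = _ := by
      rw [intervalIntegral.integral_eq_sub_of_hasDerivAt (fun s _ => hd s)
        (hcf.intervalIntegrable _ _)]
      simp [c, θ, rot_zero]
      ring

omit [T2Space M] in
theorem orbit_growth (hG : IsKaehler G) (himm : ∀ z, Imm n Ψ z)
    (hH : Local univ (indMetric G Ψ)) (hF : ∀ z, HasFDerivAt F (form k (indMetric G Ψ) z) z)
    (o : M) {z₀ : Cn n} (hz₀ : ‖z₀‖ ≤ 1) {C : ℝ} (hC : ∀ x : ℝ, F (rot k (x : ℂ) z₀) ≤ C) :
    ∃ C₂ : ℝ, ∀ ε, 0 < ε → ∀ w : ℂ,
      gd G o (Ψ (rot k w z₀)) ≤ C₂ + (ε * max w.re 0 + (C - F z₀) / ε) / 2 := by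
  have hcont : Continuous Ψ := continuous_iff_continuousAt.2 fun z => (himm z).1
  obtain ⟨C₂, hC₂⟩ := (isCompact_closedBall (0 : Cn n) 1).bddAbove_image
    ((continuous_gd hG o).comp hcont).continuousOn
  refine ⟨C₂, fun ε hε w => ?_⟩
  have hb : ∀ z : Cn n, ‖z‖ ≤ 1 → gd G o (Ψ z) ≤ C₂ := fun z hz =>
    hC₂ ⟨z, mem_closedBall_zero_iff.2 hz, rfl⟩
  rcases le_total w.re 0 with h | h
  · have h0 : F z₀ ≤ C := by simpa [rot_zero] using hC 0
    rw [max_eq_right h]
    have : 0 ≤ (C - F z₀) / ε := div_nonneg (by linarith) hε.le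
    linarith [hb _ ((norm_rot_le k h z₀).trans hz₀)]
  · set z := rot k ((w.im : ℂ) * I) z₀
    have e : rot k w z₀ = rot k (w.re : ℂ) z := by
      rw [← rot_add, Complex.re_add_im]
    have e2 : F (rot k (w.re : ℂ) z) = F (rot k (w.re : ℂ) z₀) := by
      rw [show rot k (w.re : ℂ) z = rot k ((w.im : ℂ) * I) (rot k (w.re : ℂ) z₀) by
        rw [← rot_add, ← rot_add, add_comm], potential_imag hH hF]
    have h1 := ray_dist hG himm hH hF z h hε
    rw [e2, potential_imag hH hF z₀] at h1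
    have h2 : (F (rot k (w.re : ℂ) z₀) - F z₀) / ε ≤ (C - F z₀) / ε :=
      div_le_div_of_nonneg_right (by linarith [hC w.re]) hε.le
    rw [max_eq_left h, e]
    linarith [gd_triangle hG o (Ψ z) (Ψ (rot k (w.re : ℂ) z)),
      hb z (by rw [norm_rot_imag]; exact hz₀)]

theorem box_variation (hG : IsKaehler G) (hK : PositiveBisect G) (hC : Complete G)
    (himm : ∀ z, Imm n Ψ z) (hH : Local univ (indMetric G Ψ)) (hk : ∀ j, 0 < k j) (o : M)
    {z₀ : Cn n} (hz₀ : z₀ ≠ 0) (X : ℝ) :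
    ∃ c > 0, ∃ R : ℝ, ∀ p, R < gd G o p → ∀ w ∈ Icc (-X) X ×ℂ Icc 0 (2 * Real.pi),
      ∃ r₀ > 0, ∀ r : ℝ, 0 < r → r < r₀ →
        four (fun s => gd G (Ψ (rot k (w + s) z₀)) p) r ≤
          4 * gd G (Ψ (rot k w z₀)) p - c * r ^ 2 := by
  set B : Set ℂ := Icc (-X) X ×ℂ Icc 0 (2 * Real.pi)
  have hB : IsCompact B := isCompact_Icc.reProdIm isCompact_Icc
  set γ : ℂ → M := fun w => Ψ (rot k w z₀)
  have hγ : Continuous γ :=
    (continuous_iff_continuousAt.2 fun z => (himm z).1).comp (continuous_rot k z₀)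
  set e : ℂ → ℝ := fun w => dens G k Ψ (rot k w z₀)
  have he : Continuous e := (continuous_dens hH).comp (continuous_rot k z₀)
  have hne : ∀ w, rot k w z₀ ≠ 0 := fun w h => hz₀ (by
    have := congrArg (rot k (-w)) h
    rw [← rot_add, neg_add_cancel, rot_zero, rot_eq k, map_zero] at this
    exact this)
  obtain ⟨Sm, hSm, hlo⟩ := hB.exists_forall_le' he.continuousOn (a := 0)
    fun w _ => (hH.pos _ trivial).pos _ (eul_ne hk (hne w))
  obtain ⟨SM, hSM⟩ := hB.bddAbove_image he.continuousOn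
  obtain ⟨D, hD⟩ := hB.bddAbove_image ((continuous_gd hG o).comp hγ).continuousOn
  obtain ⟨c, hc, R, h⟩ := variation hG hK hC (hB.image hγ) hSm (SM := SM)
  refine ⟨c, hc, R + D, fun p hp w hw => ?_⟩
  set z := γ w
  have hdz : gd G o z ≤ D := hD ⟨w, hw, rfl⟩
  have hcs : ContinuousAt (fun τ : ℂ => γ (w + τ)) 0 :=
    (hγ.comp (continuous_const_add w)).continuousAt
  have hrd : ∀ τ : ℂ, HasDerivAt (fun τ : ℂ => rot k (w + τ) z₀)
      (diag (fun j => (k j : ℂ)) (rot k (w + τ) z₀)) τ := fun τ =>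
    (hasDerivAt_rotC k z₀ (w + τ)).comp_const_add w τ
  have hev : ∀ᶠ τ in 𝓝 (0 : ℂ), DifferentiableAt ℂ (fun τ => ch n z (γ (w + τ))) τ := by
    filter_upwards [hcs ((ch n z).open_source.mem_nhds
      (by simp [z]))] with τ hτ
    exact (((himm _).read_diff hτ).hasFDerivAt.comp_hasDerivAt τ (hrd τ)).differentiableAt
  have hd : deriv (fun τ => ch n z (γ (w + τ))) 0 =
      fderiv ℂ (fun v => ch n z (Ψ v)) (rot k w z₀) (diag (fun j => (k j : ℂ)) (rot k w z₀)) := by
    have h0 := ((himm (rot k w z₀)).read_diff (mem_chart_source (Cn n) z)).hasFDerivAt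
    have h1 := h0.comp_hasDerivAt_of_eq (0 : ℂ) (hrd 0) (by simp)
    simpa [γ, Function.comp_def] using h1.deriv
  have hs : sq (G z) (deriv (fun τ => ch n z (γ (w + τ))) 0) = e w := by
    rw [hd]; exact (sq_indMetric _).symm
  obtain ⟨r₀, hr₀, h2⟩ := h z ⟨w, hw, rfl⟩ (fun τ => γ (w + τ)) (by simp [z]) hcs hev
    (hs ▸ hlo w hw) (hs ▸ hSM ⟨w, hw, rfl⟩) p (by linarith [gd_triangle hG o z p])
  exact ⟨r₀, hr₀, h2⟩

theorem no_bounded_ray [NoncompactSpace M] (hG : IsKaehler G) (hK : PositiveBisect G)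
    (hC : Complete G) (himm : ∀ z, Imm n Ψ z) (hH : Local univ (indMetric G Ψ))
    (hk : ∀ j, 0 < k j) (hF : ∀ z, HasFDerivAt F (form k (indMetric G Ψ) z) z)
    {z₀ : Cn n} (hz₀ : ‖z₀‖ = 1) {C : ℝ} (hFC : ∀ x : ℝ, F (rot k (x : ℂ) z₀) ≤ C) : False := by
  set o := Ψ 0
  have hz : z₀ ≠ 0 := fun h => by simp [h] at hz₀
  obtain ⟨C₂, hgr⟩ := orbit_growth hG himm hH hF o hz₀.le hFC
  obtain ⟨c, hc, R₁, hvar⟩ := box_variation hG hK hC himm hH hk o hz 2
  set a := c / 4
  have ha : 0 < a := by positivity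
  set B₀ := C₂ + (C - F z₀) / a / 2
  obtain ⟨X, hX3, hXa⟩ : ∃ X : ℝ, 3 ≤ X ∧ 2 * B₀ / a + 2 ≤ X :=
    ⟨max 3 (2 * B₀ / a + 2), le_max_left _ _, le_max_right _ _⟩
  obtain ⟨c', hc', R₂, hvar'⟩ := box_variation hG hK hC himm hH hk o hz X
  obtain ⟨p, hp⟩ := exists_far hG hC o (max R₁ R₂)
  set γ : ℂ → M := fun w => Ψ (rot k w z₀)
  set ψ : ℂ → ℝ := fun w => gd G (γ w) p + a * hub w.re
  have hγ : Continuous γ :=
    (continuous_iff_continuousAt.2 fun z => (himm z).1).comp (continuous_rot k z₀)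
  have hψ : Continuous ψ := by
    have h1 : Continuous fun w => gd G (γ w) p :=
      ((continuous_gd hG p).comp hγ).congr fun w => gd_comm hG _ _
    exact h1.add (continuous_const.mul (continuous_hub.comp Complex.continuous_re))
  set B : Set ℂ := Icc (-X) X ×ℂ Icc 0 (2 * Real.pi)
  have h0B : (0 : ℂ) ∈ B :=
    ⟨⟨by simp; linarith, by simp; linarith⟩, ⟨le_rfl, by simp; positivity⟩⟩
  obtain ⟨m, hm, hmin⟩ := (isCompact_Icc.reProdIm isCompact_Icc).exists_isMinOn ⟨0, h0B⟩
    hψ.continuousOn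
  have hall : ∀ w : ℂ, |w.re| ≤ X → ψ m ≤ ψ w := fun w hw => by
    have hper : Function.Periodic (fun y : ℝ => ψ ((w.re : ℂ) + (y : ℂ) * I)) (2 * Real.pi) :=
      fun y => by
        simp only [ψ, γ]
        rw [show (w.re : ℂ) + ((y + 2 * Real.pi : ℝ) : ℂ) * I =
          ((w.re : ℂ) + (y : ℂ) * I) + ((2 * Real.pi : ℝ) : ℂ) * I by push_cast; ring, rot_two_pi]
        simp
    obtain ⟨y, hy, e⟩ := hper.exists_mem_Ico₀ Real.two_pi_pos w.im
    rw [Complex.re_add_im] at e
    rw [e]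
    exact hmin ⟨by simpa using abs_le.1 hw, by simpa using ⟨hy.1, hy.2.le⟩⟩
  have hm1 : |m.re| ≤ X := abs_le.2 hm.1
  have hb : |m.re| = X := by
    refine le_antisymm hm1 (not_lt.1 fun hlt => ?_)
    obtain ⟨r₂, hr₂, h2⟩ := hvar' p (lt_of_le_of_lt (le_max_right _ _) hp) m hm
    obtain ⟨r₁, hr₁, h1⟩ : ∃ r₁ > 0, |m.re| ≤ 2 → ∀ r : ℝ, 0 < r → r < r₁ →
        four (fun s => gd G (γ (m + s)) p) r ≤ 4 * gd G (γ m) p - c * r ^ 2 := by
      by_cases h : |m.re| ≤ 2
      · obtain ⟨r₁, hr₁, h1⟩ := hvar p (lt_of_le_of_lt (le_max_left _ _) hp) m ⟨abs_le.1 h, hm.2⟩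
        exact ⟨r₁, hr₁, fun _ => h1⟩
      · exact ⟨1, one_pos, fun h' => absurd h' h⟩
    obtain ⟨r, hr, hr12⟩ : ∃ r : ℝ, 0 < r ∧ (r < r₁ ∧ r < r₂ ∧ r < 1 ∧ r < X - |m.re|) :=
      ⟨min (min r₁ r₂) (min 1 (X - |m.re|)) / 2, by positivity [sub_pos.2 hlt],
        by
          have : 0 < min (min r₁ r₂) (min 1 (X - |m.re|)) :=
            lt_min (lt_min hr₁ hr₂) (lt_min one_pos (sub_pos.2 hlt))
          refine ⟨?_, ?_, ?_, ?_⟩ <;>
            linarith [min_le_left (min r₁ r₂) (min 1 (X - |m.re|)),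
              min_le_right (min r₁ r₂) (min 1 (X - |m.re|)), min_le_left r₁ r₂,
              min_le_right r₁ r₂, min_le_left 1 (X - |m.re|), min_le_right 1 (X - |m.re|)]⟩
    have hd : ∀ s : ℂ, |s.re| ≤ r → ψ m ≤ gd G (γ (m + s)) p + a * hub (m.re + s.re) :=
      fun s hs => by
        have := hall (m + s) (by
          rw [Complex.add_re]
          exact (abs_add_le _ _).trans (by linarith [hr12.2.2.2]))
        simpa [ψ] using this
    have p1 := hd (r : ℂ) (by simp [abs_of_pos hr])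
    have p2 := hd (-(r : ℂ)) (by simp [abs_of_pos hr])
    have p3 := hd ((r : ℂ) * I) (by simp [hr.le])
    have p4 := hd (-((r : ℂ) * I)) (by simp [hr.le])
    simp only [Complex.ofReal_re, Complex.neg_re, Complex.mul_I_re, Complex.ofReal_im, neg_zero,
      add_zero, ← sub_eq_add_neg] at p1 p2 p3 p4
    simp only [ψ] at p1 p2 p3 p4
    by_cases h : |m.re| ≤ 2
    · have := h1 h r hr hr12.1
      simp only [four, ← sub_eq_add_neg] at this
      have h5 := mul_le_mul_of_nonneg_left (hub_second m.re r) ha.le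
      have : 0 < r ^ 2 := by positivity
      nlinarith [show c = 4 * a by simp only [a]; ring, mul_pos ha this]
    · have := h2 r hr hr12.2.1
      simp only [four, ← sub_eq_add_neg] at this
      have h5 := congrArg (a * ·) (hub_affine (not_le.1 h) (by
        rw [abs_of_pos hr]; exact hr12.2.2.1))
      have : 0 < c' * r ^ 2 := by positivity
      nlinarith
  have h0 : ψ m ≤ gd G (γ 0) p := by
    simpa [ψ, hub_zero] using hall 0 (by simp; linarith)
  have hg0 : gd G o (γ 0) ≤ B₀ := by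
    have := hgr a ha 0
    simp only [Complex.zero_re, max_self, mul_zero, zero_add] at this
    simpa [B₀] using this
  have hgm : gd G o (γ m) ≤ B₀ + a * X / 2 := by
    have h1 := hgr a ha m
    have : a * max m.re 0 ≤ a * X := mul_le_mul_of_nonneg_left
      (max_le ((le_abs_self _).trans hm1) (by linarith)) ha.le
    simp only [B₀]
    linarith
  have h1 : gd G (γ m) p + a * (2 * X - 1) ≤ gd G (γ 0) p := by
    simpa [ψ, hub_far (show 1 ≤ |m.re| by linarith), hb] using h0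
  have h2 : 2 * B₀ + 2 * a ≤ X * a := by
    have := (div_le_iff₀ ha).1 (le_sub_iff_add_le.2 hXa)
    linarith
  nlinarith [gd_triangle hG o (γ m) p, gd_triangle hG (γ 0) o p, gd_comm hG (γ 0) o,
    mul_le_mul_of_nonneg_left hX3 ha.le]

end Vale.Agent.P253.Circle
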