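import Vale.Agent.P253.Circle.Exit
import Vale.Agent.P253.Circle.Liouville

/-!
P253: the linearisation is a biholomorphism.
-/

open scoped Manifold ContDiff InnerProductSpace Topology
open Complex Set Filter

noncomputable section

namespace Vale.Agent.P253.Circle

open Vale.Agent.Results.P253.SymmetricDomains (rot RealSymmetry)

variable {n : ℕ} {M : Type} [TopologicalSpace M] [T2Space M] [ChartedSpace (Cn n) M]
  [IsManifold 𝓘(ℂ, Cn n) ω M] {G : Metric (Cn n) M} {ρ : ℝ → M → M} {o : M}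

theorem start_of_weights (hρ : CircleSymmetry G ρ) (hfix : ∀ s, ρ s o = o)
    (b : Module.Basis (Fin n) ℂ (Cn n)) {k : Fin n → ℕ} (hk : ∀ j, 0 < k j)
    (hlin : ∀ (s : ℝ) (j : Fin n), mfderiv 𝓘(ℂ, Cn n) 𝓘(ℂ, Cn n) (ρ s) o (b j) =
      (Complex.exp (((k j : ℂ) * (s : ℂ)) * I) • b j : Cn n)) : Nonempty (Start G ρ o k) := by
  obtain ⟨r, hr, Ψ, h0, himm, hinj, heq⟩ := linearise b hρ hfix k hlin
  refine ⟨⟨r, Ψ, hr, hk, h0, fun z hz => ?_, hinj, heq⟩⟩
  obtain ⟨hs, hd, hi⟩ := himm z hz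
  have hev : Ψ =ᶠ[𝓝 z] fun w => (ch n o).symm (ch n o (Ψ w)) := by
    filter_upwards [Metric.isOpen_ball.mem_nhds hz] with w hw
    exact ((ch n o).left_inv (himm w hw).1).symm
  have hc : ContinuousAt (fun w => (ch n o).symm (ch n o (Ψ w))) z :=
    ContinuousAt.comp (g := (ch n o).symm) (f := fun w => ch n o (Ψ w))
      ((ch n o).continuousAt_symm ((ch n o).map_source hs)) hd.continuousAt
  exact Imm.of_read (hc.congr hev.symm) hs hd hi

theorem map_surjective [ConnectedSpace M] [NoncompactSpace M] (hG : IsKaehler G)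
    (hK : PositiveBisect G) (hC : Complete G) (hρ : CircleSymmetry G ρ) {k : Fin n → ℕ}
    (S : Start G ρ o k) : range S.map = univ := by
  obtain ⟨himm, hinj, -, heq, ho⟩ := S.extend hG hK hC hρ
  have hall : {z | S.Dom z} = univ := eq_univ_of_forall fun z => by
    obtain ⟨N, hN, hb⟩ := (eventually_small S.k_pos z S.r_pos).exists
    exact ⟨N, hN, S.ext_forever hG hK hC hρ (mem_ball_zero_iff.2 hb) hN⟩
  have hS : RealSymmetry univ (indMetric G S.map) (rot k) := hall ▸ S.symmetry hρ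
  have hH : Local univ (indMetric G S.map) :=
    (indMetric_local hG isOpen_univ (fun z _ => himm z) hK).1
  obtain ⟨F, hF⟩ := exists_potential hH hS
  by_contra hne
  obtain ⟨C, hb⟩ := exit_bound hG hρ himm hinj heq ho hne hF
  obtain ⟨z₀, hz₀, hFC⟩ := exists_ray S.k_pos
    (continuous_iff_continuousAt.2 fun z => (hF z).continuousAt) (potential_mono hH hF) hb
  exact no_bounded_ray hG hK hC himm hH S.k_pos hF hz₀ hFC

omit [T2Space M] in
theorem read_smooth {F : Cn n → M} (himm : ∀ z, Imm n F z) : ContMDiff 𝓘(ℂ, Cn n) 𝓘(ℂ, Cn n) ∞ F := by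
  intro z
  rw [contMDiffAt_iff]
  refine ⟨(himm z).1, ?_⟩
  obtain ⟨V, hVs, hV, hzV⟩ := mem_nhds_iff.1
    ((himm z).1 ((ch n (F z)).open_source.mem_nhds (mem_chart_source (Cn n) (F z))))
  have hf : DifferentiableOn ℂ (fun w => ch n (F z) (F w)) V := fun w hw =>
    ((himm w).read_diff (hVs hw)).differentiableWithinAt
  simpa [Function.comp_def, ch, chartAt_self_eq] using
    ((contDiffOn_holo hV hf).contDiffAt (hV.mem_nhds hzV)).contDiffWithinAt (s := univ)

omit [T2Space M] in
theorem inverse_smooth {F : Cn n → M} (himm : ∀ z, Imm n F z) (hF : Function.Bijective F) :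
    ContMDiff 𝓘(ℂ, Cn n) 𝓘(ℂ, Cn n) ∞ (Equiv.ofBijective F hF).symm := by
  set inv := (Equiv.ofBijective F hF).symm
  have hl : ∀ z, inv (F z) = z := (Equiv.ofBijective F hF).symm_apply_apply
  have hr : ∀ q, F (inv q) = q := (Equiv.ofBijective F hF).apply_symm_apply
  intro q
  have hd : DifferentiableOn ℂ (fun p => inv ((ch n q).symm p)) (ch n q).target := fun p hp => by
    set w := inv ((ch n q).symm p)
    have hw : F w ∈ (ch n q).source := by rw [hr]; exact (ch n q).map_target hp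
    obtain ⟨g, -, hg, L, hL, -⟩ := read_inverse himm hw
    have e : ch n q (F w) = p := by rw [hr]; exact (ch n q).right_inv hp
    rw [e] at hg hL
    refine (hL.differentiableAt.congr_of_eventuallyEq ?_).differentiableWithinAt
    filter_upwards [hg] with y hy
    rw [← hy, hl]
  have hqs := mem_chart_source (Cn n) q
  have hsm := (contDiffOn_holo (ch n q).open_target hd).contDiffAt
    ((ch n q).open_target.mem_nhds ((ch n q).map_source hqs))
  rw [contMDiffAt_iff]
  refine ⟨?_, by simpa [Function.comp_def, ch, chartAt_self_eq] using hsm.contDiffWithinAt (s := univ)⟩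
  have h := ContinuousAt.comp (g := fun p => inv ((ch n q).symm p)) (f := ch n q)
    hsm.continuousAt ((ch n q).continuousAt hqs)
  refine h.congr ?_
  filter_upwards [(ch n q).open_source.mem_nhds hqs] with w hw
  simp [(ch n q).left_inv hw]

theorem biholomorphic_pos [ConnectedSpace M] [NoncompactSpace M] (hG : IsKaehler G)
    (hK : PositiveBisect G) (hC : Complete G) (hρ : CircleSymmetry G ρ) (hfix : ∀ s, ρ s o = o)
    (b : Module.Basis (Fin n) ℂ (Cn n)) {k : Fin n → ℕ} (hk : ∀ j, 0 < k j)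
    (hlin : ∀ (s : ℝ) (j : Fin n), mfderiv 𝓘(ℂ, Cn n) 𝓘(ℂ, Cn n) (ρ s) o (b j) =
      (Complex.exp (((k j : ℂ) * (s : ℂ)) * I) • b j : Cn n)) :
    Nonempty (Diffeomorph 𝓘(ℂ, Cn n) 𝓘(ℂ, Cn n) M (Cn n) ∞) := by
  obtain ⟨S⟩ := start_of_weights hρ hfix b hk hlin
  obtain ⟨himm, hinj, -, -, -⟩ := S.extend hG hK hC hρ
  have hb : Function.Bijective S.map :=
    ⟨hinj, range_eq_univ.1 (map_surjective hG hK hC hρ S)⟩
  exact ⟨⟨(Equiv.ofBijective _ hb).symm, inverse_smooth himm hb, read_smooth himm⟩⟩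

omit [T2Space M] [IsManifold 𝓘(ℂ, Cn n) ω M] in
theorem reverse_symmetry (hρ : CircleSymmetry G ρ) : CircleSymmetry G fun s => ρ (-s) where
  zero z := by simp [hρ.zero]
  add s t z := by simp only [neg_add, hρ.add]
  periodic z := by
    have := hρ.add (-(2 * Real.pi)) (2 * Real.pi) z
    rw [neg_add_cancel, hρ.zero, hρ.periodic] at this
    exact this.symm
  cont := hρ.cont.comp (continuous_fst.neg.prodMk continuous_snd)
  smooth s x := ContDiffAt.comp
    (g := fun p : ℝ × Cn n => ch n (ρ (-s) x) (ρ p.1 ((ch n x).symm p.2)))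
    (f := fun p : ℝ × Cn n => (-p.1, p.2)) (s, ch n x x) (hρ.smooth (-s) x)
    (contDiffAt_fst.neg.prodMk contDiffAt_snd)
  holo s := hρ.holo (-s)
  isometry s := hρ.isometry (-s)

/-- The main theorem. -/
theorem biholomorphic [ConnectedSpace M] [NoncompactSpace M] (hG : IsKaehler G)
    (hK : PositiveBisect G) (hC : Complete G) (hρ : CircleSymmetry G ρ) (hsink : Sink n (Cn n) ρ o) :
    Nonempty (Diffeomorph 𝓘(ℂ, Cn n) 𝓘(ℂ, Cn n) M (Cn n) ∞) := by
  obtain ⟨hfix, b, k, hk, hlin⟩ := hsink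
  rcases hk with hk | hk
  · refine biholomorphic_pos hG hK hC hρ hfix b (k := fun j => (k j).toNat)
      (fun j => by simpa using hk j) fun s j => ?_
    refine (hlin s j).trans ?_
    have e : (((k j).toNat : ℕ) : ℂ) = (k j : ℂ) := by
      rw [← Int.cast_natCast, Int.toNat_of_nonneg (hk j).le]
    rw [e]
  · refine biholomorphic_pos hG hK hC (reverse_symmetry hρ) (fun s => hfix (-s)) b
      (k := fun j => (-k j).toNat) (fun j => by simpa using hk j) fun s j => ?_
    refine (hlin (-s) j).trans ?_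
    congr 2
    have e : (((-k j).toNat : ℕ) : ℂ) = -(k j : ℂ) := by
      rw [← Int.cast_natCast, Int.toNat_of_nonneg (neg_nonneg.2 (hk j).le), Int.cast_neg]
    rw [e]
    push_cast
    ring

end Vale.Agent.P253.Circle
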