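import Vale.Agent.P253.Circle.Charts

/-!
P253: the generator of a circle action in charts and its integral curves.
-/

open scoped Manifold ContDiff Topology
open Complex Set Filter

noncomputable section

namespace Vale.Agent.P253.Circle

variable {n : ℕ} {M : Type} [TopologicalSpace M] [ChartedSpace (Cn n) M]

/-- The action read in two charts. -/
abbrev act (n : ℕ) [ChartedSpace (Cn n) M] (ρ : ℝ → M → M) (x y : M) (s : ℝ) (p : Cn n) : Cn n :=
  ch n y (ρ s ((ch n x).symm p))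

/-- The generator read in a chart. -/
def gen (n : ℕ) [ChartedSpace (Cn n) M] (ρ : ℝ → M → M) (x : M) (p : Cn n) : Cn n :=
  deriv (fun s => act n ρ x x s p) 0

/-- The generator turned by `-i`. -/
def fld (n : ℕ) [ChartedSpace (Cn n) M] (ρ : ℝ → M → M) (x : M) (p : Cn n) : Cn n :=
  (-I) • gen n ρ x p

/-- Integral curves of `fld` on an interval. -/
def IntCurve (n : ℕ) [ChartedSpace (Cn n) M] (ρ : ℝ → M → M) (γ : ℝ → M) (a b : ℝ) : Prop :=
  ContinuousOn γ (Icc a b) ∧ ∀ t ∈ Icc a b,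
    HasDerivWithinAt (read n (γ t) γ) (fld n ρ (γ t) (ch n (γ t) (γ t))) (Icc a b) t

variable [IsManifold 𝓘(ℂ, Cn n) ω M] {G : Metric (Cn n) M} {ρ : ℝ → M → M}

theorem act_diff (hρ : CircleSymmetry G ρ) {x y : M} {s : ℝ} {p : Cn n}
    (hp : p ∈ (ch n x).target) (hy : ρ s ((ch n x).symm p) ∈ (ch n y).source) :
    DifferentiableAt ℂ (act n ρ x y s) p := by
  haveI : IsManifold 𝓘(ℂ, Cn n) 1 M := IsManifold.of_le (n := ω) le_top
  have h := ((mdifferentiableAt_iff_of_mem_source (x := x) (y := y)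
    ((ch n x).map_target hp) hy).1 (hρ.holo s _)).2
  simp only [modelWithCornersSelf_coe, range_id, differentiableWithinAt_univ] at h
  simpa [act, ch, Function.comp_def, (ch n x).right_inv hp] using h

theorem act_smooth (hρ : CircleSymmetry G ρ) {x y : M} {s : ℝ} {p : Cn n}
    (hp : p ∈ (ch n x).target) (hy : ρ s ((ch n x).symm p) ∈ (ch n y).source) :
    ContDiffAt ℝ ∞ (fun q : ℝ × Cn n => act n ρ x y q.1 q.2) (s, p) := by
  set z := (ch n x).symm p
  set w := ρ s z
  have hps : p ∈ (tr n x z).source := tr_mem_center hp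
  have hwy : ch n w w ∈ (tr n w y).source := tr_mem' (mem_chart_source _ w) hy
  have h1 : ContDiffAt ℝ ∞ (tr n x z) p :=
    (((tr_smooth x z).contDiffAt ((tr n x z).open_source.mem_nhds hps)).of_le le_top).restrict_scalars ℝ
  have h2 : ContDiffAt ℝ ∞ (tr n w y) (ch n w w) :=
    (((tr_smooth w y).contDiffAt ((tr n w y).open_source.mem_nhds hwy)).of_le le_top).restrict_scalars ℝ
  have e1 : tr n x z p = ch n z z := rfl
  have h3 : ContDiffAt ℝ ∞ (fun q : ℝ × Cn n => (q.1, tr n x z q.2)) (s, p) :=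
    contDiffAt_fst.prodMk (h1.comp (s, p) contDiffAt_snd)
  have h4 := ContDiffAt.comp (g := fun q : ℝ × Cn n => ch n w (ρ q.1 ((ch n z).symm q.2)))
    (f := fun q : ℝ × Cn n => (q.1, tr n x z q.2)) (s, p) (hρ.smooth s z) h3
  have e2 : ch n w (ρ s ((ch n z).symm (tr n x z p))) = ch n w w := by
    rw [e1, (ch n z).left_inv (mem_chart_source _ z)]
  have h5 := ContDiffAt.comp (g := tr n w y)
    (f := fun q : ℝ × Cn n => ch n w (ρ q.1 ((ch n z).symm (tr n x z q.2)))) (s, p)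
    (by rw [e2]; exact h2) h4
  refine h5.congr_of_eventuallyEq ?_
  have hev1 : ∀ᶠ q : ℝ × Cn n in 𝓝 (s, p), q.2 ∈ (tr n x z).source :=
    continuous_snd.continuousAt ((tr n x z).open_source.mem_nhds hps)
  have hc : ContinuousAt (fun q : ℝ × Cn n => ρ q.1 ((ch n x).symm q.2)) (s, p) :=
    ContinuousAt.comp (g := fun q : ℝ × M => ρ q.1 q.2)
      (f := fun q : ℝ × Cn n => (q.1, (ch n x).symm q.2)) hρ.cont.continuousAt
      (continuousAt_fst.prodMk
        (ContinuousAt.comp (g := (ch n x).symm) (f := fun q : ℝ × Cn n => q.2)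
          ((ch n x).continuousAt_symm hp) continuousAt_snd))
  have hev2 : ∀ᶠ q : ℝ × Cn n in 𝓝 (s, p), ρ q.1 ((ch n x).symm q.2) ∈ (ch n w).source :=
    hc ((ch n w).open_source.mem_nhds (mem_chart_source _ w))
  filter_upwards [hev1, hev2] with q hq hq2
  have h6 := (tr_mem.1 hq).2
  simp [act, tr, (ch n z).left_inv h6, (ch n w).left_inv hq2, w]

theorem gen_hasDerivAt (hρ : CircleSymmetry G ρ) {x z : M} (hz : z ∈ (ch n x).source) :
    HasDerivAt (fun s => ch n x (ρ s z)) (gen n ρ x (ch n x z)) 0 := by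
  have hp := (ch n x).map_source hz
  have h := act_smooth hρ (x := x) (y := x) (s := 0) hp (by rw [hρ.zero, (ch n x).left_inv hz]; exact hz)
  have h' : DifferentiableAt ℝ (fun s => act n ρ x x s (ch n x z)) 0 :=
    DifferentiableAt.comp (g := fun q : ℝ × Cn n => act n ρ x x q.1 q.2)
      (f := fun s : ℝ => (s, ch n x z)) 0 (h.differentiableAt (by simp))
      (differentiableAt_id.prodMk (differentiableAt_const (ch n x z)))
  have := h'.hasDerivAt
  simpa [gen, act, (ch n x).left_inv hz] using this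

theorem cont_orbit (hρ : CircleSymmetry G ρ) (z : M) : Continuous fun s => ρ s z :=
  hρ.cont.comp (continuous_id.prodMk continuous_const)

theorem gen_change (hρ : CircleSymmetry G ρ) {x y z : M} (hx : z ∈ (ch n x).source)
    (hy : z ∈ (ch n y).source) :
    gen n ρ y (ch n y z) = dtr n x y (ch n x z) (gen n ρ x (ch n x z)) := by
  have h := read_hasDerivAt (cont_orbit hρ z).continuousAt (y := y) (by rwa [hρ.zero])
    (by rwa [hρ.zero]) (gen_hasDerivAt hρ hx)
  rw [hρ.zero] at h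
  exact (gen_hasDerivAt hρ hy).unique h

theorem fld_change (hρ : CircleSymmetry G ρ) {x y z : M} (hx : z ∈ (ch n x).source)
    (hy : z ∈ (ch n y).source) :
    fld n ρ y (ch n y z) = dtr n x y (ch n x z) (fld n ρ x (ch n x z)) := by
  rw [fld, fld, map_smul, gen_change hρ hx hy]

theorem gen_push (hρ : CircleSymmetry G ρ) {x y z : M} {s : ℝ} (hx : z ∈ (ch n x).source)
    (hy : ρ s z ∈ (ch n y).source) :
    gen n ρ y (ch n y (ρ s z)) = fderiv ℂ (act n ρ x y s) (ch n x z) (gen n ρ x (ch n x z)) := by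
  have hp := (ch n x).map_source hx
  have hd : HasFDerivAt (act n ρ x y s) (fderiv ℂ (act n ρ x y s) (ch n x z)) (ch n x z) :=
    (act_diff hρ hp (by rwa [(ch n x).left_inv hx])).hasFDerivAt
  have h := (hd.restrictScalars ℝ).comp_hasDerivAt_of_eq (0 : ℝ) (gen_hasDerivAt hρ hx)
    (by rw [hρ.zero])
  refine (gen_hasDerivAt hρ hy).unique (h.congr_of_eventuallyEq ?_)
  have hev : ∀ᶠ t in 𝓝 (0 : ℝ), ρ t z ∈ (ch n x).source :=
    (cont_orbit hρ z).continuousAt ((ch n x).open_source.mem_nhds (by rwa [hρ.zero]))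
  filter_upwards [hev] with t ht
  simp only [Function.comp_apply, act, (ch n x).left_inv ht, ← hρ.add, add_comm]

theorem fld_push (hρ : CircleSymmetry G ρ) {x y z : M} {s : ℝ} (hx : z ∈ (ch n x).source)
    (hy : ρ s z ∈ (ch n y).source) :
    fld n ρ y (ch n y (ρ s z)) = fderiv ℂ (act n ρ x y s) (ch n x z) (fld n ρ x (ch n x z)) := by
  rw [fld, fld, map_smul, gen_push hρ hx hy]

theorem gen_holo (hρ : CircleSymmetry G ρ) (x : M) :
    DifferentiableOn ℂ (gen n ρ x) (ch n x).target := by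
  intro p hp
  have hp' : ρ 0 ((ch n x).symm p) ∈ (ch n x).source := by rw [hρ.zero]; exact (ch n x).map_target hp
  set W : Set (ℝ × Cn n) := {q | q.2 ∈ (ch n x).target ∧ ρ q.1 ((ch n x).symm q.2) ∈ (ch n x).source}
  have hcW : ContinuousOn (fun q : ℝ × Cn n => ρ q.1 ((ch n x).symm q.2))
      ((univ : Set ℝ) ×ˢ (ch n x).target) :=
    hρ.cont.comp_continuousOn (continuousOn_fst.prodMk
      ((ch n x).continuousOn_symm.comp continuousOn_snd fun q hq => hq.2))
  have hWo : IsOpen W := by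
    have : W = ((univ : Set ℝ) ×ˢ (ch n x).target) ∩
        (fun q : ℝ × Cn n => ρ q.1 ((ch n x).symm q.2)) ⁻¹' (ch n x).source := by
      ext q; simp [W]
    rw [this]
    exact hcW.isOpen_inter_preimage (isOpen_univ.prod (ch n x).open_target) (ch n x).open_source
  set f : ℝ × Cn n → Cn n := fun q => act n ρ x x q.1 q.2
  have hf : ContDiffOn ℝ ∞ f W := fun q hq => (act_smooth hρ hq.1 hq.2).contDiffWithinAt
  set D : ℝ × Cn n → Cn n := fun q => fderiv ℝ f q (1, 0)
  have hD : ContinuousOn D W :=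
    (hf.continuousOn_fderiv_of_isOpen hWo (by simp)).clm_apply continuousOn_const
  have hsl : ∀ q ∈ W, HasDerivAt (fun s => f (s, q.2)) (D q) q.1 := fun q hq =>
    ((hf.contDiffAt (hWo.mem_nhds hq)).differentiableAt (by simp)).hasFDerivAt.comp_hasDerivAt_of_eq
      q.1 ((hasDerivAt_id q.1).prodMk (hasDerivAt_const q.1 q.2)) rfl
  obtain ⟨d, hd, hsub⟩ := Metric.mem_nhds_iff.1 (hWo.mem_nhds (show (0, p) ∈ W from ⟨hp, hp'⟩))
  set K : Set (ℝ × Cn n) := Icc (-(d / 2)) (d / 2) ×ˢ Metric.closedBall p (d / 2)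
  have hK : IsCompact K := isCompact_Icc.prod (isCompact_closedBall _ _)
  have hKW : K ⊆ W := fun q hq => hsub (by
    rw [Metric.mem_ball, Prod.dist_eq, max_lt_iff]
    refine ⟨?_, (Metric.mem_closedBall.1 hq.2).trans_lt (half_lt_self hd)⟩
    rw [Real.dist_eq, sub_zero]
    exact (abs_le.2 hq.1).trans_lt (half_lt_self hd))
  have huc := (hK.uniformContinuousOn_of_continuous (hD.mono hKW))
  have hlim : TendstoUniformlyOn (fun (h : ℝ) y => ((h⁻¹ : ℝ) : ℂ) • (f (h, y) - f (0, y)))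
      (gen n ρ x) (𝓝[≠] 0) (Metric.ball p (2 * (d / 4))) := by
    rw [Metric.tendstoUniformlyOn_iff]
    intro ε hε
    obtain ⟨η, hη, hηD⟩ := (Metric.uniformContinuousOn_iff.1 huc) (ε / 2) (half_pos hε)
    have hev : ∀ᶠ h : ℝ in 𝓝[≠] 0, |h| < min η (d / 2) ∧ h ≠ 0 := by
      have : ∀ᶠ h : ℝ in 𝓝 0, |h| < min η (d / 2) :=
        continuous_abs.continuousAt.eventually_lt continuousAt_const (by simp [hη, hd])
      filter_upwards [nhdsWithin_le_nhds this, self_mem_nhdsWithin] with h a b using ⟨a, b⟩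
    filter_upwards [hev] with h ⟨hh, h0⟩ y hy
    rw [lt_min_iff] at hh
    have hy' : y ∈ Metric.closedBall p (d / 2) :=
      (Metric.ball_subset_ball (by linarith)).trans Metric.ball_subset_closedBall hy
    have hmem : ∀ s ∈ uIcc (0 : ℝ) h, (s, y) ∈ K ∧ |s| ≤ |h| := fun s hs => by
      have : |s| ≤ |h| := by simpa using abs_sub_left_of_mem_uIcc hs
      exact ⟨⟨abs_le.1 (this.trans hh.2.le), hy'⟩, this⟩
    have e0 : gen n ρ x y = D (0, y) :=
      (hsl (0, y) (hKW (hmem 0 left_mem_uIcc).1)).deriv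
    have key := (convex_uIcc (0 : ℝ) h).norm_image_sub_le_of_norm_hasDerivWithin_le
      (f := fun s => f (s, y) - s • D (0, y)) (f' := fun s => D (s, y) - (1 : ℝ) • D (0, y))
      (C := ε / 2)
      (fun s hs => ((hsl (s, y) (hKW (hmem s hs).1)).sub
        ((hasDerivAt_id s).smul_const (D (0, y)))).hasDerivWithinAt)
      (fun s hs => by
        rw [one_smul, ← dist_eq_norm]
        refine (hηD _ (hmem s hs).1 _ (hmem 0 left_mem_uIcc).1 ?_).le
        rw [Prod.dist_eq, max_lt_iff, dist_self, Real.dist_eq, sub_zero]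
        exact ⟨(hmem s hs).2.trans_lt hh.1, hη⟩)
      left_mem_uIcc right_mem_uIcc
    rw [dist_eq_norm, norm_sub_rev, e0]
    have e : ((h⁻¹ : ℝ) : ℂ) • (f (h, y) - f (0, y)) - D (0, y) =
        h⁻¹ • ((f (h, y) - h • D (0, y)) - (f (0, y) - (0 : ℝ) • D (0, y))) := by
      rw [Complex.coe_smul, zero_smul, sub_zero]
      simp only [smul_sub, inv_smul_smul₀ h0]
      abel
    rw [e, norm_smul, norm_inv, Real.norm_eq_abs]
    refine lt_of_le_of_lt (mul_le_mul_of_nonneg_left key (inv_nonneg.2 (abs_nonneg _))) ?_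
    rw [sub_zero, Real.norm_eq_abs, mul_comm (ε / 2), ← mul_assoc,
      inv_mul_cancel₀ (abs_ne_zero.2 h0), one_mul]
    linarith
  have hd' : ∀ᶠ h : ℝ in 𝓝[≠] 0,
      DifferentiableOn ℂ (fun y => ((h⁻¹ : ℝ) : ℂ) • (f (h, y) - f (0, y)))
        (Metric.ball p (2 * (d / 4))) := by
    have : ∀ᶠ h : ℝ in 𝓝 0, |h| < d / 2 :=
      continuous_abs.continuousAt.eventually_lt continuousAt_const (by simp [hd])
    filter_upwards [nhdsWithin_le_nhds this] with h hh y hy
    have hy' : y ∈ Metric.closedBall p (d / 2) :=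
      (Metric.ball_subset_ball (by linarith)).trans Metric.ball_subset_closedBall hy
    have h1 := hKW (show (h, y) ∈ K from ⟨abs_le.1 hh.le, hy'⟩)
    have h2 := hKW (show ((0 : ℝ), y) ∈ K from ⟨⟨by linarith, by linarith⟩, hy'⟩)
    exact (((act_diff hρ h1.1 h1.2).sub (act_diff hρ h2.1 h2.2)).const_smul
      ((h⁻¹ : ℝ) : ℂ)).differentiableWithinAt
  exact ((holo_limit (by linarith) hd' hlim).differentiableAt
    (Metric.ball_mem_nhds p (by linarith))).differentiableWithinAt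

theorem fld_holo (hρ : CircleSymmetry G ρ) (x : M) :
    DifferentiableOn ℂ (fld n ρ x) (ch n x).target :=
  (gen_holo hρ x).const_smul (-I)

/-! ### Integral curves -/

theorem IntCurve.deriv (hρ : CircleSymmetry G ρ) {γ : ℝ → M} {a b t : ℝ} {x : M}
    (h : IntCurve n ρ γ a b) (ht : t ∈ Icc a b) (hx : γ t ∈ (ch n x).source) :
    HasDerivWithinAt (read n x γ) (fld n ρ x (read n x γ t)) (Icc a b) t := by
  have hc : ∀ᶠ s in 𝓝[Icc a b] t, γ s ∈ (ch n (γ t)).source :=
    h.1 t ht ((ch n (γ t)).open_source.mem_nhds (mem_chart_source _ _))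
  have h1 := ((tr_deriv (tr_mem' (mem_chart_source (Cn n) (γ t)) hx)).restrictScalars
    ℝ).comp_hasDerivWithinAt t (h.2 t ht)
  rw [show fld n ρ x (read n x γ t) = _ from fld_change hρ (mem_chart_source (Cn n) (γ t)) hx]
  refine h1.congr_of_eventuallyEq ?_ ?_
  · filter_upwards [hc] with s hs
    simp [tr, (ch n (γ t)).left_inv hs]
  · simp [tr, (ch n (γ t)).left_inv (mem_chart_source _ _)]

theorem IntCurve.mono {γ : ℝ → M} {a b c d : ℝ} (h : IntCurve n ρ γ a b) (hac : a ≤ c)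
    (hdb : d ≤ b) : IntCurve n ρ γ c d :=
  ⟨h.1.mono (Icc_subset_Icc hac hdb), fun t ht =>
    (h.2 t (Icc_subset_Icc hac hdb ht)).mono (Icc_subset_Icc hac hdb)⟩

theorem IntCurve.shift {γ : ℝ → M} {a b : ℝ} (h : IntCurve n ρ γ a b) (c : ℝ) :
    IntCurve n ρ (fun t => γ (t + c)) (a - c) (b - c) := by
  have hm : MapsTo (fun t => t + c) (Icc (a - c) (b - c)) (Icc a b) :=
    fun t ht => ⟨by linarith [ht.1], by linarith [ht.2]⟩
  refine ⟨h.1.comp (continuous_add_const c).continuousOn hm, fun t ht => ?_⟩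
  have := (h.2 (t + c) (hm ht)).scomp t ((hasDerivWithinAt_id t _).add_const c) hm
  simpa [Function.comp_def] using this

theorem IntCurve.glue {γ δ : ℝ → M} {a b c : ℝ} (hab : a ≤ b) (hbc : b ≤ c)
    (h₁ : IntCurve n ρ γ a b) (h₂ : IntCurve n ρ δ b c) (e : γ b = δ b) :
    IntCurve n ρ (fun t => if t ≤ b then γ t else δ t) a c := by
  set η : ℝ → M := fun t => if t ≤ b then γ t else δ t
  have e1 : EqOn η γ (Icc a b) := fun t ht => if_pos ht.2
  have e2 : EqOn η δ (Icc b c) := fun t ht => by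
    rcases ht.1.eq_or_lt with h | h
    · subst h; simp [η, e]
    · simp [η, not_le.2 h]
  have g1 : IntCurve n ρ η a b := ⟨h₁.1.congr e1, fun t ht => by
    rw [e1 ht]
    exact (h₁.2 t ht).congr (fun s hs => by simp [read, e1 hs]) (by simp [read, e1 ht])⟩
  have g2 : IntCurve n ρ η b c := ⟨h₂.1.congr e2, fun t ht => by
    rw [e2 ht]
    exact (h₂.2 t ht).congr (fun s hs => by simp [read, e2 hs]) (by simp [read, e2 ht])⟩
  rw [IntCurve, ← Icc_union_Icc_eq_Icc hab hbc]
  refine ⟨g1.1.union_of_isClosed g2.1 isClosed_Icc isClosed_Icc, fun t ht => ?_⟩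
  refine HasDerivWithinAt.union ?_ ?_
  · by_cases h : t ∈ Icc a b
    · exact g1.2 t h
    · exact HasFDerivWithinAt.of_notMem_closure (by rwa [isClosed_Icc.closure_eq])
  · by_cases h : t ∈ Icc b c
    · exact g2.2 t h
    · exact HasFDerivWithinAt.of_notMem_closure (by rwa [isClosed_Icc.closure_eq])

theorem IntCurve.map (hρ : CircleSymmetry G ρ) {γ : ℝ → M} {a b : ℝ} (h : IntCurve n ρ γ a b)
    (s : ℝ) : IntCurve n ρ (fun t => ρ s (γ t)) a b := by
  have hc : ContinuousOn (fun t => ρ s (γ t)) (Icc a b) :=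
    (hρ.cont.comp (continuous_const.prodMk continuous_id)).comp_continuousOn h.1
  refine ⟨hc, fun t ht => ?_⟩
  set x := γ t
  set y := ρ s (γ t)
  have hx := mem_chart_source (Cn n) x
  have hy := mem_chart_source (Cn n) y
  have hd : HasFDerivAt (act n ρ x y s) (fderiv ℂ (act n ρ x y s) (ch n x x)) (ch n x x) :=
    (act_diff hρ ((ch n x).map_source hx) (by rw [(ch n x).left_inv hx]; exact hy)).hasFDerivAt
  have h1 := (hd.restrictScalars ℝ).comp_hasDerivWithinAt t (h.2 t ht)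
  rw [fld_push hρ (s := s) hx hy]
  refine h1.congr_of_eventuallyEq ?_ ?_
  · have hev : ∀ᶠ r in 𝓝[Icc a b] t, γ r ∈ (ch n x).source :=
      h.1 t ht ((ch n x).open_source.mem_nhds hx)
    filter_upwards [hev] with r hr
    show ch n y (ρ s (γ r)) = act n ρ x y s (ch n x (γ r))
    simp [act, (ch n x).left_inv hr]
  · simp [act, (ch n x).left_inv hx, x, y]

theorem IntCurve.unique [T2Space M] (hρ : CircleSymmetry G ρ) {γ δ : ℝ → M} {a b t₀ : ℝ}
    (h₁ : IntCurve n ρ γ a b) (h₂ : IntCurve n ρ δ a b) (ht₀ : t₀ ∈ Icc a b)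
    (e : γ t₀ = δ t₀) : EqOn γ δ (Icc a b) := by
  set I := Icc a b
  haveI : PreconnectedSpace I := Subtype.preconnectedSpace isPreconnected_Icc
  set S : Set I := {t | γ t = δ t}
  have hcl : IsClosed S :=
    isClosed_eq h₁.1.restrict h₂.1.restrict
  have hop : IsOpen S := by
    rw [isOpen_iff_mem_nhds]
    rintro ⟨t₁, ht₁⟩ (he : γ t₁ = δ t₁)
    set x := γ t₁
    have hx := mem_chart_source (Cn n) x
    have hsm : ContDiffAt ℝ 1 (fld n ρ x) (ch n x x) :=
      (((contDiffOn_holo (ch n x).open_target (fld_holo hρ x)).contDiffAt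
        ((ch n x).open_target.mem_nhds ((ch n x).map_source hx))).restrict_scalars ℝ).of_le (by simp)
    obtain ⟨K, V, hV, hLip⟩ := hsm.exists_lipschitzOnWith
    have hev : ∀ {η : ℝ → M}, IntCurve n ρ η a b → η t₁ = x → ∀ᶠ t in 𝓝[I] t₁,
        η t ∈ (ch n x).source ∧ read n x η t ∈ V := fun {η} hη hηx => by
      have h1 : ∀ᶠ t in 𝓝[I] t₁, η t ∈ (ch n x).source :=
        hη.1 t₁ ht₁ ((ch n x).open_source.mem_nhds (by rw [hηx]; exact hx))
      have h2 : Tendsto (read n x η) (𝓝[I] t₁) (𝓝 (ch n x x)) := by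
        have hc : Tendsto η (𝓝[I] t₁) (𝓝 x) := by
          have := hη.1 t₁ ht₁
          rwa [ContinuousWithinAt, hηx] at this
        exact ((ch n x).continuousAt hx).tendsto.comp hc
      exact h1.and (h2 hV)
    obtain ⟨ε, hε, hsub⟩ := Metric.mem_nhdsWithin_iff.1 ((hev h₁ rfl).and (hev h₂ he.symm))
    set c := max a (t₁ - ε / 2)
    set d := min b (t₁ + ε / 2)
    have hcd : Icc c d ⊆ Metric.ball t₁ ε ∩ I := fun t ht => by
      refine ⟨?_, (le_max_left _ _).trans ht.1, ht.2.trans (min_le_left _ _)⟩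
      rw [Metric.mem_ball, Real.dist_eq, abs_lt]
      constructor <;> linarith [(le_max_right _ _).trans ht.1, ht.2.trans (min_le_right _ _)]
    have hd1 : ∀ {η : ℝ → M}, IntCurve n ρ η a b →
        (∀ t ∈ Icc c d, η t ∈ (ch n x).source) → ∀ t ∈ Icc c d,
        HasDerivWithinAt (read n x η) (fld n ρ x (read n x η t)) (Icc c d) t :=
      fun hη hs t ht => (hη.deriv hρ (hcd ht).2 (hs t ht)).mono fun r hr => (hcd hr).2
    have s1 : ∀ t ∈ Icc c d, γ t ∈ (ch n x).source ∧ read n x γ t ∈ V := fun t ht => (hsub (hcd ht)).1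
    have s2 : ∀ t ∈ Icc c d, δ t ∈ (ch n x).source ∧ read n x δ t ∈ V := fun t ht => (hsub (hcd ht)).2
    have heq : ∀ t ∈ Icc c d, read n x γ t = read n x δ t := by
      have hf := hd1 h₁ fun t ht => (s1 t ht).1
      have hg := hd1 h₂ fun t ht => (s2 t ht).1
      intro t ht
      have ht1 : t₁ ∈ Icc c d := ⟨max_le ht₁.1 (by linarith), le_min ht₁.2 (by linarith)⟩
      rcases le_total t₁ t with h | h
      · refine ODE_solution_unique_of_mem_Icc_right (v := fun _ => fld n ρ x) (s := fun _ => V)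
          (fun r _ => hLip) ?_ ?_ (fun r hr => (s1 r ⟨ht1.1.trans hr.1, hr.2.le.trans ht.2⟩).2) ?_ ?_
          (fun r hr => (s2 r ⟨ht1.1.trans hr.1, hr.2.le.trans ht.2⟩).2)
          (show read n x γ t₁ = read n x δ t₁ by simp [read, he, x]) (right_mem_Icc.2 h)
        · exact fun r hr => ((hf r ⟨ht1.1.trans hr.1, hr.2.trans ht.2⟩).continuousWithinAt).mono
            (Icc_subset_Icc ht1.1 ht.2)
        · exact fun r hr => (hf r ⟨ht1.1.trans hr.1, hr.2.le.trans ht.2⟩).mono_of_mem_nhdsWithin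
            (Icc_mem_nhdsGE_of_mem ⟨ht1.1.trans hr.1, hr.2.trans_le ht.2⟩)
        · exact fun r hr => ((hg r ⟨ht1.1.trans hr.1, hr.2.trans ht.2⟩).continuousWithinAt).mono
            (Icc_subset_Icc ht1.1 ht.2)
        · exact fun r hr => (hg r ⟨ht1.1.trans hr.1, hr.2.le.trans ht.2⟩).mono_of_mem_nhdsWithin
            (Icc_mem_nhdsGE_of_mem ⟨ht1.1.trans hr.1, hr.2.trans_le ht.2⟩)
      · refine ODE_solution_unique_of_mem_Icc_left (v := fun _ => fld n ρ x) (s := fun _ => V)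
          (fun r _ => hLip) ?_ ?_ (fun r hr => (s1 r ⟨ht.1.trans hr.1.le, hr.2.trans ht1.2⟩).2) ?_ ?_
          (fun r hr => (s2 r ⟨ht.1.trans hr.1.le, hr.2.trans ht1.2⟩).2)
          (show read n x γ t₁ = read n x δ t₁ by simp [read, he, x]) (left_mem_Icc.2 h)
        · exact fun r hr => ((hf r ⟨ht.1.trans hr.1, hr.2.trans ht1.2⟩).continuousWithinAt).mono
            (Icc_subset_Icc ht.1 ht1.2)
        · exact fun r hr => (hf r ⟨ht.1.trans hr.1.le, hr.2.trans ht1.2⟩).mono_of_mem_nhdsWithin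
            (Icc_mem_nhdsLE_of_mem ⟨ht.1.trans_lt hr.1, hr.2.trans ht1.2⟩)
        · exact fun r hr => ((hg r ⟨ht.1.trans hr.1, hr.2.trans ht1.2⟩).continuousWithinAt).mono
            (Icc_subset_Icc ht.1 ht1.2)
        · exact fun r hr => (hg r ⟨ht.1.trans hr.1.le, hr.2.trans ht1.2⟩).mono_of_mem_nhdsWithin
            (Icc_mem_nhdsLE_of_mem ⟨ht.1.trans_lt hr.1, hr.2.trans ht1.2⟩)
    have hnb : ∀ᶠ t : I in 𝓝 ⟨t₁, ht₁⟩, (t : ℝ) ∈ Ioo (t₁ - ε / 2) (t₁ + ε / 2) :=
      continuous_subtype_val.continuousAt (Ioo_mem_nhds (by linarith) (by linarith))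
    filter_upwards [hnb] with t ht
    have htcd : (t : ℝ) ∈ Icc c d := ⟨max_le t.2.1 ht.1.le, le_min t.2.2 ht.2.le⟩
    show γ t = δ t
    rw [← (ch n x).left_inv (s1 t htcd).1, ← (ch n x).left_inv (s2 t htcd).1]
    exact congrArg _ (heq t htcd)
  have hu : S = univ := IsClopen.eq_univ ⟨hcl, hop⟩ ⟨⟨t₀, ht₀⟩, e⟩
  exact fun t ht => (hu ▸ mem_univ _ : (⟨t, ht⟩ : I) ∈ S)

end Vale.Agent.P253.Circle
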