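import Vale.Agent.P253.Circle.Piece

/-!
P253: finitely many chart cells along a compact set, curvature bounds on them, and the change of
cell of a varied point.
-/

open scoped Manifold ContDiff InnerProductSpace Topology
open Complex Set Filter

noncomputable section

namespace Vale.Agent.P253.Circle

open Vale.Agent.Results.P253.SymmetricDomains (IsPos dz ddbar bisect)

variable {n : ℕ}

theorem Local.continuous_bisect {D : Set (Cn n)} {G : Cn n → (Cn n →L[ℂ] Cn n)} (hG : Local D G) :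
    ContinuousOn (fun q : Cn n × Cn n × Cn n => bisect G q.1 q.2.1 q.2.2)
      (D ×ˢ (univ : Set (Cn n × Cn n))) := by
  have hy : ContinuousOn (fun q : Cn n × Cn n × Cn n => q.1) (D ×ˢ univ) := continuousOn_fst
  have hu : Continuous fun q : Cn n × Cn n × Cn n => q.2.1 := continuous_fst.comp continuous_snd
  have hw : Continuous fun q : Cn n × Cn n × Cn n => q.2.2 := continuous_snd.comp continuous_snd
  have h1 := ((hG.smooth.fderiv_of_isOpen hG.isOpen (m := ∞) (by simp)).continuousOn_fderiv_of_isOpen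
      hG.isOpen (by simp)).comp hy (fun q (hq : q ∈ D ×ˢ (univ : Set (Cn n × Cn n))) => hq.1)
  have hdd : ContinuousOn (fun q : Cn n × Cn n × Cn n => ddbar G q.1 q.2.1) (D ×ˢ univ) :=
    (((h1.clm_apply hu.continuousOn).clm_apply hu.continuousOn).add
      ((h1.clm_apply (hu.const_smul I).continuousOn).clm_apply
        (hu.const_smul I).continuousOn)).const_smul (1 / 4 : ℂ)
  have hd : ContinuousOn (fun q : Cn n × Cn n × Cn n => dz G q.1 q.2.1 q.2.2) (D ×ˢ univ) :=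
    (ContinuousOn.comp (g := fun p : Cn n × Cn n => dz G p.1 p.2)
      (f := fun q : Cn n × Cn n × Cn n => (q.1, q.2.1)) hG.continuous_dz
      (hy.prodMk hu.continuousOn) fun q hq => ⟨hq.1, trivial⟩).clm_apply hw.continuousOn
  have hi : ContinuousOn (fun q : Cn n × Cn n × Cn n => (G q.1).inverse) (D ×ˢ univ) :=
    hG.continuous_inverse.comp hy fun q hq => hq.1
  exact (Complex.continuous_re.comp_continuousOn
    (hw.continuousOn.inner (hdd.clm_apply hw.continuousOn))).neg.add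
    (Complex.continuous_re.comp_continuousOn (hd.inner (hi.clm_apply hd)))

variable {M : Type} [TopologicalSpace M] [ChartedSpace (Cn n) M]

theorem bisect_nonneg [IsManifold 𝓘(ℂ, Cn n) ω M] {G : Metric (Cn n) M} (hK : PositiveBisect G) {x : M}
    {y : Cn n} (hy : y ∈ (ch n x).target) (u w : Cn n) : 0 ≤ bisect (rp G x) y u w := by
  by_cases hu : u = 0
  · simp [hu, bisect, dz, ddbar]
  by_cases hw : w = 0
  · simp [hw, bisect]
  exact (hK x y hy u w hu hw).le

variable [IsManifold 𝓘(ℂ, Cn n) ω M] {G : Metric (Cn n) M}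

theorem exists_radius : ∃ ρ : M → ℝ, ∀ p, 0 < ρ p ∧
    Metric.closedBall (ch n p p) (2 * ρ p) ⊆ (ch n p).target := by
  have : ∀ p : M, ∃ ρ : ℝ, 0 < ρ ∧
      Metric.closedBall (ch n p p) (2 * ρ) ⊆ (ch n p).target := fun p => by
    obtain ⟨r, hr, hsub⟩ := exists_ball (n := n) p p (mem_chart_source _ p)
    exact ⟨r / 2, half_pos hr, by rwa [mul_div_cancel₀ _ (two_ne_zero' ℝ)]⟩
  choose ρ h using this
  exact ⟨ρ, h⟩

theorem curvature_min (hG : IsKaehler G) (hK : PositiveBisect G) (t : Finset M) {ρ : M → ℝ}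
    (hρ : ∀ p, Metric.closedBall (ch n p p) (ρ p) ⊆ (ch n p).target) {Sm SM : ℝ} (hm : 0 < Sm) :
    ∃ κ > 0, ∀ p ∈ t, ∀ y ∈ Metric.closedBall (ch n p p) (ρ p), ∀ W u,
      sq (rp G p y) u = 1 → Sm ≤ sq (rp G p y) W → sq (rp G p y) W ≤ SM →
        κ ≤ bisect (rp G p) y W u := by
  have hone : ∀ p, ∃ κ > 0, ∀ y ∈ Metric.closedBall (ch n p p) (ρ p), ∀ W u,
      sq (rp G p y) u = 1 → Sm ≤ sq (rp G p y) W → sq (rp G p y) W ≤ SM →
        κ ≤ bisect (rp G p) y W u := by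
    intro p
    set B := Metric.closedBall (ch n p p) (ρ p)
    have hB : IsCompact B := isCompact_closedBall _ _
    obtain ⟨a, b, ha, -, hab⟩ := hG.bounds hB (hρ p)
    set K := B ×ˢ (Metric.closedBall (0 : Cn n) (Real.sqrt SM / a) ×ˢ
      Metric.closedBall (0 : Cn n) (1 / a))
    have hKc : IsCompact K :=
      hB.prod ((isCompact_closedBall _ _).prod (isCompact_closedBall _ _))
    set f : Cn n × Cn n × Cn n → ℝ × ℝ := fun q => (sq (rp G p q.1) q.2.1, sq (rp G p q.1) q.2.2)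
    have hf : ContinuousOn f K :=
      (ContinuousOn.comp (g := fun q : Cn n × Cn n => sq (rp G p q.1) q.2)
        (f := fun q : Cn n × Cn n × Cn n => (q.1, q.2.1)) (hG.continuous_sq p)
        (continuous_fst.prodMk (continuous_fst.comp continuous_snd)).continuousOn
        fun q hq => ⟨hρ p hq.1, trivial⟩).prodMk
      (ContinuousOn.comp (g := fun q : Cn n × Cn n => sq (rp G p q.1) q.2)
        (f := fun q : Cn n × Cn n × Cn n => (q.1, q.2.2)) (hG.continuous_sq p)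
        (continuous_fst.prodMk (continuous_snd.comp continuous_snd)).continuousOn
        fun q hq => ⟨hρ p hq.1, trivial⟩)
    set S := K ∩ f ⁻¹' (Icc Sm SM ×ˢ {1})
    have hS : IsCompact S := hKc.of_isClosed_subset
      (hf.preimage_isClosed_of_isClosed hKc.isClosed (isClosed_Icc.prod isClosed_singleton))
      inter_subset_left
    obtain ⟨κ, hκ, hmin⟩ : ∃ κ, 0 < κ ∧ ∀ q ∈ S, κ ≤ bisect (rp G p) q.1 q.2.1 q.2.2 := by
      refine hS.exists_forall_le' ?_ ?_
      · exact (hG.chartMetric p).continuous_bisect.mono fun q hq => ⟨hρ p hq.1.1, trivial⟩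
      · rintro ⟨y, W, u⟩ ⟨⟨hy, -⟩, hW, hu⟩
        refine hK p y (hρ p hy) W u (fun h => ?_) fun h => ?_
        · have := hW.1
          simp [f, h, sq, Vale.Agent.Results.P253.SymmetricDomains.sq] at this
          linarith
        · simp [f, h, sq, Vale.Agent.Results.P253.SymmetricDomains.sq] at hu
    refine ⟨κ, hκ, fun y hy W u hu h1 h2 => hmin (y, W, u) ⟨⟨hy, ?_, ?_⟩, ⟨h1, h2⟩, hu⟩⟩
    · rw [mem_closedBall_zero_iff, le_div_iff₀ ha]
      nlinarith [(hab y hy W).1, Real.sqrt_le_sqrt h2]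
    · rw [mem_closedBall_zero_iff, le_div_iff₀ ha]
      have := (hab y hy u).1
      rw [hu, Real.sqrt_one] at this
      linarith
  choose κ hκ hκb using hone
  rcases t.eq_empty_or_nonempty with h | h
  · exact ⟨1, one_pos, by simp [h]⟩
  · obtain ⟨q, hq, hmin⟩ := t.exists_min_image κ h
    exact ⟨κ q, hκ q, fun p hp y hy W u a b c => (hmin p hp).trans (hκb p y hy W u a b c)⟩

/-- Around a common point of two cells the transition is defined and stays in a larger ball. -/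
theorem junction_nbhd [T2Space M] {x x' : M} {c c' : Cn n} {ρ ρ' : ℝ}
    (hρ' : 0 < ρ') (h1 : Metric.closedBall c ρ ⊆ (ch n x).target)
    (h1' : Metric.closedBall c' ρ' ⊆ (ch n x').target) :
    ∃ η > 0, ∃ L ≥ 0, ∀ v : M,
      v ∈ (ch n x).source → ‖ch n x v - c‖ ≤ ρ → v ∈ (ch n x').source → ‖ch n x' v - c'‖ ≤ ρ' →
      ‖dtr n x x' (ch n x v)‖ ≤ L ∧ ∀ d : Cn n, ‖d‖ ≤ η →
        ch n x v + d ∈ (tr n x x').source ∧ ‖tr n x x' (ch n x v + d) - c'‖ < 2 * ρ' := by
  set K' := (ch n x').symm '' Metric.closedBall c' ρ'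
  have hK' : IsClosed K' :=
    ((isCompact_closedBall c' ρ').image_of_continuousOn
      ((ch n x').continuousOn_symm.mono h1')).isClosed
  set J : Set (Cn n) := Metric.closedBall c ρ ∩ ⇑(ch n x).symm ⁻¹' K'
  have hJ : IsCompact J := (isCompact_closedBall c ρ).of_isClosed_subset
    (((ch n x).continuousOn_symm.mono h1).preimage_isClosed_of_isClosed
      Metric.isClosed_closedBall hK') inter_subset_left
  set V : Set (Cn n) := (tr n x x').source ∩ ⇑(tr n x x') ⁻¹' Metric.ball c' (2 * ρ')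
  have hJs : J ⊆ V := by
    rintro y ⟨hy, q, hq, e⟩
    refine ⟨tr_mem.2 ⟨h1 hy, e ▸ (ch n x').map_target (h1' hq)⟩, ?_⟩
    show ch n x' ((ch n x).symm y) ∈ Metric.ball c' (2 * ρ')
    rw [← e, (ch n x').right_inv (h1' hq), Metric.mem_ball]
    linarith [Metric.mem_closedBall.1 hq]
  obtain ⟨η, hη, hηU⟩ := hJ.exists_cthickening_subset_open
    ((tr n x x').isOpen_inter_preimage Metric.isOpen_ball) hJs
  have hcd : ContinuousOn (fun y => dtr n x x' y) J :=
    ((tr_smooth x x').continuousOn_fderiv_of_isOpen (tr n x x').open_source (by simp)).mono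
      fun y hy => (hJs hy).1
  obtain ⟨L, hL⟩ := hJ.exists_bound_of_continuousOn hcd
  refine ⟨η, hη, max L 0, le_max_right _ _, fun v hv hvb hv' hvb' => ?_⟩
  have hyJ : ch n x v ∈ J := by
    refine ⟨mem_closedBall_iff_norm.2 hvb, ch n x' v, mem_closedBall_iff_norm.2 hvb', ?_⟩
    rw [(ch n x').left_inv hv', (ch n x).left_inv hv]
  refine ⟨(hL _ hyJ).trans (le_max_left _ _), fun d hd => ?_⟩
  have h := hηU (Metric.mem_cthickening_of_dist_le (ch n x v + d) (ch n x v) η J hyJ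
    (by rwa [dist_eq_norm, add_sub_cancel_left]))
  exact ⟨h.1, mem_ball_iff_norm.1 h.2⟩

/-- Change of cell of a varied point. -/
theorem junction (hG : IsKaehler G) [T2Space M] {x x' : M} {c c' : Cn n} {ρ ρ' : ℝ}
    (hρ : 0 < ρ) (hρ' : 0 < ρ') (hsub : Metric.closedBall c (2 * ρ) ⊆ (ch n x).target)
    (hsub' : Metric.closedBall c' (2 * ρ') ⊆ (ch n x').target) {A : ℝ} (hA : 0 ≤ A) :
    ∃ A' ≥ 0, ∀ ε : ℝ, 0 < ε → ∃ r₀ > 0, ∀ v : M,
      v ∈ (ch n x).source → ‖ch n x v - c‖ ≤ ρ → v ∈ (ch n x').source → ‖ch n x' v - c'‖ ≤ ρ' →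
      ∀ W : Cn n, ‖W‖ ≤ A → ∃ Q : Cn n, ‖Q‖ ≤ A' ∧ ∀ s : ℂ, ‖s‖ < r₀ →
        gd G ((ch n x).symm (fam (ch n x v) W 0 s))
          ((ch n x').symm (fam (ch n x' v) (dtr n x x' (ch n x v) W) Q s)) ≤ ε * ‖s‖ ^ 2 := by
  obtain ⟨η, hη, L, hL, hnb⟩ := junction_nbhd (n := n) hρ'
    ((Metric.closedBall_subset_closedBall (by linarith : ρ ≤ 2 * ρ)).trans hsub)
    ((Metric.closedBall_subset_closedBall (by linarith : ρ' ≤ 2 * ρ')).trans hsub')
  obtain ⟨b, hb0, hb⟩ := gd_chart_le hG hsub'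
  obtain ⟨r₁, hr₁, hr₁A⟩ : ∃ r₁ > 0, r₁ * A ≤ η := ⟨η / (A + 1), by positivity, by
    rw [div_mul_eq_mul_div, div_le_iff₀ (by positivity)]; nlinarith⟩
  obtain ⟨B, hB, hBdef⟩ : ∃ B ≥ 0, ‖c'‖ + 2 * ρ' = B := ⟨_, by positivity, rfl⟩
  refine ⟨4 * B / r₁ ^ 2, by positivity, fun ε hε => ?_⟩
  refine ⟨min (min r₁ 1) (min (ε / (b * (8 * B / r₁ ^ 3) + 1))
    (ρ' / (L * A + 4 * B / r₁ ^ 2 + 1))), by positivity, fun v hv hvb hv' hvb' W hW => ?_⟩
  obtain ⟨hLd, hd'⟩ := hnb v hv hvb hv' hvb'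
  set y := ch n x v
  have hline : ∀ τ ∈ Metric.closedBall (0 : ℂ) r₁,
      y + τ • W ∈ (tr n x x').source ∧ ‖tr n x x' (y + τ • W) - c'‖ < 2 * ρ' := fun τ hτ => by
    refine hd' _ (le_trans ?_ hr₁A)
    rw [norm_smul]
    exact mul_le_mul (mem_closedBall_zero_iff.1 hτ) hW (norm_nonneg _) hr₁.le
  set f : ℂ → Cn n := fun τ => tr n x x' (y + τ • W)
  have hfd : DifferentiableOn ℂ f (Metric.closedBall 0 r₁) := fun τ hτ =>
    ((tr_diffAt (hline τ hτ).1).comp τ (by fun_prop)).differentiableWithinAt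
  have hfB : ∀ τ ∈ Metric.closedBall (0 : ℂ) r₁, ‖f τ‖ ≤ B := fun τ hτ => by
    have h := (hline τ hτ).2
    linarith [norm_le_norm_add_norm_sub' (f τ) c']
  obtain ⟨Q, hQ, hrem⟩ := disc_taylor hr₁ hfd hfB
  refine ⟨Q, hQ, fun s hs => ?_⟩
  simp only [lt_min_iff] at hs
  have hy0 : y ∈ (tr n x x').source := by
    simpa using (hline 0 (Metric.mem_closedBall_self hr₁.le)).1
  have hd : deriv f 0 = dtr n x x' y W := by
    have h1 : HasDerivAt (fun τ : ℂ => y + τ • W) W 0 := by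
      simpa using ((hasDerivAt_id (0 : ℂ)).smul_const W).const_add y
    exact ((tr_deriv hy0).comp_hasDerivAt_of_eq 0 h1 (by simp)).deriv
  have hf0 : f 0 = ch n x' v := by simp [f, y, tr, (ch n x).left_inv hv]
  have hs1 : s ∈ Metric.closedBall (0 : ℂ) r₁ := mem_closedBall_zero_iff.2 hs.1.1.le
  set z' := fam (ch n x' v) (dtr n x x' y W) Q s
  have hz' : z' ∈ Metric.closedBall c' (2 * ρ') := by
    rw [mem_closedBall_iff_norm]
    have e := fam_dist (y := ch n x' v) (b := dtr n x x' y W) (e := Q) (s := s) hs.1.2.le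
    have e2 : ‖dtr n x x' y W‖ ≤ L * A :=
      ((dtr n x x' y).le_opNorm W).trans (mul_le_mul hLd hW (norm_nonneg _) hL)
    have e3 := (lt_div_iff₀ (by positivity)).1 hs.2.2
    have e4 : ‖s‖ * (‖dtr n x x' y W‖ + ‖Q‖) ≤ ρ' := by
      refine le_trans (mul_le_mul_of_nonneg_left ?_ (norm_nonneg s)) e3.le
      linarith
    linarith [norm_sub_le_norm_sub_add_norm_sub z' (ch n x' v) c']
  obtain ⟨γ, hγ, e0, e1, hl⟩ :=
    hb (f s) (mem_closedBall_iff_norm.2 (hline s hs1).2.le) z' hz'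
  have e5 : (ch n x').symm (f s) = (ch n x).symm (fam y W 0 s) := by
    have h := tr_mem.1 (hline s hs1).1
    simp [f, tr, fam, (ch n x').left_inv h.2]
  refine ((gd_le hγ (e0.trans e5) e1).trans hl).trans ?_
  have hR := hrem s hs1
  rw [hd, hf0] at hR
  have e7 : f s - z' = f s - ch n x' v - s • dtr n x x' y W - s ^ 2 • Q := by
    simp only [z', fam]
    abel
  rw [← e7, norm_sub_rev] at hR
  have e6 : b * (8 * B / r₁ ^ 3) * ‖s‖ ≤ ε := by
    have h := (lt_div_iff₀ (by positivity)).1 hs.2.1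
    nlinarith [norm_nonneg s]
  calc b * ‖z' - f s‖ ≤ b * (8 * B / r₁ ^ 3 * ‖s‖ ^ 3) := mul_le_mul_of_nonneg_left hR hb0.le
    _ = b * (8 * B / r₁ ^ 3) * ‖s‖ * ‖s‖ ^ 2 := by ring
    _ ≤ _ := mul_le_mul_of_nonneg_right e6 (sq_nonneg _)

/-- Finitely many cells follow every short piece of curve starting in a compact set. -/
theorem cover [T2Space M] [ConnectedSpace M] (hG : IsKaehler G) {ρ : M → ℝ} (hρ : ∀ p, 0 < ρ p)
    (hsub : ∀ p, Metric.closedBall (ch n p p) (ρ p) ⊆ (ch n p).target) {K : Set M}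
    (hK : IsCompact K) : ∃ (t : Finset M) (δ : ℝ), 0 < δ ∧ ∀ v ∈ K, ∃ p ∈ t, ∀ w, gd G v w ≤ δ →
      w ∈ (ch n p).source ∧ ‖ch n p w - ch n p p‖ ≤ ρ p := by
  have hc : ∀ p : M, ∃ r > 0, ∀ w, gd G p w < r →
      w ∈ (ch n p).source ∧ ‖ch n p w - ch n p p‖ ≤ ρ p := by
    intro p
    obtain ⟨a, ha, h⟩ := gd_confine hG (hsub p)
    refine ⟨ρ p * a, mul_pos (hρ p) ha, fun w hw => ?_⟩
    obtain ⟨h1, h2⟩ := h (ch n p p) w (by
      rw [(ch n p).left_inv (mem_chart_source _ p), sub_self, norm_zero, zero_add, div_lt_iff₀ ha]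
      exact hw)
    exact ⟨h1, h2.le⟩
  choose r hr hmem using hc
  obtain ⟨t, htK⟩ := hK.elim_finite_subcover (fun p => {w | gd G p w < r p / 2})
    (fun p => isOpen_lt (continuous_gd hG p) continuous_const)
    (fun w _ => mem_iUnion.2 ⟨w, by simp [gd_self, hr w]⟩)
  obtain ⟨δ, hδ, hδt⟩ : ∃ δ > 0, ∀ p ∈ t, δ ≤ r p / 4 := by
    rcases t.eq_empty_or_nonempty with h | h
    · exact ⟨1, one_pos, by simp [h]⟩
    · obtain ⟨p, -, hmin⟩ := t.exists_min_image r h
      exact ⟨r p / 4, by linarith [hr p], fun q hq => by linarith [hmin q hq]⟩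
  refine ⟨t, δ, hδ, fun v hv => ?_⟩
  obtain ⟨p, hp⟩ := mem_iUnion.1 (htK hv)
  simp only [mem_iUnion, exists_prop, mem_ofPred_eq] at hp
  exact ⟨p, hp.1, fun w hw => hmem p w (by linarith [gd_triangle hG p v w, hδt p hp.1, hp.2, hr p])⟩

end Vale.Agent.P253.Circle
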