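import Vale.Agent.P253.Circle.Defs

/-!
P253: holomorphic maps of several variables: derivative bounds, limits, smoothness, expansions on
discs.
-/

open scoped ContDiff Topology
open Complex Set Filter Metric

noncomputable section

namespace Vale.Agent.P253.Circle

variable {n : ℕ} {F : Type} [NormedAddCommGroup F] [NormedSpace ℂ F]

theorem fderiv_bound {f : Cn n → F} {a : Cn n} {r C : ℝ} (hr : 0 < r)
    (hC : 0 ≤ C) (hd : DifferentiableOn ℂ f (ball a (2 * r)))
    (hb : ∀ z ∈ ball a (2 * r), ‖f z‖ ≤ C) {x : Cn n} (hx : x ∈ ball a r) :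
    ‖fderiv ℂ f x‖ ≤ C / r := by
  refine ContinuousLinearMap.opNorm_le_bound _ (by positivity) fun v => ?_
  by_cases hv : v = 0
  · simp [hv]
  have hv0 : 0 < ‖v‖ := norm_pos_iff.2 hv
  have hmem : ∀ t ∈ closedBall (0 : ℂ) (r / ‖v‖), x + t • v ∈ ball a (2 * r) := by
    intro t ht
    rw [mem_closedBall_zero_iff, le_div_iff₀ hv0] at ht
    rw [Metric.mem_ball, dist_eq_norm] at hx ⊢
    calc ‖x + t • v - a‖ ≤ ‖x - a‖ + ‖t • v‖ := by rw [add_sub_right_comm]; exact norm_add_le _ _
      _ < 2 * r := by rw [norm_smul]; linarith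
  have hdiff : DifferentiableOn ℂ (fun t : ℂ => f (x + t • v)) (closedBall 0 (r / ‖v‖)) :=
    hd.comp (by fun_prop) hmem
  have h := Complex.norm_deriv_le_of_forall_mem_sphere_norm_le (div_pos hr hv0)
    (f := fun t : ℂ => f (x + t • v)) (C := C)
    ((hdiff.mono closure_ball_subset_closedBall).diffContOnCl)
    fun t ht => hb _ (hmem t (sphere_subset_closedBall ht))
  have hx' : x ∈ ball a (2 * r) := by simpa using hmem 0 (mem_closedBall_self (by positivity))
  have h1 : HasDerivAt (fun t : ℂ => x + t • v) v 0 := by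
    simpa using ((hasDerivAt_id (0 : ℂ)).smul_const v).const_add x
  have hder : HasDerivAt (fun t : ℂ => f (x + t • v)) (fderiv ℂ f x v) 0 :=
    (hd.differentiableAt (isOpen_ball.mem_nhds hx')).hasFDerivAt.comp_hasDerivAt_of_eq 0 h1
      (by simp)
  rw [hder.deriv] at h
  calc ‖fderiv ℂ f x v‖ ≤ C / (r / ‖v‖) := h
    _ = C / r * ‖v‖ := by rw [div_div_eq_mul_div]; ring

/-- Weierstrass: a uniform limit of holomorphic maps on a ball is holomorphic. -/
theorem holo_limit [CompleteSpace F] {ι : Type} {l : Filter ι} [l.NeBot] {f : ι → Cn n → F}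
    {g : Cn n → F} {a : Cn n} {r : ℝ} (hr : 0 < r)
    (hd : ∀ᶠ k in l, DifferentiableOn ℂ (f k) (ball a (2 * r)))
    (hu : TendstoUniformlyOn f g l (ball a (2 * r))) : DifferentiableOn ℂ g (ball a r) := by
  have hc : UniformCauchySeqOn (fun k => fderiv ℂ (f k)) l (ball a r) := by
    intro u hu'
    obtain ⟨ε, hε, hεu⟩ := Metric.mem_uniformity_dist.1 hu'
    have h2 := hu.uniformCauchySeqOn {p : F × F | dist p.1 p.2 < ε / 2 * r}
      (Metric.dist_mem_uniformity (by positivity))
    filter_upwards [h2, hd.prod_mk hd] with k hk hk2 z hz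
    refine hεu ?_
    have hb := fderiv_bound (f := f k.1 - f k.2) hr (C := ε / 2 * r) (by positivity)
      (hk2.1.sub hk2.2) (fun y hy => by
        have h3 : dist (f k.1 y) (f k.2 y) < ε / 2 * r := hk y hy
        rw [dist_eq_norm] at h3
        exact h3.le) hz
    have hz' : z ∈ ball a (2 * r) := ball_subset_ball (by linarith) hz
    rw [fderiv_sub (hk2.1.differentiableAt (isOpen_ball.mem_nhds hz'))
      (hk2.2.differentiableAt (isOpen_ball.mem_nhds hz'))] at hb
    rw [dist_eq_norm]
    calc _ ≤ ε / 2 * r / r := hb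
      _ < ε := by rw [mul_div_cancel_right₀ _ hr.ne']; linarith
  have hlim : ∀ z ∈ ball a r, ∃ L, Tendsto (fun k => fderiv ℂ (f k) z) l (𝓝 L) := fun z hz =>
    CompleteSpace.complete (hc.cauchy_map hz)
  choose! D hD using hlim
  intro z hz
  refine (hasFDerivAt_of_tendstoUniformlyOnFilter (f := f) (f' := fun k => fderiv ℂ (f k))
    (g' := D) ((hc.tendstoUniformlyOn_of_tendsto hD).tendstoUniformlyOnFilter.mono_right
      (le_principal_iff.2 (isOpen_ball.mem_nhds hz))) ?_ ?_).differentiableAt.differentiableWithinAt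
  · have : ∀ᶠ y : Cn n in 𝓝 z, y ∈ ball a r := isOpen_ball.mem_nhds hz
    filter_upwards [hd.prod_mk this] with p hp
    exact (hp.1.differentiableAt
      (isOpen_ball.mem_nhds (ball_subset_ball (by linarith) hp.2))).hasFDerivAt
  · have : ∀ᶠ y : Cn n in 𝓝 z, y ∈ ball a r := isOpen_ball.mem_nhds hz
    filter_upwards [this] with y hy
    exact hu.tendsto_at (ball_subset_ball (by linarith) hy)

theorem fderiv_differentiable [CompleteSpace F] {f : Cn n → F} {U : Set (Cn n)} (hU : IsOpen U)
    (hf : DifferentiableOn ℂ f U) (v : Cn n) :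
    DifferentiableOn ℂ (fun z => fderiv ℂ f z v) U := by
  intro p hp
  obtain ⟨ρ, hρ, hsub⟩ := Metric.isOpen_iff.1 hU p hp
  obtain ⟨C, hC⟩ := (isCompact_closedBall p (ρ / 2)).exists_bound_of_continuousOn
    ((hf.continuousOn).mono ((closedBall_subset_ball (by linarith)).trans hsub))
  have hC0 : 0 ≤ C := (norm_nonneg _).trans (hC p (mem_closedBall_self (by linarith)))
  set s := ρ / 16
  have hs : 0 < s := by simp [s]; linarith
  have hd8 : DifferentiableOn ℂ f (ball p (8 * s)) :=
    hf.mono ((ball_subset_ball (by simp [s]; linarith)).trans hsub)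
  have hb8 : ∀ z ∈ ball p (8 * s), ‖f z‖ ≤ C := fun z hz =>
    hC z (ball_subset_closedBall.trans (closedBall_subset_closedBall (by simp [s]; linarith)) hz)
  have h1 : ∀ z ∈ ball p (4 * s), ‖fderiv ℂ f z‖ ≤ C / (4 * s) := fun z hz =>
    fderiv_bound (by linarith) hC0 (by rwa [← mul_assoc, show (2 : ℝ) * 4 = 8 by norm_num])
      (by rwa [← mul_assoc, show (2 : ℝ) * 4 = 8 by norm_num]) hz
  have hlim : TendstoUniformlyOn (fun (h : ℂ) z => h⁻¹ • (f (z + h • v) - f z))
      (fun z => fderiv ℂ f z v) (𝓝[≠] 0) (ball p (2 * (s / 2))) := by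
    rw [Metric.tendstoUniformlyOn_iff]
    intro ε hε
    set L := C / (4 * s)
    have hL : 0 ≤ L := by positivity
    have hev : ∀ᶠ h : ℂ in 𝓝[≠] 0, ‖h • v‖ < s ∧ L / s * ‖h • v‖ * ‖v‖ < ε ∧ h ≠ 0 := by
      have c1 : Tendsto (fun h : ℂ => ‖h • v‖) (𝓝 0) (𝓝 0) := by
        have : Continuous fun h : ℂ => ‖h • v‖ := by fun_prop
        simpa using this.tendsto 0
      have c2 : Tendsto (fun h : ℂ => L / s * ‖h • v‖ * ‖v‖) (𝓝 0) (𝓝 0) := by
        simpa using (c1.const_mul (L / s)).mul_const ‖v‖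
      filter_upwards [nhdsWithin_le_nhds (c1.eventually_lt_const hs),
        nhdsWithin_le_nhds (c2.eventually_lt_const hε), self_mem_nhdsWithin] with h a b c
      exact ⟨a, b, c⟩
    filter_upwards [hev] with h ⟨hh, hhε, h0⟩ z hz
    rw [mul_div_cancel₀ _ (two_ne_zero' ℝ)] at hz
    have hz4 : z ∈ ball p (4 * s) := ball_subset_ball (by linarith) hz
    set a := z + h • v
    have ha : a ∈ ball p (2 * s) := by
      rw [Metric.mem_ball, dist_eq_norm] at hz ⊢
      calc ‖a - p‖ ≤ ‖z - p‖ + ‖h • v‖ := by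
            rw [show a - p = (z - p) + h • v by simp [a]; abel]; exact norm_add_le _ _
        _ < 2 * s := by linarith
    have key : ‖f a - f z - fderiv ℂ f z (h • v)‖ ≤ L / s * ‖h • v‖ * ‖h • v‖ := by
      have hsg : segment ℝ z a ⊆ ball p (2 * s) :=
        (convex_ball _ _).segment_subset (ball_subset_ball (by linarith) hz) ha
      have hlip : ∀ y ∈ segment ℝ z a, ‖fderiv ℂ f y - fderiv ℂ f z‖ ≤ L / s * ‖h • v‖ := by
        intro y hy
        have hyz : ‖y - z‖ ≤ ‖h • v‖ := by
          have := norm_sub_le_of_mem_segment hy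
          simpa [a] using this
        refine le_trans ?_ (mul_le_mul_of_nonneg_left hyz (by positivity))
        refine ContinuousLinearMap.opNorm_le_bound _ (by positivity) fun w => ?_
        have hdw : ∀ y' ∈ ball p (2 * s), DifferentiableAt ℂ f y' := fun y' hy' =>
          hd8.differentiableAt (isOpen_ball.mem_nhds (ball_subset_ball (by linarith) hy'))
        set g : ℂ → F := fun t => f (y + t • w) - f (z + t • w)
        by_cases hw : w = 0
        · simp [hw]
        have hw0 : 0 < ‖w‖ := norm_pos_iff.2 hw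
        have hy2 := hsg hy
        have hz2 : z ∈ ball p (2 * s) := ball_subset_ball (by linarith) hz
        have hmem : ∀ y' ∈ ball p (2 * s), ∀ t ∈ closedBall (0 : ℂ) (s / ‖w‖),
            y' + t • w ∈ ball p (4 * s) := by
          intro y' hy' t ht
          rw [mem_closedBall_zero_iff, le_div_iff₀ hw0] at ht
          rw [Metric.mem_ball, dist_eq_norm] at hy' ⊢
          calc ‖y' + t • w - p‖ ≤ ‖y' - p‖ + ‖t • w‖ := by
                rw [add_sub_right_comm]; exact norm_add_le _ _
            _ < 4 * s := by rw [norm_smul]; linarith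
        have hg : DifferentiableOn ℂ g (closedBall 0 (s / ‖w‖)) :=
          ((hd8.mono (ball_subset_ball (by linarith))).comp (by fun_prop) (hmem y hy2)).sub
            ((hd8.mono (ball_subset_ball (by linarith))).comp (by fun_prop) (hmem z hz2))
        have hh' := Complex.norm_deriv_le_of_forall_mem_sphere_norm_le (div_pos hs hw0)
          (f := g) (C := L * ‖y - z‖)
          ((hg.mono closure_ball_subset_closedBall).diffContOnCl) (fun t ht => by
            have ht' := sphere_subset_closedBall ht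
            have := (convex_ball p (4 * s)).norm_image_sub_le_of_norm_fderiv_le (𝕜 := ℂ)
              (fun q hq => hd8.differentiableAt
                (isOpen_ball.mem_nhds (ball_subset_ball (by linarith) hq)))
              h1 (hmem z hz2 t ht') (hmem y hy2 t ht')
            simpa [g] using this)
        have hdd : ∀ y' ∈ ball p (2 * s),
            HasDerivAt (fun t : ℂ => f (y' + t • w)) (fderiv ℂ f y' w) 0 := by
          intro y' hy'
          have h1' : HasDerivAt (fun t : ℂ => y' + t • w) w 0 := by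
            simpa using ((hasDerivAt_id (0 : ℂ)).smul_const w).const_add y'
          exact (hdw y' hy').hasFDerivAt.comp_hasDerivAt_of_eq 0 h1' (by simp)
        rw [((hdd y hy2).fun_sub (hdd z hz2)).deriv] at hh'
        calc _ ≤ L * ‖y - z‖ / (s / ‖w‖) := hh'
          _ = L / s * ‖y - z‖ * ‖w‖ := by rw [div_div_eq_mul_div]; ring
      have := (convex_segment z a).norm_image_sub_le_of_norm_fderiv_le' (𝕜 := ℂ)
        (φ := fderiv ℂ f z)
        (fun y hy => hd8.differentiableAt
          (isOpen_ball.mem_nhds (ball_subset_ball (by linarith) (hsg hy))))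
        hlip (left_mem_segment ℝ z a) (right_mem_segment ℝ z a)
      simpa [a] using this
    rw [dist_eq_norm, norm_sub_rev]
    have e : h⁻¹ • (f a - f z) - fderiv ℂ f z v = h⁻¹ • (f a - f z - fderiv ℂ f z (h • v)) := by
      rw [map_smul, smul_sub, smul_sub, smul_sub, smul_smul, inv_mul_cancel₀ h0, one_smul]
    rw [e, norm_smul, norm_inv]
    refine lt_of_le_of_lt (mul_le_mul_of_nonneg_left key (inv_nonneg.2 (norm_nonneg _))) ?_
    rw [norm_smul] at hhε ⊢
    have : 0 < ‖h‖ := norm_pos_iff.2 h0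
    field_simp at hhε ⊢
    linarith
  have hd' : ∀ᶠ h : ℂ in 𝓝[≠] 0,
      DifferentiableOn ℂ (fun z => h⁻¹ • (f (z + h • v) - f z)) (ball p (2 * (s / 2))) := by
    have c1 : Tendsto (fun h : ℂ => ‖h • v‖) (𝓝 0) (𝓝 0) := by
      have : Continuous fun h : ℂ => ‖h • v‖ := by fun_prop
      simpa using this.tendsto 0
    filter_upwards [nhdsWithin_le_nhds (c1.eventually_lt_const hs)] with h hh
    refine ((hd8.comp (by fun_prop) fun z hz => ?_).sub
      (hd8.mono (ball_subset_ball (by linarith)))).const_smul h⁻¹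
    rw [Metric.mem_ball, dist_eq_norm] at hz ⊢
    calc ‖z + h • v - p‖ ≤ ‖z - p‖ + ‖h • v‖ := by
          rw [add_sub_right_comm]; exact norm_add_le _ _
      _ < 8 * s := by linarith
  exact ((holo_limit (by linarith) hd' hlim).differentiableAt
    (ball_mem_nhds p (by linarith))).differentiableWithinAt

theorem contDiffOn_holo [CompleteSpace F] {U : Set (Cn n)} (hU : IsOpen U) {f : Cn n → F}
    (hf : DifferentiableOn ℂ f U) : ContDiffOn ℂ ∞ f U := by
  rw [contDiffOn_infty]
  intro m
  induction m generalizing f with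
  | zero => exact contDiffOn_zero.2 hf.continuousOn
  | succ m ih =>
    rw [show ((m + 1 : ℕ) : WithTop ℕ∞) = (m : WithTop ℕ∞) + 1 from rfl,
      contDiffOn_succ_iff_fderiv_of_isOpen hU]
    exact ⟨hf, by simp, contDiffOn_clm_apply.2 fun v => ih (fderiv_differentiable hU hf v)⟩

/-- Cubic expansion of a bounded holomorphic map of one variable. -/
theorem disc_taylor [CompleteSpace F] {f : ℂ → F} {r C : ℝ} (hr : 0 < r)
    (hf : DifferentiableOn ℂ f (closedBall 0 r)) (hb : ∀ τ ∈ closedBall (0 : ℂ) r, ‖f τ‖ ≤ C) :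
    ∃ a : F, ‖a‖ ≤ 4 * C / r ^ 2 ∧ ∀ τ ∈ closedBall (0 : ℂ) r,
      ‖f τ - f 0 - τ • deriv f 0 - τ ^ 2 • a‖ ≤ 8 * C / r ^ 3 * ‖τ‖ ^ 3 := by
  have h0 : (0 : ℂ) ∈ closedBall (0 : ℂ) r := mem_closedBall_self hr.le
  have hn : closedBall (0 : ℂ) r ∈ 𝓝 0 := closedBall_mem_nhds _ hr
  have step : ∀ {g : ℂ → F} {A : ℝ}, DifferentiableOn ℂ g (closedBall 0 r) →
      (∀ τ ∈ closedBall (0 : ℂ) r, ‖g τ‖ ≤ A) →
      DifferentiableOn ℂ (dslope g 0) (closedBall 0 r) ∧
        ∀ τ ∈ closedBall (0 : ℂ) r, ‖dslope g 0 τ‖ ≤ 2 * A / r := by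
    intro g A hg hA
    have hd := (Complex.differentiableOn_dslope hn).2 hg
    refine ⟨hd, fun τ hτ => ?_⟩
    refine Complex.norm_le_of_forall_mem_frontier_norm_le (U := ball (0 : ℂ) r) isBounded_ball
      (hd.mono closure_ball_subset_closedBall).diffContOnCl (fun z hz => ?_)
      (by rw [closure_ball _ hr.ne']; exact hτ)
    rw [frontier_ball _ hr.ne', mem_sphere_zero_iff_norm] at hz
    have hz0 : z ≠ 0 := fun h => by rw [h, norm_zero] at hz; linarith
    rw [dslope_of_ne _ hz0, slope_def_module, norm_smul, norm_inv, sub_zero, hz, inv_mul_eq_div]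
    refine div_le_div_of_nonneg_right ((norm_sub_le _ _).trans ?_) hr.le
    linarith [hA z (by rw [mem_closedBall_zero_iff, hz]), hA 0 h0]
  obtain ⟨d1, b1⟩ := step hf hb
  obtain ⟨d2, b2⟩ := step d1 b1
  obtain ⟨d3, b3⟩ := step d2 b2
  refine ⟨dslope (dslope f 0) 0 0, (b2 0 h0).trans (le_of_eq (by field_simp; ring)),
    fun τ hτ => ?_⟩
  have e : ∀ g : ℂ → F, g τ = g 0 + τ • dslope g 0 τ := fun g => by
    have := sub_smul_dslope g 0 τ
    rw [sub_zero] at this
    rw [this]; abel
  have e1 := e f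
  have e2 := e (dslope f 0)
  have e3 := e (dslope (dslope f 0) 0)
  have e4 : f τ - f 0 - τ • deriv f 0 - τ ^ 2 • dslope (dslope f 0) 0 0 =
      τ ^ 3 • dslope (dslope (dslope f 0) 0) 0 τ := by
    rw [← dslope_same f 0]
    conv_lhs => rw [e1, e2, e3]
    simp only [smul_add, smul_smul]
    ring_nf
    abel
  rw [e4, norm_smul, norm_pow]
  calc ‖τ‖ ^ 3 * _ ≤ ‖τ‖ ^ 3 * (2 * (2 * (2 * C / r) / r) / r) := by gcongr; exact b3 τ hτ
    _ = _ := by field_simp; ring

end Vale.Agent.P253.Circle
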