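import Vale.Agent.P253.Circle.Levi
import Vale.Agent.P253.Circle.Holo

/-!
P253: the metric in the preferred charts, transition rules, speed of curves.
-/

open scoped Manifold ContDiff InnerProductSpace Topology
open Complex Set Filter

noncomputable section

namespace Vale.Agent.P253.Circle

open Vale.Agent.Results.P253.SymmetricDomains (IsPos dz ddbar bisect)

variable {n : ℕ} {M : Type} [TopologicalSpace M] [ChartedSpace (Cn n) M]

/-- The preferred chart at `x`. -/
abbrev ch (n : ℕ) [ChartedSpace (Cn n) M] (x : M) : OpenPartialHomeomorph M (Cn n) :=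
  chartAt (Cn n) x

/-- The transition from the chart at `x` to the chart at `y`. -/
abbrev tr (n : ℕ) [ChartedSpace (Cn n) M] (x y : M) : OpenPartialHomeomorph (Cn n) (Cn n) :=
  (ch n x).symm.trans (ch n y)

/-- Its derivative. -/
abbrev dtr (n : ℕ) [ChartedSpace (Cn n) M] (x y : M) (p : Cn n) : Cn n →L[ℂ] Cn n :=
  fderiv ℂ (tr n x y) p

/-- The metric read in the chart at `x`. -/
abbrev rp (G : Metric (Cn n) M) (x : M) : Cn n → (Cn n →L[ℂ] Cn n) := rep G (ch n x)

theorem tr_mem {x y : M} {p : Cn n} :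
    p ∈ (tr n x y).source ↔ p ∈ (ch n x).target ∧ (ch n x).symm p ∈ (ch n y).source := by
  simp [tr]

theorem tr_mem' {x y z : M} (hx : z ∈ (ch n x).source) (hy : z ∈ (ch n y).source) :
    ch n x z ∈ (tr n x y).source :=
  tr_mem.2 ⟨(ch n x).map_source hx, by rwa [(ch n x).left_inv hx]⟩

theorem sq_adjoint (T D : Cn n →L[ℂ] Cn n) (v : Cn n) :
    sq ((ContinuousLinearMap.adjoint D).comp (T.comp D)) v = sq T (D v) := by
  simp [sq, Vale.Agent.Results.P253.SymmetricDomains.sq, ContinuousLinearMap.adjoint_inner_right]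

variable [IsManifold 𝓘(ℂ, Cn n) ω M]

theorem tr_smooth (x y : M) : ContDiffOn ℂ ω (tr n x y) (tr n x y).source := by
  have h := contDiffOn_ext_coord_change (I := 𝓘(ℂ, Cn n)) (n := ω) y x
  simpa [tr, ch, Set.preimage] using h

theorem tr_diffAt {x y : M} {p : Cn n} (hp : p ∈ (tr n x y).source) :
    DifferentiableAt ℂ (tr n x y) p :=
  ((tr_smooth x y).differentiableOn (by simp)).differentiableAt ((tr n x y).open_source.mem_nhds hp)

theorem tr_deriv {x y : M} {p : Cn n} (hp : p ∈ (tr n x y).source) :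
    HasFDerivAt (tr n x y) (dtr n x y p) p :=
  (tr_diffAt hp).hasFDerivAt

theorem dtr_comp {x y z : M} {p : Cn n} (hy : p ∈ (tr n x y).source) (hz : p ∈ (tr n x z).source) :
    dtr n x z p = (dtr n y z (tr n x y p)).comp (dtr n x y p) := by
  have hy' := tr_mem.1 hy
  have hz' := tr_mem.1 hz
  have h2 : tr n x y p ∈ (tr n y z).source := tr_mem.2 ⟨(ch n y).map_source hy'.2, by
    simpa [tr, (ch n y).left_inv hy'.2] using hz'.2⟩
  have hev : tr n y z ∘ tr n x y =ᶠ[𝓝 p] tr n x z := by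
    filter_upwards [(tr n x y).open_source.mem_nhds hy] with q hq
    simp [tr, (ch n y).left_inv (tr_mem.1 hq).2]
  exact (((tr_deriv h2).comp p (tr_deriv hy)).congr_of_eventuallyEq hev.symm).fderiv

theorem dtr_self {x : M} {p : Cn n} (hp : p ∈ (ch n x).target) :
    dtr n x x p = ContinuousLinearMap.id ℂ (Cn n) := by
  have hev : tr n x x =ᶠ[𝓝 p] id := by
    filter_upwards [(ch n x).open_target.mem_nhds hp] with q hq
    simp [tr, (ch n x).right_inv hq]
  exact ((hasFDerivAt_id p).congr_of_eventuallyEq hev).fderiv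

theorem dtr_inj {x y : M} {p : Cn n} (hp : p ∈ (tr n x y).source) :
    Function.Injective (dtr n x y p) := by
  have hp' := tr_mem.1 hp
  have hxx : p ∈ (tr n x x).source := tr_mem.2 ⟨hp'.1, (ch n x).map_target hp'.1⟩
  have h := dtr_comp hp hxx
  rw [dtr_self hp'.1] at h
  intro u v huv
  have := congrArg (dtr n y x (tr n x y p)) huv
  rwa [← ContinuousLinearMap.comp_apply, ← ContinuousLinearMap.comp_apply, ← h] at this

theorem mfderiv_symm {x : M} {p : Cn n} (hp : p ∈ (ch n x).target) :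
    (mfderiv 𝓘(ℂ, Cn n) 𝓘(ℂ, Cn n) (ch n x).symm p : Cn n →L[ℂ] Cn n) =
      dtr n x ((ch n x).symm p) p := by
  have h : MDifferentiableAt 𝓘(ℂ, Cn n) 𝓘(ℂ, Cn n) (ch n x).symm p :=
    mdifferentiableAt_atlas_symm (chart_mem_atlas (Cn n) x) hp
  rw [h.mfderiv]
  simp [writtenInExtChartAt, tr, ch, dtr, Function.comp_def]
  rfl

theorem tr_mem_center {x : M} {p : Cn n} (hp : p ∈ (ch n x).target) :
    p ∈ (tr n x ((ch n x).symm p)).source :=
  tr_mem.2 ⟨hp, mem_chart_source _ _⟩

theorem rep_eq (G : Metric (Cn n) M) {x : M} {p : Cn n} (hp : p ∈ (ch n x).target) :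
    rp G x p = (ContinuousLinearMap.adjoint (dtr n x ((ch n x).symm p) p)).comp
      ((G ((ch n x).symm p)).comp (dtr n x ((ch n x).symm p) p)) := by
  simp only [rp, rep, mfderiv_symm hp]

theorem rep_center (G : Metric (Cn n) M) (z : M) : rp G z (ch n z z) = G z := by
  have hz : ch n z z ∈ (ch n z).target := (ch n z).map_source (mem_chart_source _ z)
  have e : (ch n z).symm (ch n z z) = z := (ch n z).left_inv (mem_chart_source _ z)
  rw [rep_eq G hz, e, dtr_self hz, ContinuousLinearMap.adjoint_id]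
  simp

theorem sq_rep (G : Metric (Cn n) M) {x : M} {p : Cn n} (hp : p ∈ (ch n x).target) (v : Cn n) :
    sq (rp G x p) v = sq (G ((ch n x).symm p)) (dtr n x ((ch n x).symm p) p v) := by
  rw [rep_eq G hp, sq_adjoint]

theorem rep_change (G : Metric (Cn n) M) {x y : M} {p : Cn n} (hp : p ∈ (tr n x y).source) :
    rp G x p = (ContinuousLinearMap.adjoint (dtr n x y p)).comp
      ((rp G y (tr n x y p)).comp (dtr n x y p)) := by
  have hp' := tr_mem.1 hp
  have hq : tr n x y p ∈ (ch n y).target := (ch n y).map_source hp'.2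
  have e : (ch n y).symm (tr n x y p) = (ch n x).symm p := by
    simp [tr, (ch n y).left_inv hp'.2]
  rw [rep_eq G hp'.1, rep_eq G hq, e, dtr_comp hp (tr_mem_center hp'.1),
    ContinuousLinearMap.adjoint_comp]
  simp only [ContinuousLinearMap.comp_assoc]

theorem sq_change (G : Metric (Cn n) M) {x y : M} {p : Cn n} (hp : p ∈ (tr n x y).source) (v : Cn n) :
    sq (rp G x p) v = sq (rp G y (tr n x y p)) (dtr n x y p v) := by
  rw [rep_change G hp, sq_adjoint]

variable {G : Metric (Cn n) M}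

theorem IsKaehler.isPos (hG : IsKaehler G) {x : M} {p : Cn n} (hp : p ∈ (ch n x).target) :
    IsPos (rp G x p) := by
  refine ⟨fun u v => ?_, fun u hu => ?_⟩
  · simp [rep_eq G hp, ContinuousLinearMap.adjoint_inner_left,
      ContinuousLinearMap.adjoint_inner_right, (hG.1 _).1]
  · show 0 < sq (rp G x p) u
    rw [sq_rep G hp]
    exact (hG.1 _).2 _ fun h => hu (dtr_inj (tr_mem_center hp) (by rw [h, map_zero]))

theorem IsKaehler.chartMetric (hG : IsKaehler G) (x : M) :
    Local (ch n x).target (rp G x) :=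
  ⟨(ch n x).open_target, (hG.2 x).1, fun _ hp => hG.isPos hp, (hG.2 x).2⟩

theorem IsKaehler.nonneg (hG : IsKaehler G) (z : M) (v : Cn n) : 0 ≤ sq (G z) v :=
  IsPos.nonneg ⟨(hG.1 z).1, (hG.1 z).2⟩ v

theorem IsKaehler.continuous_sq (hG : IsKaehler G) (x : M) :
    ContinuousOn (fun q : Cn n × Cn n => sq (rp G x q.1) q.2) ((ch n x).target ×ˢ univ) := by
  have h1 : ContinuousOn (fun q : Cn n × Cn n => rp G x q.1) ((ch n x).target ×ˢ univ) :=
    (hG.2 x).1.continuousOn.comp continuousOn_fst fun q hq => hq.1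
  exact Complex.continuous_re.comp_continuousOn
    (continuousOn_snd.inner (h1.clm_apply continuousOn_snd))

/-- On a compact part of a chart the metric is comparable with the Euclidean one. -/
theorem IsKaehler.bounds (hG : IsKaehler G) {x : M} {K : Set (Cn n)} (hK : IsCompact K)
    (hKx : K ⊆ (ch n x).target) : ∃ a b : ℝ, 0 < a ∧ 0 < b ∧ ∀ p ∈ K, ∀ v,
      a * ‖v‖ ≤ Real.sqrt (sq (rp G x p) v) ∧ Real.sqrt (sq (rp G x p) v) ≤ b * ‖v‖ := by
  have hcpt : IsCompact (K ×ˢ Metric.sphere (0 : Cn n) 1) := hK.prod (isCompact_sphere _ _)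
  have hcont : ContinuousOn (fun q : Cn n × Cn n => Real.sqrt (sq (rp G x q.1) q.2))
      (K ×ˢ Metric.sphere (0 : Cn n) 1) :=
    (hG.continuous_sq x).sqrt.mono fun q hq => ⟨hKx hq.1, trivial⟩
  obtain ⟨b, hb⟩ := hcpt.exists_bound_of_continuousOn hcont
  obtain ⟨a, ha, hlow⟩ : ∃ a, 0 < a ∧ ∀ q ∈ K ×ˢ Metric.sphere (0 : Cn n) 1,
      a ≤ Real.sqrt (sq (rp G x q.1) q.2) :=
    hcpt.exists_forall_le' hcont fun q hq => Real.sqrt_pos.2 ((hG.isPos (hKx hq.1)).pos _
      fun h => by simpa [h] using hq.2)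
  refine ⟨a, max b 1, ha, by positivity, fun p hp v => ?_⟩
  by_cases hv : v = 0
  · simp [hv, sq, Vale.Agent.Results.P253.SymmetricDomains.sq]
  have hr : 0 < ‖v‖ := norm_pos_iff.2 hv
  set e : Cn n := ((‖v‖⁻¹ : ℝ) : ℂ) • v
  have he : e ∈ Metric.sphere (0 : Cn n) 1 := by
    rw [mem_sphere_zero_iff_norm, norm_smul, Complex.norm_real, Real.norm_eq_abs,
      abs_of_pos (inv_pos.2 hr), inv_mul_cancel₀ hr.ne']
  have hv' : v = ((‖v‖ : ℝ) : ℂ) • e := by
    rw [smul_smul, ← Complex.ofReal_mul, mul_inv_cancel₀ hr.ne']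
    simp
  have hs : Real.sqrt (sq (rp G x p) v) = ‖v‖ * Real.sqrt (sq (rp G x p) e) := by
    have : sq (rp G x p) v = ‖v‖ ^ 2 * sq (rp G x p) e := by
      conv_lhs => rw [hv']
      simp [sq, Vale.Agent.Results.P253.SymmetricDomains.sq, inner_smul_left, inner_smul_right]
      ring
    rw [this, Real.sqrt_mul (by positivity), Real.sqrt_sq hr.le]
  rw [hs]
  constructor
  · nlinarith [hlow (p, e) ⟨hp, he⟩]
  · nlinarith [hb (p, e) ⟨hp, he⟩, le_abs_self (Real.sqrt (sq (rp G x p) e)), le_max_left b 1,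
      Real.norm_eq_abs (Real.sqrt (sq (rp G x p) e))]

/-! ### Curves -/

/-- The chart expression of a curve. -/
abbrev read (n : ℕ) [ChartedSpace (Cn n) M] (x : M) (γ : ℝ → M) : ℝ → Cn n :=
  fun s => ch n x (γ s)

theorem read_change {γ : ℝ → M} {t : ℝ} (hc : ContinuousAt γ t) {x y : M}
    (hx : γ t ∈ (ch n x).source) :
    read n y γ =ᶠ[𝓝 t] tr n x y ∘ read n x γ := by
  filter_upwards [hc ((ch n x).open_source.mem_nhds hx)] with s hs
  simp [tr, (ch n x).left_inv hs]

theorem read_contDiffAt {γ : ℝ → M} {t : ℝ} (hc : ContinuousAt γ t) {x y : M}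
    (hx : γ t ∈ (ch n x).source) (hy : γ t ∈ (ch n y).source) {k : WithTop ℕ∞}
    (h : ContDiffAt ℝ k (read n x γ) t) : ContDiffAt ℝ k (read n y γ) t :=
  ((((tr_smooth x y).contDiffAt ((tr n x y).open_source.mem_nhds (tr_mem' hx hy))).of_le
    le_top).restrict_scalars ℝ).comp t h |>.congr_of_eventuallyEq (read_change hc hx)

theorem read_hasDerivAt {γ : ℝ → M} {t : ℝ} (hc : ContinuousAt γ t) {x y : M} {v : Cn n}
    (hx : γ t ∈ (ch n x).source) (hy : γ t ∈ (ch n y).source)
    (h : HasDerivAt (read n x γ) v t) :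
    HasDerivAt (read n y γ) (dtr n x y (ch n x (γ t)) v) t :=
  (((tr_deriv (tr_mem' hx hy)).restrictScalars ℝ).comp_hasDerivAt t h).congr_of_eventuallyEq
    (read_change hc hx)

theorem C1Curve.contDiffAt {γ : ℝ → M} (hγ : C1Curve (Cn n) γ) {x : M} {t : ℝ}
    (hx : γ t ∈ (ch n x).source) : ContDiffAt ℝ 1 (read n x γ) t :=
  read_contDiffAt hγ.1.continuousAt (mem_chart_source _ _) hx (hγ.2 t)

theorem C1Curve.hasDerivAt {γ : ℝ → M} (hγ : C1Curve (Cn n) γ) {x : M} {t : ℝ}
    (hx : γ t ∈ (ch n x).source) : HasDerivAt (read n x γ) (deriv (read n x γ) t) t :=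
  ((hγ.contDiffAt hx).differentiableAt one_ne_zero).hasDerivAt

theorem speed_eq (G : Metric (Cn n) M) {γ : ℝ → M} {t : ℝ} (hc : ContinuousAt γ t) {x : M} {v : Cn n}
    (hx : γ t ∈ (ch n x).source) (h : HasDerivAt (read n x γ) v t) :
    speed G γ t = Real.sqrt (sq (rp G x (ch n x (γ t))) v) := by
  have h' := read_hasDerivAt hc hx (mem_chart_source (Cn n) (γ t)) h
  have hp : ch n x (γ t) ∈ (ch n x).target := (ch n x).map_source hx
  rw [sq_rep G hp, (ch n x).left_inv hx]
  show Real.sqrt (sq (G (γ t)) (deriv (read n (γ t) γ) t)) = _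
  rw [h'.deriv]

theorem speed_continuous (hG : IsKaehler G) {γ : ℝ → M} (hγ : C1Curve (Cn n) γ) :
    Continuous (speed G γ) := by
  rw [continuous_iff_continuousAt]
  intro t
  set x := γ t
  have hs : ∀ᶠ s in 𝓝 t, γ s ∈ (ch n x).source :=
    hγ.1.continuousAt ((ch n x).open_source.mem_nhds (mem_chart_source _ _))
  have hev : (fun s => Real.sqrt (sq (rp G x (read n x γ s)) (deriv (read n x γ) s)))
      =ᶠ[𝓝 t] speed G γ := by
    filter_upwards [hs] with s hs'
    exact (speed_eq G hγ.1.continuousAt hs' (hγ.hasDerivAt hs')).symm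
  refine ContinuousAt.congr ?_ hev
  have hU : IsOpen (γ ⁻¹' (ch n x).source) := (ch n x).open_source.preimage hγ.1
  have hd : ContDiffOn ℝ 1 (read n x γ) (γ ⁻¹' (ch n x).source) :=
    fun s hs' => (hγ.contDiffAt hs').contDiffWithinAt
  have h2 : ContinuousOn (fun s => (read n x γ s, deriv (read n x γ) s))
      (γ ⁻¹' (ch n x).source) :=
    hd.continuousOn.prodMk (hd.continuousOn_deriv_of_isOpen hU le_rfl)
  exact (((hG.continuous_sq x).sqrt.comp h2 fun s hs' => ⟨(ch n x).map_source hs', trivial⟩)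
    ).continuousAt (hU.mem_nhds (mem_chart_source (Cn n) (γ t)))

theorem speed_nonneg (G : Metric (Cn n) M) (γ : ℝ → M) (t : ℝ) : 0 ≤ speed G γ t := Real.sqrt_nonneg _

/-- A curve given in a chart. -/
theorem c1Curve_chart (G : Metric (Cn n) M) (x : M) {c : ℝ → Cn n} (hc : ContDiff ℝ 1 c)
    (hm : ∀ t, c t ∈ (ch n x).target) :
    C1Curve (Cn n) ((ch n x).symm ∘ c) ∧ ∀ t,
      speed G ((ch n x).symm ∘ c) t = Real.sqrt (sq (rp G x (c t)) (deriv c t)) := by
  have hcont : Continuous ((ch n x).symm ∘ c) :=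
    (ch n x).continuousOn_symm.comp_continuous hc.continuous hm
  have hread : read n x ((ch n x).symm ∘ c) = c := funext fun t => (ch n x).right_inv (hm t)
  have hsrc : ∀ t, ((ch n x).symm ∘ c) t ∈ (ch n x).source := fun t => (ch n x).map_target (hm t)
  refine ⟨⟨hcont, fun t => read_contDiffAt hcont.continuousAt (hsrc t) (mem_chart_source _ _)
    (by rw [hread]; exact hc.contDiffAt)⟩, fun t => ?_⟩
  rw [speed_eq G hcont.continuousAt (hsrc t) (v := deriv c t)
    (by rw [hread]; exact (hc.differentiable one_ne_zero t).hasDerivAt)]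
  simp [(ch n x).right_inv (hm t)]

/-- Reparametrisation. -/
theorem C1Curve.reparam {γ : ℝ → M} (hγ : C1Curve (Cn n) γ) {θ : ℝ → ℝ}
    (hθ : ContDiff ℝ 1 θ) :
    C1Curve (Cn n) (γ ∘ θ) ∧ ∀ t, speed G (γ ∘ θ) t = |deriv θ t| * speed G γ (θ t) := by
  have hcont : Continuous (γ ∘ θ) := hγ.1.comp hθ.continuous
  refine ⟨⟨hcont, fun t => (hγ.2 (θ t)).comp t hθ.contDiffAt⟩, fun t => ?_⟩
  have hd := (hγ.hasDerivAt (x := γ (θ t)) (mem_chart_source _ _)).scomp t
    (hθ.differentiable one_ne_zero t).hasDerivAt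
  rw [speed_eq G hcont.continuousAt (mem_chart_source (Cn n) (γ (θ t))) hd,
    speed_eq G hγ.1.continuousAt (mem_chart_source (Cn n) (γ (θ t)))
      (hγ.hasDerivAt (mem_chart_source _ _)), ← Real.sqrt_sq_eq_abs,
    ← Real.sqrt_mul (sq_nonneg _)]
  congr 1
  simp [sq, Vale.Agent.Results.P253.SymmetricDomains.sq, ← Complex.coe_smul, inner_smul_left,
    inner_smul_right]
  ring

end Vale.Agent.P253.Circle
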