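import Vale.Agent.Results.P253.SymmetricDomains

/-!
P253, circle symmetry with a sink: Kaehler metrics on abstract complex manifolds, length, completeness,
circle actions, and the fixed point condition.
-/

open scoped Manifold ContDiff InnerProductSpace Topology
open Complex Set Filter
open Vale.Agent.Results.P253.SymmetricDomains (dz bisect IsPos)

noncomputable section

namespace Vale.Agent.P253.Circle

/-- The model space. -/
abbrev Cn (n : ℕ) := EuclideanSpace ℂ (Fin n)

variable {E : Type} [NormedAddCommGroup E] [InnerProductSpace ℂ E]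

/-- Squared length of a vector for a Hermitian endomorphism. -/
abbrev sq (T : E →L[ℂ] E) (u : E) : ℝ :=
  Vale.Agent.Results.P253.SymmetricDomains.sq T u

variable {M : Type} [TopologicalSpace M] [ChartedSpace E M]

/-- A metric: at `z` the Hermitian endomorphism read in the preferred chart at `z`. -/
abbrev Metric (E : Type) [NormedAddCommGroup E] [InnerProductSpace ℂ E] (M : Type) := M → (E →L[ℂ] E)

/-- The differential of the inverse of the chart `c`, read in the preferred charts. -/
abbrev dInv (c : OpenPartialHomeomorph M E) (y : E) : E →L[ℂ] E :=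
  mfderiv 𝓘(ℂ, E) 𝓘(ℂ, E) c.symm y

/-- The differential of a self-map, read in the preferred charts. -/
abbrev dMap (E : Type) [NormedAddCommGroup E] [InnerProductSpace ℂ E] [ChartedSpace E M]
    (f : M → M) (z : M) : E →L[ℂ] E :=
  mfderiv 𝓘(ℂ, E) 𝓘(ℂ, E) f z

/-- The metric read in the chart `c`. -/
def rep [CompleteSpace E] (G : Metric E M) (c : OpenPartialHomeomorph M E) (y : E) : E →L[ℂ] E :=
  (ContinuousLinearMap.adjoint (dInv c y)).comp ((G (c.symm y)).comp (dInv c y))

/-- Smoothness and symmetric holomorphic derivative in the chart `c`. -/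
def KaehlerIn [CompleteSpace E] (G : Metric E M) (c : OpenPartialHomeomorph M E) : Prop :=
  ContDiffOn ℝ ∞ (rep G c) c.target ∧
    ∀ y ∈ c.target, ∀ u w, dz (rep G c) y u w = dz (rep G c) y w u

/-- A smooth Kaehler metric: Hermitian, positive, and with symmetric holomorphic derivative. -/
def IsKaehler [FiniteDimensional ℂ E] [CompleteSpace E] [ProperSpace E] (G : Metric E M) : Prop :=
  (∀ z, IsPos (G z)) ∧ ∀ x : M, KaehlerIn G (chartAt E x)

/-- Positive holomorphic bisectional curvature. -/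
def PositiveBisect [CompleteSpace E] (G : Metric E M) : Prop :=
  ∀ x : M, ∀ y ∈ (chartAt E x).target, ∀ u w : E, u ≠ 0 → w ≠ 0 →
    0 < bisect (rep G (chartAt E x)) y u w

/-- A `C^1` curve. -/
def C1Curve (E : Type) [NormedAddCommGroup E] [InnerProductSpace ℂ E] [ChartedSpace E M]
    (γ : ℝ → M) : Prop :=
  Continuous γ ∧ ∀ t : ℝ, ContDiffAt ℝ 1 (fun s => chartAt E (γ t) (γ s)) t

/-- The speed of a curve. -/
def speed (G : Metric E M) (γ : ℝ → M) (t : ℝ) : ℝ :=
  Real.sqrt (sq (G (γ t)) (deriv (fun s => chartAt E (γ t) (γ s)) t))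

/-- `x` and `y` are joined by a `C^1` curve of length at most `r`. -/
def Within (G : Metric E M) (r : ℝ) (x y : M) : Prop :=
  ∃ γ : ℝ → M, C1Curve E γ ∧ γ 0 = x ∧ γ 1 = y ∧ ∫ t in (0 : ℝ)..1, speed G γ t ≤ r

/-- Completeness: a Cauchy sequence for the length distance converges. -/
def Complete (G : Metric E M) : Prop :=
  ∀ p : ℕ → M, (∀ ε : ℝ, 0 < ε → ∃ N, ∀ j k, N ≤ j → N ≤ k → Within G ε (p j) (p k)) →
    ∃ q, Tendsto p atTop (𝓝 q)

/-- Joint smoothness of an action in the preferred charts. -/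
def SmoothAct (E : Type) [NormedAddCommGroup E] [InnerProductSpace ℂ E] [ChartedSpace E M]
    (ρ : ℝ → M → M) : Prop :=
  ∀ (s : ℝ) (x : M), ContDiffAt ℝ ∞
    (fun p : ℝ × E => chartAt E (ρ s x) (ρ p.1 ((chartAt E x).symm p.2))) (s, chartAt E x x)

/-- All times are holomorphic. -/
def HoloAct (E : Type) [NormedAddCommGroup E] [InnerProductSpace ℂ E] [ChartedSpace E M]
    (ρ : ℝ → M → M) : Prop :=
  ∀ s, MDifferentiable 𝓘(ℂ, E) 𝓘(ℂ, E) (ρ s)

/-- All times are isometries. -/
def IsoAct (G : Metric E M) (ρ : ℝ → M → M) : Prop :=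
  ∀ s z (u : E), sq (G (ρ s z)) (dMap E (ρ s) z u) = sq (G z) u

/-- A smooth action of the circle by holomorphic isometries. -/
structure CircleSymmetry (G : Metric E M) (ρ : ℝ → M → M) : Prop where
  zero : ∀ z, ρ 0 z = z
  add : ∀ s t z, ρ (s + t) z = ρ s (ρ t z)
  periodic : ∀ z, ρ (2 * Real.pi) z = z
  cont : Continuous fun p : ℝ × M => ρ p.1 p.2
  smooth : SmoothAct E ρ
  holo : HoloAct E ρ
  isometry : IsoAct G ρ

/-- `o` is fixed and its isotropy weights all have the same strict sign. -/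
def Sink (n : ℕ) (E : Type) [NormedAddCommGroup E] [InnerProductSpace ℂ E] [ChartedSpace E M]
    (ρ : ℝ → M → M) (o : M) : Prop :=
  (∀ s, ρ s o = o) ∧ ∃ (b : Module.Basis (Fin n) ℂ E) (k : Fin n → ℤ),
    ((∀ j, 0 < k j) ∨ ∀ j, k j < 0) ∧
    ∀ (s : ℝ) (j : Fin n), dMap E (ρ s) o (b j) =
      Complex.exp (((k j : ℂ) * (s : ℂ)) * I) • b j

end Vale.Agent.P253.Circle
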