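import Vale.Agent.P253.Circle.Charts

/-!
P253: the length distance, confinement of short curves, and compactness of closed balls.
-/

open scoped Manifold ContDiff Topology
open Set Filter

noncomputable section

namespace Vale.Agent.P253.Circle

variable {n : ℕ} {M : Type} [TopologicalSpace M] [ChartedSpace (Cn n) M]

/-- Length of a curve on `[0,1]`. -/
def clen (G : Metric (Cn n) M) (γ : ℝ → M) : ℝ := ∫ t in (0 : ℝ)..1, speed G γ t

/-- Length distance. -/
def gd (G : Metric (Cn n) M) (x y : M) : ℝ :=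
  sInf {L | ∃ γ : ℝ → M, C1Curve (Cn n) γ ∧ γ 0 = x ∧ γ 1 = y ∧ clen G γ = L}

theorem clen_nonneg (G : Metric (Cn n) M) (γ : ℝ → M) : 0 ≤ clen G γ :=
  intervalIntegral.integral_nonneg zero_le_one fun _ _ => Real.sqrt_nonneg _

theorem gd_nonneg (G : Metric (Cn n) M) (x y : M) : 0 ≤ gd G x y :=
  Real.sInf_nonneg fun L ⟨γ, _, _, _, h⟩ => h ▸ clen_nonneg G γ

theorem gd_le {G : Metric (Cn n) M} {γ : ℝ → M} (hγ : C1Curve (Cn n) γ) {x y : M} (h0 : γ 0 = x)
    (h1 : γ 1 = y) : gd G x y ≤ clen G γ :=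
  csInf_le ⟨0, fun L ⟨γ, _, _, _, h⟩ => h ▸ clen_nonneg G γ⟩ ⟨γ, hγ, h0, h1, rfl⟩

theorem c1Curve_congr (G : Metric (Cn n) M) {γ : ℝ → M}
    (h : ∀ t, ∃ δ : ℝ → M, C1Curve (Cn n) δ ∧ γ =ᶠ[𝓝 t] δ) :
    C1Curve (Cn n) γ ∧ ∀ t δ, γ =ᶠ[𝓝 t] δ → speed G γ t = speed G δ t := by
  refine ⟨⟨continuous_iff_continuousAt.2 fun t => ?_, fun t => ?_⟩, fun t δ e => ?_⟩
  · obtain ⟨δ, hδ, e⟩ := h t
    exact hδ.1.continuousAt.congr e.symm
  · obtain ⟨δ, hδ, e⟩ := h t
    refine (hδ.2 t).congr_of_eventuallyEq ?_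
    filter_upwards [e] with s hs
    rw [hs, e.self_of_nhds]
  · have : (fun s => chartAt (Cn n) (γ t) (γ s)) =ᶠ[𝓝 t] fun s => chartAt (Cn n) (δ t) (δ s) := by
      filter_upwards [e] with s hs
      rw [hs, e.self_of_nhds]
    simp only [speed]
    rw [this.deriv_eq, e.self_of_nhds]

theorem c1Curve_const (G : Metric (Cn n) M) (x : M) :
    C1Curve (Cn n) (fun _ : ℝ => x) ∧ clen G (fun _ : ℝ => x) = 0 := by
  refine ⟨⟨continuous_const, fun t => contDiffAt_const⟩, ?_⟩
  simp [clen, speed, sq, Vale.Agent.Results.P253.SymmetricDomains.sq]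

theorem gd_self (G : Metric (Cn n) M) (x : M) : gd G x x = 0 :=
  le_antisymm ((gd_le (c1Curve_const G x).1 rfl rfl).trans_eq (c1Curve_const G x).2)
    (gd_nonneg G x x)

variable [IsManifold 𝓘(ℂ, Cn n) ω M] {G : Metric (Cn n) M}

theorem integral_reparam (hG : IsKaehler G) {γ : ℝ → M} (hγ : C1Curve (Cn n) γ) {θ : ℝ → ℝ}
    (hθ : ContDiff ℝ 1 θ) (hm : Monotone θ) (a b : ℝ) :
    ∫ t in a..b, speed G (γ ∘ θ) t = ∫ s in (θ a)..(θ b), speed G γ s := by
  have e : speed G (γ ∘ θ) = fun t => (speed G γ ∘ θ) t * deriv θ t := funext fun t => by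
    rw [(hγ.reparam hθ).2 t, abs_of_nonneg hm.deriv_nonneg, mul_comm]
    rfl
  rw [e]
  exact intervalIntegral.integral_comp_mul_deriv
    (fun t _ => (hθ.differentiable one_ne_zero t).hasDerivAt)
    (hθ.continuous_deriv le_rfl).continuousOn (speed_continuous hG hγ)

theorem concat (hG : IsKaehler G) {γ₁ γ₂ : ℝ → M} (h₁ : C1Curve (Cn n) γ₁) (h₂ : C1Curve (Cn n) γ₂)
    (h : γ₁ 1 = γ₂ 0) : ∃ γ : ℝ → M, C1Curve (Cn n) γ ∧ γ 0 = γ₁ 0 ∧ γ 1 = γ₂ 1 ∧
      clen G γ = clen G γ₁ + clen G γ₂ := by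
  set θ₁ : ℝ → ℝ := fun t => Real.smoothTransition (6 * t - 1)
  set θ₂ : ℝ → ℝ := fun t => Real.smoothTransition (6 * t - 4)
  have c1 : ContDiff ℝ 1 θ₁ :=
    Real.smoothTransition.contDiff.comp ((contDiff_const.mul contDiff_id).sub contDiff_const)
  have c2 : ContDiff ℝ 1 θ₂ :=
    Real.smoothTransition.contDiff.comp ((contDiff_const.mul contDiff_id).sub contDiff_const)
  have m1 : Monotone θ₁ := Real.smoothTransition.monotone.comp fun a b hab => by linarith
  have m2 : Monotone θ₂ := Real.smoothTransition.monotone.comp fun a b hab => by linarith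
  have e11 : ∀ t, 1 / 3 ≤ t → θ₁ t = 1 := fun t ht =>
    Real.smoothTransition.one_of_one_le (by linarith)
  have e20 : ∀ t, t ≤ 2 / 3 → θ₂ t = 0 := fun t ht =>
    Real.smoothTransition.zero_of_nonpos (by linarith)
  have e10 : θ₁ 0 = 0 := Real.smoothTransition.zero_of_nonpos (by norm_num)
  have e21 : θ₂ 1 = 1 := Real.smoothTransition.one_of_one_le (by norm_num)
  set γ : ℝ → M := fun t => if t ≤ 1 / 2 then γ₁ (θ₁ t) else γ₂ (θ₂ t)
  have hleft : ∀ t, t < 2 / 3 → γ =ᶠ[𝓝 t] γ₁ ∘ θ₁ := fun t ht => by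
    filter_upwards [Iio_mem_nhds ht] with s hs
    simp only [γ, Function.comp_apply]
    split_ifs with hs'
    · rfl
    · rw [e20 s (le_of_lt hs), e11 s (by linarith), h]
  have hright : ∀ t, 1 / 3 < t → γ =ᶠ[𝓝 t] γ₂ ∘ θ₂ := fun t ht => by
    filter_upwards [Ioi_mem_nhds ht] with s hs
    simp only [γ, Function.comp_apply]
    split_ifs with hs'
    · rw [e20 s (by linarith), e11 s (le_of_lt hs), h]
    · rfl
  obtain ⟨hγ, hsp⟩ := c1Curve_congr G (γ := γ) fun t => by
    rcases lt_or_ge t (2 / 3) with ht | ht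
    · exact ⟨_, (h₁.reparam (G := G) c1).1, hleft t ht⟩
    · exact ⟨_, (h₂.reparam (G := G) c2).1, hright t (by linarith)⟩
  refine ⟨γ, hγ, by simp [γ, e10], by norm_num [γ, e21], ?_⟩
  have hc := speed_continuous hG hγ
  rw [clen, ← intervalIntegral.integral_add_adjacent_intervals (b := 1 / 2)
    (hc.intervalIntegrable _ _) (hc.intervalIntegrable _ _)]
  congr 1
  · rw [intervalIntegral.integral_congr (g := speed G (γ₁ ∘ θ₁)) fun t ht => by
      rw [uIcc_of_le (by norm_num)] at ht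
      exact hsp t _ (hleft t (by linarith [ht.2])),
      integral_reparam hG h₁ c1 m1, e10, e11 _ (by norm_num)]
    rfl
  · rw [intervalIntegral.integral_congr (g := speed G (γ₂ ∘ θ₂)) fun t ht => by
      rw [uIcc_of_le (by norm_num)] at ht
      exact hsp t _ (hright t (by linarith [ht.1])),
      integral_reparam hG h₂ c2 m2, e21, e20 _ (by norm_num)]
    rfl

theorem reverse (hG : IsKaehler G) {γ : ℝ → M} (hγ : C1Curve (Cn n) γ) :
    C1Curve (Cn n) (fun t => γ (1 - t)) ∧ clen G (fun t => γ (1 - t)) = clen G γ := by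
  have hθ : ContDiff ℝ 1 fun t : ℝ => 1 - t := contDiff_const.sub contDiff_id
  obtain ⟨h1, h2⟩ := hγ.reparam (G := G) hθ
  refine ⟨h1, ?_⟩
  have e : ∀ t, speed G (fun t => γ (1 - t)) t = speed G γ (1 - t) := fun t => by
    rw [show (fun t => γ (1 - t)) = γ ∘ fun t : ℝ => 1 - t from rfl, h2 t]
    simp
  simp [clen, e, intervalIntegral.integral_comp_sub_left (speed G γ) (1 : ℝ)]

/-- Part of a curve. -/
theorem subcurve (hG : IsKaehler G) {γ : ℝ → M} (hγ : C1Curve (Cn n) γ) {a b : ℝ} (hab : a ≤ b) :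
    gd G (γ a) (γ b) ≤ ∫ t in a..b, speed G γ t := by
  have hθ : ContDiff ℝ 1 fun t : ℝ => a + (b - a) * t :=
    contDiff_const.add (contDiff_const.mul contDiff_id)
  refine (gd_le (G := G) (γ := γ ∘ fun t : ℝ => a + (b - a) * t) (hγ.reparam (G := G) hθ).1
    (by simp) (by simp)).trans_eq ?_
  have hm : Monotone fun t : ℝ => a + (b - a) * t := fun s t hst =>
    add_le_add_right (mul_le_mul_of_nonneg_left hst (sub_nonneg.2 hab)) a
  rw [clen, integral_reparam hG hγ hθ hm]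
  simp

/-- In a compact convex part of a chart, segments bound the distance. -/
theorem gd_chart_le (hG : IsKaehler G) {x : M} {c : Cn n} {ρ : ℝ}
    (hsub : Metric.closedBall c ρ ⊆ (ch n x).target) :
    ∃ b > 0, ∀ p ∈ Metric.closedBall c ρ, ∀ q ∈ Metric.closedBall c ρ,
      ∃ γ : ℝ → M, C1Curve (Cn n) γ ∧ γ 0 = (ch n x).symm p ∧ γ 1 = (ch n x).symm q ∧
        clen G γ ≤ b * ‖q - p‖ := by
  obtain ⟨a, b, -, hb, hab⟩ := hG.bounds (isCompact_closedBall c ρ) hsub
  refine ⟨b, hb, fun p hp q hq => ?_⟩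
  set cc : ℝ → Cn n := fun t => p + Real.smoothTransition t • (q - p)
  have hmem : ∀ t, cc t ∈ Metric.closedBall c ρ := fun t =>
    (convex_closedBall c ρ).add_smul_sub_mem hp hq
      ⟨Real.smoothTransition.nonneg _, Real.smoothTransition.le_one _⟩
  have hcd : ContDiff ℝ 1 cc :=
    contDiff_const.add (Real.smoothTransition.contDiff.smul contDiff_const)
  obtain ⟨hC, hsp⟩ := c1Curve_chart G x hcd fun t => hsub (hmem t)
  refine ⟨_, hC, by simp [cc], by simp [cc], ?_⟩
  have hθ : ContDiff ℝ 1 Real.smoothTransition := Real.smoothTransition.contDiff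
  have hle : ∀ t, speed G ((ch n x).symm ∘ cc) t ≤ b * ‖q - p‖ * deriv Real.smoothTransition t := by
    intro t
    rw [hsp t]
    refine ((hab _ (hmem t) _).2).trans_eq ?_
    rw [((((hθ.differentiable one_ne_zero t).hasDerivAt).smul_const (q - p)).const_add p).deriv,
      norm_smul, Real.norm_eq_abs, abs_of_nonneg Real.smoothTransition.monotone.deriv_nonneg]
    ring
  have hd := hθ.continuous_deriv le_rfl
  calc clen G _ ≤ ∫ t in (0 : ℝ)..1, b * ‖q - p‖ * deriv Real.smoothTransition t :=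
        intervalIntegral.integral_mono_on zero_le_one
          ((speed_continuous hG hC).intervalIntegrable _ _)
          ((continuous_const.mul hd).intervalIntegrable _ _) fun t _ => hle t
    _ = b * ‖q - p‖ := by
      rw [intervalIntegral.integral_const_mul, intervalIntegral.integral_deriv_eq_sub
        (fun t _ => hθ.differentiable one_ne_zero t) (hd.intervalIntegrable _ _)]
      simp

/-- Short curves stay in a chart ball. -/
theorem confine [T2Space M] (hG : IsKaehler G) {x : M} {c : Cn n} {ρ : ℝ}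
    (hsub : Metric.closedBall c ρ ⊆ (ch n x).target) :
    ∃ a > 0, ∀ γ : ℝ → M, C1Curve (Cn n) γ → ∀ t₀ t₁ : ℝ, t₀ ≤ t₁ → ∀ p : Cn n,
      γ t₀ = (ch n x).symm p → ‖p - c‖ + (∫ t in t₀..t₁, speed G γ t) / a < ρ →
        γ t₁ ∈ (ch n x).source ∧ ‖ch n x (γ t₁) - c‖ < ρ := by
  obtain ⟨a, b, ha, -, hab⟩ := hG.bounds (isCompact_closedBall c ρ) hsub
  refine ⟨a, ha, fun γ hγ t₀ t₁ ht p hp hlt => ?_⟩
  by_contra hout
  set U := (ch n x).source ∩ ch n x ⁻¹' Metric.ball c ρ
  have hU : IsOpen U := (ch n x).isOpen_inter_preimage Metric.isOpen_ball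
  set S := Icc t₀ t₁ ∩ γ ⁻¹' Uᶜ
  have hSc : IsClosed S := isClosed_Icc.inter (hU.isClosed_compl.preimage hγ.1)
  have hSb : BddBelow S := ⟨t₀, fun s hs => hs.1.1⟩
  have hSn : S.Nonempty := ⟨t₁, right_mem_Icc.2 ht, fun h => hout
    ⟨h.1, by simpa [dist_eq_norm] using h.2⟩⟩
  set τ := sInf S
  have hτ : τ ∈ S := hSc.csInf_mem hSn hSb
  have hI : 0 ≤ ∫ t in t₀..t₁, speed G γ t :=
    intervalIntegral.integral_nonneg ht fun _ _ => Real.sqrt_nonneg _
  have hpc : ‖p - c‖ < ρ := by linarith [div_nonneg hI ha.le]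
  have hpK : p ∈ Metric.closedBall c ρ := by rw [mem_closedBall_iff_norm]; exact hpc.le
  have h0 : γ t₀ ∈ U := by
    rw [hp]
    exact ⟨(ch n x).map_target (hsub hpK),
      by simpa [(ch n x).right_inv (hsub hpK), dist_eq_norm] using hpc⟩
  have hτ0 : t₀ < τ := lt_of_le_of_ne hτ.1.1 fun h => hτ.2 (h ▸ h0)
  have hin : ∀ s ∈ Ico t₀ τ, γ s ∈ U := fun s hs => by
    by_contra h
    exact absurd (csInf_le hSb ⟨⟨hs.1, hs.2.le.trans hτ.1.2⟩, h⟩) (not_le.2 hs.2)
  have hK : IsClosed ((ch n x).symm '' Metric.closedBall c ρ) :=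
    ((isCompact_closedBall c ρ).image_of_continuousOn
      ((ch n x).continuousOn_symm.mono hsub)).isClosed
  have hτK : γ τ ∈ (ch n x).symm '' Metric.closedBall c ρ := by
    refine hK.mem_of_tendsto (hγ.1.continuousAt.tendsto.mono_left nhdsWithin_le_nhds : Tendsto γ
      (𝓝[<] τ) _) ?_
    filter_upwards [Ioo_mem_nhdsLT hτ0] with s hs
    have := hin s ⟨hs.1.le, hs.2⟩
    exact ⟨ch n x (γ s), Metric.ball_subset_closedBall this.2, (ch n x).left_inv this.1⟩
  have hsrc : ∀ s ∈ Icc t₀ τ, γ s ∈ (ch n x).source ∧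
      read n x γ s ∈ Metric.closedBall c ρ := by
    intro s hs
    rcases hs.2.eq_or_lt with h | h
    · obtain ⟨q, hq, e⟩ := hτK
      rw [h]
      exact ⟨e ▸ (ch n x).map_target (hsub hq),
        by show ch n x (γ τ) ∈ _; rw [← e, (ch n x).right_inv (hsub hq)]; exact hq⟩
    · exact ⟨(hin s ⟨hs.1, h⟩).1, Metric.ball_subset_closedBall (hin s ⟨hs.1, h⟩).2⟩
  have hτball : ρ ≤ ‖read n x γ τ - c‖ := by
    by_contra h
    exact hτ.2 ⟨(hsrc τ ⟨hτ0.le, le_rfl⟩).1, by simpa [dist_eq_norm] using not_le.1 h⟩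
  have hcd : ContinuousOn (deriv (read n x γ)) (Icc t₀ τ) := by
    have hd : ContDiffOn ℝ 1 (read n x γ) (γ ⁻¹' (ch n x).source) :=
      fun s hs' => (hγ.contDiffAt hs').contDiffWithinAt
    exact (hd.continuousOn_deriv_of_isOpen ((ch n x).open_source.preimage hγ.1) le_rfl).mono
      fun s hs => (hsrc s hs).1
  have hint : read n x γ τ - read n x γ t₀ = ∫ s in t₀..τ, deriv (read n x γ) s := by
    rw [intervalIntegral.integral_deriv_eq_sub]
    · intro s hs
      rw [uIcc_of_le hτ0.le] at hs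
      exact (hγ.hasDerivAt (hsrc s hs).1).differentiableAt
    · exact ContinuousOn.intervalIntegrable (by rwa [uIcc_of_le hτ0.le])
  have hc := speed_continuous hG hγ
  have h2 : ‖read n x γ τ - read n x γ t₀‖ ≤ (∫ t in t₀..t₁, speed G γ t) / a := by
    rw [hint, le_div_iff₀ ha]
    calc ‖∫ s in t₀..τ, deriv (read n x γ) s‖ * a
        ≤ (∫ s in t₀..τ, ‖deriv (read n x γ) s‖) * a := by
          gcongr
          exact intervalIntegral.norm_integral_le_integral_norm hτ0.le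
      _ = ∫ s in t₀..τ, ‖deriv (read n x γ) s‖ * a :=
          (intervalIntegral.integral_mul_const a _).symm
      _ ≤ ∫ s in t₀..τ, speed G γ s := by
          refine intervalIntegral.integral_mono_on hτ0.le
            (ContinuousOn.intervalIntegrable ?_) (hc.intervalIntegrable _ _) fun s hs => ?_
          · rw [uIcc_of_le hτ0.le]; exact hcd.norm.mul continuousOn_const
          · rw [speed_eq G hγ.1.continuousAt (hsrc s hs).1 (hγ.hasDerivAt (hsrc s hs).1), mul_comm]
            exact (hab _ (hsrc s hs).2 _).1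
      _ ≤ _ := intervalIntegral.integral_mono_interval le_rfl hτ0.le hτ.1.2
          (Eventually.of_forall fun s => Real.sqrt_nonneg _) (hc.intervalIntegrable _ _)
  have e0 : read n x γ t₀ = p := by
    show ch n x (γ t₀) = p
    rw [hp, (ch n x).right_inv (hsub hpK)]
  rw [e0] at h2
  have h3 := norm_add_le (read n x γ τ - p) (p - c)
  rw [sub_add_sub_cancel] at h3
  linarith

theorem exists_ball (x z : M) (hz : z ∈ (ch n x).source) :
    ∃ ρ > 0, Metric.closedBall (ch n x z) ρ ⊆ (ch n x).target :=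
  Metric.nhds_basis_closedBall.mem_iff.1
    ((ch n x).open_target.mem_nhds ((ch n x).map_source hz))

theorem exists_curve [ConnectedSpace M] (hG : IsKaehler G) (x y : M) :
    ∃ γ : ℝ → M, C1Curve (Cn n) γ ∧ γ 0 = x ∧ γ 1 = y := by
  set R : Set M := {y | ∃ γ : ℝ → M, C1Curve (Cn n) γ ∧ γ 0 = x ∧ γ 1 = y}
  have key : ∀ z : M, ∃ V ∈ 𝓝 z, ∀ w ∈ V, (w ∈ R ↔ z ∈ R) := by
    intro z
    obtain ⟨ρ, hρ, hsub⟩ := exists_ball (n := n) z z (mem_chart_source _ z)
    obtain ⟨b, -, hb⟩ := gd_chart_le hG hsub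
    refine ⟨(ch n z).source ∩ ch n z ⁻¹' Metric.ball (ch n z z) ρ,
      ((ch n z).isOpen_inter_preimage Metric.isOpen_ball).mem_nhds
        ⟨mem_chart_source _ z, Metric.mem_ball_self hρ⟩, fun w hw => ?_⟩
    obtain ⟨γ, hγ, e0, e1, -⟩ := hb _ (Metric.mem_closedBall_self hρ.le) _
      (Metric.ball_subset_closedBall hw.2)
    rw [(ch n z).left_inv (mem_chart_source _ z)] at e0
    rw [(ch n z).left_inv hw.1] at e1
    constructor
    · rintro ⟨δ, hδ, d0, d1⟩
      obtain ⟨η, hη, a, b, -⟩ := concat hG hδ (reverse hG hγ).1 (by simp [d1, e1])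
      exact ⟨η, hη, a.trans d0, by simpa [e0] using b⟩
    · rintro ⟨δ, hδ, d0, d1⟩
      obtain ⟨η, hη, a, b, -⟩ := concat hG hδ hγ (by simp [d1, e0])
      exact ⟨η, hη, a.trans d0, b.trans e1⟩
  have ho : IsOpen R := isOpen_iff_mem_nhds.2 fun z hz => by
    obtain ⟨V, hV, h⟩ := key z
    exact mem_of_superset hV fun w hw => (h w hw).2 hz
  have hc : IsClosed R := isOpen_compl_iff.1 <| isOpen_iff_mem_nhds.2 fun z hz => by
    obtain ⟨V, hV, h⟩ := key z
    exact mem_of_superset hV fun w hw hw' => hz ((h w hw).1 hw')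
  have hne : R.Nonempty := ⟨x, _, (c1Curve_const G x).1, rfl, rfl⟩
  have hu : R = univ := IsClopen.eq_univ ⟨hc, ho⟩ hne
  exact eq_univ_iff_forall.1 hu y

section Space

variable [ConnectedSpace M] (hG : IsKaehler G)
include hG

theorem exists_lt {x y : M} {r : ℝ} (h : gd G x y < r) :
    ∃ γ : ℝ → M, C1Curve (Cn n) γ ∧ γ 0 = x ∧ γ 1 = y ∧ clen G γ < r := by
  obtain ⟨γ₀, h1, h2, h3⟩ := exists_curve hG x y
  obtain ⟨L, ⟨γ, a, b, c, d⟩, hL⟩ := exists_lt_of_csInf_lt
    (s := {L | ∃ γ : ℝ → M, C1Curve (Cn n) γ ∧ γ 0 = x ∧ γ 1 = y ∧ clen G γ = L})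
    ⟨_, γ₀, h1, h2, h3, rfl⟩ h
  exact ⟨γ, a, b, c, d ▸ hL⟩

theorem within_of_lt {x y : M} {r : ℝ} (h : gd G x y < r) : Within G r x y := by
  obtain ⟨γ, a, b, c, d⟩ := exists_lt hG h
  exact ⟨γ, a, b, c, d.le⟩

theorem gd_triangle (x y z : M) : gd G x z ≤ gd G x y + gd G y z := by
  refine le_of_forall_pos_le_add fun ε hε => ?_
  obtain ⟨γ₁, a1, b1, c1, d1⟩ := exists_lt hG (show gd G x y < gd G x y + ε / 2 by linarith)
  obtain ⟨γ₂, a2, b2, c2, d2⟩ := exists_lt hG (show gd G y z < gd G y z + ε / 2 by linarith)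
  obtain ⟨γ, a, b, c, d⟩ := concat hG a1 a2 (c1.trans b2.symm)
  have := gd_le (G := G) a (b.trans b1) (c.trans c2)
  linarith

theorem gd_comm (x y : M) : gd G x y = gd G y x := by
  suffices ∀ x y : M, gd G y x ≤ gd G x y from le_antisymm (this y x) (this x y)
  intro x y
  refine le_of_forall_pos_le_add fun ε hε => ?_
  obtain ⟨γ, a, b, c, d⟩ := exists_lt hG (show gd G x y < gd G x y + ε by linarith)
  obtain ⟨a', d'⟩ := reverse hG a
  have := gd_le (G := G) a' (by simpa using c) (by simpa using b : (fun t => γ (1 - t)) 1 = x)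
  linarith

theorem gd_small (z : M) {ε : ℝ} (hε : 0 < ε) : ∀ᶠ w in 𝓝 z, gd G z w < ε := by
  obtain ⟨ρ, hρ, hsub⟩ := exists_ball (n := n) z z (mem_chart_source _ z)
  obtain ⟨b, hb0, hb⟩ := gd_chart_le hG hsub
  have hcont : ContinuousAt (ch n z) z := (ch n z).continuousAt (mem_chart_source _ z)
  have h1 : ∀ᶠ w in 𝓝 z, w ∈ (ch n z).source :=
    (ch n z).open_source.mem_nhds (mem_chart_source _ z)
  have h2 : ∀ᶠ w in 𝓝 z, ch n z w ∈ Metric.ball (ch n z z) (min ρ (ε / b)) :=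
    hcont.eventually_mem (Metric.ball_mem_nhds _ (lt_min hρ (div_pos hε hb0)))
  filter_upwards [h1, h2] with w hw1 hw2
  rw [Metric.mem_ball, dist_eq_norm, lt_min_iff] at hw2
  obtain ⟨γ, hγ, e0, e1, hl⟩ := hb _ (Metric.mem_closedBall_self hρ.le) (ch n z w)
    (by rw [mem_closedBall_iff_norm]; exact hw2.1.le)
  rw [(ch n z).left_inv (mem_chart_source _ z)] at e0
  rw [(ch n z).left_inv hw1] at e1
  refine ((gd_le hγ e0 e1).trans hl).trans_lt ?_
  have := (lt_div_iff₀ hb0).1 hw2.2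
  linarith

theorem continuous_gd (o : M) : Continuous fun w => gd G o w := by
  rw [continuous_iff_continuousAt]
  intro z
  rw [ContinuousAt, Metric.tendsto_nhds]
  intro ε hε
  filter_upwards [gd_small hG z hε] with w hw
  rw [Real.dist_eq, abs_lt]
  have := gd_triangle hG o z w
  have := gd_triangle hG o w z
  have := gd_comm hG w z
  constructor <;> linarith

variable [T2Space M]

theorem gd_confine {x : M} {c : Cn n} {ρ : ℝ}
    (hsub : Metric.closedBall c ρ ⊆ (ch n x).target) :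
    ∃ a > 0, ∀ (p : Cn n) (w : M), ‖p - c‖ + gd G ((ch n x).symm p) w / a < ρ →
      w ∈ (ch n x).source ∧ ‖ch n x w - c‖ < ρ := by
  obtain ⟨a, ha, h⟩ := confine hG hsub
  refine ⟨a, ha, fun p w hlt => ?_⟩
  have h' : gd G ((ch n x).symm p) w < (ρ - ‖p - c‖) * a := (div_lt_iff₀ ha).1 (by linarith)
  obtain ⟨γ, hγ, e0, e1, hl⟩ := exists_lt hG h'
  have := h γ hγ 0 1 zero_le_one p e0 (by
    have := (div_lt_iff₀ ha).2 hl
    simp only [clen] at this
    linarith)
  rwa [e1] at this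

theorem gd_nhds {z : M} {V : Set M} (hV : V ∈ 𝓝 z) :
    ∃ r > 0, ∀ w, gd G z w < r → w ∈ V := by
  have hz := mem_chart_source (Cn n) z
  have hm : (ch n z).target ∩ (ch n z).symm ⁻¹' V ∈ 𝓝 (ch n z z) :=
    inter_mem ((ch n z).open_target.mem_nhds ((ch n z).map_source hz))
      ((ch n z).continuousAt_symm ((ch n z).map_source hz)
        (by rwa [(ch n z).left_inv hz]))
  obtain ⟨ρ, hρ, hball⟩ := Metric.nhds_basis_closedBall.mem_iff.1 hm
  obtain ⟨a, ha, h⟩ := gd_confine hG (x := z) (hball.trans inter_subset_left)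
  refine ⟨ρ * a, by positivity, fun w hw => ?_⟩
  obtain ⟨h1, h2⟩ := h (ch n z z) w (by
    rw [(ch n z).left_inv hz, sub_self, norm_zero, zero_add, div_lt_iff₀ ha]
    exact hw)
  have := (hball (by rw [mem_closedBall_iff_norm]; exact h2.le)).2
  rwa [mem_preimage, (ch n z).left_inv h1] at this

theorem split {o w : M} {R d : ℝ} (hR : 0 ≤ R) (hd : 0 < d) (h : gd G o w < R + d) :
    ∃ v, gd G o v ≤ R ∧ gd G v w ≤ d := by
  obtain ⟨γ, hγ, e0, e1, hl⟩ := exists_lt hG h
  have hs := speed_continuous hG hγ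
  have hc : Continuous fun t => ∫ s in (0 : ℝ)..t, speed G γ s :=
    intervalIntegral.continuous_primitive (fun a b => hs.intervalIntegrable a b) 0
  by_cases hcase : clen G γ ≤ R
  · exact ⟨w, (gd_le hγ e0 e1).trans hcase, by rw [gd_self]; exact hd.le⟩
  · obtain ⟨t, ht, hte⟩ := intermediate_value_Icc zero_le_one hc.continuousOn
      (⟨by simpa using hR, (not_le.1 hcase).le⟩ : R ∈ Icc _ _)
    refine ⟨γ t, ?_, ?_⟩
    · rw [← e0]
      exact (subcurve hG hγ ht.1).trans_eq hte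
    · rw [← e1]
      refine (subcurve hG hγ ht.2).trans ?_
      rw [clen, ← intervalIntegral.integral_add_adjacent_intervals (hs.intervalIntegrable 0 t)
        (hs.intervalIntegrable t 1)] at hl
      simp only at hte
      linarith

theorem sublevel_limit (hC : Complete G) (o : M) {R : ℝ}
    (hS : ∀ ε : ℝ, 0 < ε → ∃ t : Set M, t.Finite ∧
      {w | gd G o w ≤ R} ⊆ ⋃ p ∈ t, {w | gd G p w < ε}) :
    IsCompact {w | gd G o w ≤ R} := by
  refine isCompact_iff_ultrafilter_le_nhds'.2 fun U hU => ?_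
  have hk : ∀ k : ℕ, ∃ p, {w | gd G p w < 1 / ((k : ℝ) + 1)} ∈ U := fun k => by
    obtain ⟨t, ht, hsub⟩ := hS (1 / ((k : ℝ) + 1)) (by positivity)
    obtain ⟨p, -, hp⟩ := (Ultrafilter.finite_biUnion_mem_iff ht).1 (mem_of_superset hU hsub)
    exact ⟨p, hp⟩
  choose p hp using hk
  obtain ⟨q, hq⟩ := hC p fun ε hε => by
    obtain ⟨N, hN⟩ := exists_nat_gt (2 / ε)
    refine ⟨N, fun j k hj hk => within_of_lt hG ?_⟩
    obtain ⟨w, hw1, hw2⟩ := U.nonempty_of_mem (inter_mem (hp j) (hp k))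
    have b : ∀ i : ℕ, N ≤ i → 1 / ((i : ℝ) + 1) < ε / 2 := fun i hi => by
      rw [div_lt_div_iff₀ (by positivity) two_pos]
      have := (div_lt_iff₀ hε).1 hN
      have : (N : ℝ) ≤ i := by exact_mod_cast hi
      nlinarith
    simp only [mem_setOf_eq] at hw1 hw2
    linarith [gd_triangle hG (p j) w (p k), gd_comm hG w (p k), b j hj, b k hk]
  have hclosed : IsClosed {w | gd G o w ≤ R} := isClosed_le (continuous_gd hG o) continuous_const
  have hle : (U : Filter M) ≤ 𝓝 q := by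
    intro V hV
    obtain ⟨r, hr, hrV⟩ := gd_nhds hG hV
    have h1 : ∀ᶠ k : ℕ in atTop, gd G (p k) q < r / 2 := by
      filter_upwards [hq.eventually (gd_small hG q (half_pos hr))] with k hk
      rwa [gd_comm hG]
    have h2 : ∀ᶠ k : ℕ in atTop, 1 / ((k : ℝ) + 1) < r / 2 :=
      tendsto_one_div_add_atTop_nhds_zero_nat.eventually_lt_const (half_pos hr)
    obtain ⟨k, hk1, hk2⟩ := (h1.and h2).exists
    refine mem_of_superset (hp k) fun w hw => hrV w ?_
    simp only [mem_setOf_eq] at hw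
    linarith [gd_triangle hG q (p k) w, gd_comm hG q (p k)]
  exact ⟨q, hclosed.mem_of_tendsto (f := id) hle hU, hle⟩

/-- Hopf-Rinow: closed balls are compact. -/
theorem isCompact_ball (hC : Complete G) (o : M) (R : ℝ) : IsCompact {w | gd G o w ≤ R} := by
  have hcl : ∀ S, IsClosed {w | gd G o w ≤ S} := fun S =>
    isClosed_le (continuous_gd hG o) continuous_const
  have mono : ∀ S T : ℝ, S ≤ T → IsCompact {w | gd G o w ≤ T} → IsCompact {w | gd G o w ≤ S} :=
    fun S T h hT => hT.of_isClosed_subset (hcl S) fun w hw => le_trans hw h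
  have grow : ∀ T, 0 ≤ T → IsCompact {w | gd G o w ≤ T} →
      ∃ δ > 0, IsCompact {w | gd G o w ≤ T + δ} := by
    intro T hT0 hT
    have hc : ∀ p : M, ∃ r > 0, ∃ C : Set M, IsCompact C ∧ ∀ w, gd G p w < r → w ∈ C := by
      intro p
      obtain ⟨ρ, hρ, hsub⟩ := exists_ball (n := n) p p (mem_chart_source _ p)
      obtain ⟨a, ha, h⟩ := gd_confine hG hsub
      refine ⟨ρ * a, by positivity, _, (isCompact_closedBall (ch n p p) ρ).image_of_continuousOn
        ((ch n p).continuousOn_symm.mono hsub), fun w hw => ?_⟩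
      obtain ⟨h1, h2⟩ := h (ch n p p) w (by
        rw [(ch n p).left_inv (mem_chart_source _ p), sub_self, norm_zero, zero_add,
          div_lt_iff₀ ha]
        exact hw)
      exact ⟨_, by rw [mem_closedBall_iff_norm]; exact h2.le, (ch n p).left_inv h1⟩
    choose r hr C hCc hmem using hc
    obtain ⟨t, htK⟩ := hT.elim_finite_subcover (fun p => {w | gd G p w < r p / 2})
      (fun p => isOpen_lt (continuous_gd hG p) continuous_const)
      (fun w _ => mem_iUnion.2 ⟨w, by simp [gd_self, hr w]⟩)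
    obtain ⟨δ, hδ, hδt⟩ : ∃ δ > 0, ∀ p ∈ t, δ ≤ r p / 4 := by
      rcases t.eq_empty_or_nonempty with h | h
      · exact ⟨1, one_pos, by simp [h]⟩
      · obtain ⟨p, hp, hmin⟩ := t.exists_min_image r h
        exact ⟨r p / 4, by linarith [hr p], fun q hq => by linarith [hmin q hq]⟩
    refine ⟨δ, hδ, (t.isCompact_biUnion fun p _ => hCc p).of_isClosed_subset (hcl _) fun w hw => ?_⟩
    simp only [mem_setOf_eq] at hw
    obtain ⟨v, hv1, hv2⟩ := split hG hT0 (d := 2 * δ) (by linarith) (w := w) (by linarith)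
    obtain ⟨p, hp⟩ := mem_iUnion.1 (htK hv1)
    simp only [mem_iUnion, exists_prop, mem_setOf_eq] at hp
    exact mem_biUnion hp.1 (hmem p w (by linarith [gd_triangle hG p v w, hδt p hp.1, hp.2, hr p]))
  by_contra hR
  set S := {T : ℝ | 0 ≤ T ∧ IsCompact {w | gd G o w ≤ T}}
  have h0 : IsCompact {w | gd G o w ≤ (0 : ℝ)} := by
    have : {w | gd G o w ≤ (0 : ℝ)} ⊆ {o} := fun w hw => by
      by_contra hne
      obtain ⟨r, hr, h⟩ := gd_nhds hG (isOpen_compl_singleton.mem_nhds (Ne.symm hne))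
      exact h w (lt_of_le_of_lt hw hr) rfl
    exact isCompact_singleton.of_isClosed_subset (hcl 0) this
  have hb : ∀ T ∈ S, T < R := fun T hT => not_le.1 fun h => hR (mono R T h hT.2)
  have hne : S.Nonempty := ⟨0, le_rfl, h0⟩
  have hbdd : BddAbove S := ⟨R, fun T hT => (hb T hT).le⟩
  set s := sSup S
  have hs0 : 0 ≤ s := le_csSup hbdd ⟨le_rfl, h0⟩
  have hsc : IsCompact {w | gd G o w ≤ s} := by
    refine sublevel_limit hG hC o fun ε hε => ?_
    obtain ⟨T, hT, hlt⟩ : ∃ T ∈ S, s - ε / 4 < T := exists_lt_of_lt_csSup hne (by linarith)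
    obtain ⟨t, htK⟩ := hT.2.elim_finite_subcover (fun p => {w | gd G p w < ε / 2})
      (fun p => isOpen_lt (continuous_gd hG p) continuous_const)
      (fun w _ => mem_iUnion.2 ⟨w, by simp [gd_self, hε]⟩)
    refine ⟨t, t.finite_toSet, fun w hw => ?_⟩
    obtain ⟨v, hv1, hv2⟩ := split hG hT.1 (half_pos hε) (w := w)
      (lt_of_le_of_lt hw (by linarith))
    obtain ⟨p, hp⟩ := mem_iUnion.1 (htK hv1)
    simp only [mem_iUnion, exists_prop, mem_setOf_eq] at hp
    exact mem_biUnion hp.1 (show gd G p w < ε by linarith [gd_triangle hG p v w, hp.2])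
  obtain ⟨δ, hδ, hδc⟩ := grow s hs0 hsc
  have := le_csSup hbdd (show s + δ ∈ S from ⟨by linarith, hδc⟩)
  linarith

theorem exists_far (hC : Complete G) [NoncompactSpace M] (o : M) (R : ℝ) : ∃ x, R < gd G o x := by
  by_contra h
  push Not at h
  refine noncompact_univ M ?_
  convert isCompact_ball hG hC o R
  exact (eq_univ_of_forall h).symm

end Space

end Vale.Agent.P253.Circle
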