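import Vale.Agent.P253.Circle.Moment

/-!
P253: near a boundary point of the image the moment function stays bounded.
-/

open scoped Manifold ContDiff InnerProductSpace Topology
open Complex Set Filter

noncomputable section

namespace Vale.Agent.P253.Circle

open Vale.Agent.Results.P253.SymmetricDomains (rot)

variable {n : ℕ} {M : Type} [TopologicalSpace M] [ChartedSpace (Cn n) M]
  [IsManifold 𝓘(ℂ, Cn n) ω M] {G : Metric (Cn n) M} {ρ : ℝ → M → M}

theorem read_inverse {F : Cn n → M} (himm : ∀ z, Imm n F z) {x : M} {w : Cn n}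
    (hw : F w ∈ (ch n x).source) : ∃ g : Cn n → Cn n, g (ch n x (F w)) = w ∧
      (∀ᶠ y in 𝓝 (ch n x (F w)), F (g y) = (ch n x).symm y) ∧
      ∃ L : Cn n →L[ℂ] Cn n, HasFDerivAt g L (ch n x (F w)) ∧
        ∀ v, fderiv ℂ (fun z => ch n x (F z)) w (L v) = v := by
  set f : Cn n → Cn n := fun z => ch n x (F z)
  obtain ⟨V, hVs, hV, hwV⟩ := mem_nhds_iff.1 ((himm w).1 ((ch n x).open_source.mem_nhds hw))
  have hf : DifferentiableOn ℂ f V := fun z hz =>
    ((himm z).read_diff (hVs hz)).differentiableWithinAt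
  set E := (LinearEquiv.ofInjectiveEndo (fderiv ℂ f w : Cn n →ₗ[ℂ] Cn n)
    ((himm w).read_deriv hw).2).toContinuousLinearEquiv
  have hst : HasStrictFDerivAt f (E : Cn n →L[ℂ] Cn n) w :=
    (((contDiffOn_holo hV hf).contDiffAt (hV.mem_nhds hwV)).hasStrictFDerivAt (by simp)).congr_fderiv
      (ContinuousLinearMap.ext fun v => rfl)
  refine ⟨hst.localInverse f E w, hst.localInverse_apply_image, ?_, _,
    hst.to_localInverse.hasFDerivAt, fun v => E.apply_symm_apply v⟩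
  filter_upwards [hst.eventually_right_inverse, hst.localInverse_tendsto.eventually (hV.mem_nhds hwV)]
    with y h1 h2
  calc F (hst.localInverse f E w y) = (ch n x).symm (f (hst.localInverse f E w y)) :=
        ((ch n x).left_inv (hVs h2)).symm
    _ = _ := by rw [h1]

theorem exit_bound [T2Space M] [ConnectedSpace M] (hG : IsKaehler G) (hρ : CircleSymmetry G ρ)
    {k : Fin n → ℕ} {Ψ : Cn n → M} (himm : ∀ z, Imm n Ψ z) (hinj : Function.Injective Ψ)
    (heq : ∀ z (s : ℝ), ρ s (Ψ z) = Ψ (rot k ((s : ℂ) * I) z)) (ho : IsOpen (range Ψ))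
    (hne : range Ψ ≠ univ) {F : Cn n → ℝ}
    (hF : ∀ z, HasFDerivAt F (form k (indMetric G Ψ) z) z) :
    ∃ C : ℝ, ∀ N : ℝ, ∃ w, N < ‖w‖ ∧ F w ≤ C := by
  have hcont : Continuous Ψ := continuous_iff_continuousAt.2 fun z => (himm z).1
  have hnc : ¬ IsClosed (range Ψ) := fun h => hne (IsClopen.eq_univ ⟨h, ho⟩ (range_nonempty Ψ))
  obtain ⟨q, hq, hqn⟩ : ∃ q ∈ closure (range Ψ), q ∉ range Ψ := by
    by_contra h
    push Not at h
    exact hnc (isClosed_of_closure_subset h)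
  have hqs := mem_chart_source (Cn n) q
  obtain ⟨r, hr, hsub⟩ := exists_ball (n := n) q q hqs
  obtain ⟨_, ⟨hs0, hb0⟩, w₀, rfl⟩ := mem_closure_iff.1 hq _
    ((ch n q).isOpen_inter_preimage (Metric.isOpen_ball (x := ch n q q) (ε := r)))
    ⟨hqs, Metric.mem_ball_self hr⟩
  set c := ch n q q
  set p₀ := ch n q (Ψ w₀)
  set y : ℝ → Cn n := fun t => p₀ + t • (c - p₀)
  have hy : ∀ t ∈ Icc (0 : ℝ) 1, y t ∈ (ch n q).target := fun t ht =>
    hsub ((convex_closedBall c r).add_smul_sub_mem (Metric.ball_subset_closedBall hb0)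
      (Metric.mem_closedBall_self hr.le) ht)
  have hyd : ∀ t, HasDerivAt y (c - p₀) t := fun t => by
    simpa [y] using ((hasDerivAt_id t).smul_const (c - p₀)).const_add p₀
  have hyc : Continuous y := continuous_iff_continuousAt.2 fun t => (hyd t).continuousAt
  set γ : ℝ → M := fun t => (ch n q).symm (y t)
  have hγc : ContinuousOn γ (Icc 0 1) :=
    (ch n q).continuousOn_symm.comp hyc.continuousOn hy
  set S := Icc (0 : ℝ) 1 ∩ γ ⁻¹' (range Ψ)ᶜ
  have hSc : IsClosed S := hγc.preimage_isClosed_of_isClosed isClosed_Icc ho.isClosed_compl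
  have h1S : (1 : ℝ) ∈ S := ⟨right_mem_Icc.2 zero_le_one, by
    show γ 1 ∉ range Ψ
    simpa [γ, y, c, (ch n q).left_inv hqs] using hqn⟩
  have hSb : BddBelow S := ⟨0, fun s hs => hs.1.1⟩
  set τ := sInf S
  have hτ : τ ∈ S := hSc.csInf_mem ⟨1, h1S⟩ hSb
  have hγ0 : γ 0 = Ψ w₀ := by simp [γ, y, p₀, (ch n q).left_inv hs0]
  have hτ0 : 0 < τ := lt_of_le_of_ne hτ.1.1 fun h => hτ.2 ⟨w₀, by rw [← h, hγ0]⟩
  have hin : ∀ t ∈ Ico 0 τ, γ t ∈ range Ψ := fun t ht => by
    by_contra h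
    exact absurd (csInf_le hSb ⟨⟨ht.1, ht.2.le.trans hτ.1.2⟩, h⟩) (not_le.2 ht.2)
  set w : ℝ → Cn n := fun t => Function.invFun Ψ (γ t)
  have hw : ∀ t ∈ Ico 0 τ, Ψ (w t) = γ t := fun t ht => Function.invFun_eq (hin t ht)
  set g : ℝ → ℝ := fun t => (⟪fld n ρ q (y t), rp G q (y t) (c - p₀)⟫_ℂ).re
  have hgc : ContinuousOn g (Icc 0 1) :=
    Complex.continuous_re.comp_continuousOn (((fld_holo hρ q).continuousOn.comp hyc.continuousOn
      hy).inner (((hG.2 q).1.continuousOn.comp hyc.continuousOn hy).clm_apply continuousOn_const))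
  obtain ⟨B, hB⟩ := isCompact_Icc.exists_bound_of_continuousOn hgc
  have hder : ∀ t ∈ Ico 0 τ, HasDerivAt (fun s => F (w s)) (g t) t := fun t ht => by
    have ht1 : t ∈ Icc (0 : ℝ) 1 := ⟨ht.1, ht.2.le.trans hτ.1.2⟩
    have hs : Ψ (w t) ∈ (ch n q).source := hw t ht ▸ (ch n q).map_target (hy t ht1)
    have hf : ch n q (Ψ (w t)) = y t := by rw [hw t ht]; exact (ch n q).right_inv (hy t ht1)
    obtain ⟨i, hi0, hi, L, hL, hLv⟩ := read_inverse himm hs
    rw [hf] at hi0 hi hL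
    have hev : w =ᶠ[𝓝 t] fun s => i (y s) := by
      filter_upwards [hyc.continuousAt.eventually hi] with s hs
      exact (congrArg (Function.invFun Ψ) hs.symm).trans (Function.leftInverse_invFun hinj _)
    have hwd := ((hL.restrictScalars ℝ).comp_hasDerivAt t (hyd t)).congr_of_eventuallyEq hev
    refine ((hF (w t)).comp_hasDerivAt t hwd).congr_deriv ?_
    rw [form_apply, indMetric_eq (himm _) hs, inner_pullG,
      ← fld_equiv hρ (himm _) (Eventually.of_forall (heq _)) hs, hf]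
    simp only [g, ContinuousLinearMap.coe_restrictScalars', hLv]
  refine ⟨F (w 0) + |B|, fun N => ?_⟩
  by_contra hcon
  push Not at hcon
  have hle : ∀ t ∈ Ico 0 τ, F (w t) ≤ F (w 0) + |B| := fun t ht => by
    have := (convex_Icc (0 : ℝ) t).norm_image_sub_le_of_norm_hasDerivWithin_le
      (f := fun s => F (w s)) (f' := g) (C := |B|)
      (fun s hs => (hder s ⟨hs.1, hs.2.trans_lt ht.2⟩).hasDerivWithinAt)
      (fun s hs => (hB s ⟨hs.1, hs.2.trans (ht.2.le.trans hτ.1.2)⟩).trans (le_abs_self B))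
      (left_mem_Icc.2 ht.1) (right_mem_Icc.2 ht.1)
    have h2 : |B| * ‖t - 0‖ ≤ |B| := mul_le_of_le_one_right (abs_nonneg _) (by
      rw [sub_zero, Real.norm_eq_abs, abs_of_nonneg ht.1]; exact ht.2.le.trans hτ.1.2)
    linarith [(le_abs_self _).trans this]
  have hK : IsClosed (Ψ '' Metric.closedBall 0 N) :=
    ((isCompact_closedBall _ _).image hcont).isClosed
  refine hτ.2 (image_subset_range _ _ (hK.mem_of_tendsto
    ((hγc τ hτ.1).mono_left (nhdsWithin_le_of_mem ?_) : Tendsto γ (𝓝[<] τ) _) ?_))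
  · exact Filter.mem_of_superset (Ioo_mem_nhdsLT hτ0) fun s hs =>
      ⟨hs.1.le, hs.2.le.trans hτ.1.2⟩
  · filter_upwards [Ioo_mem_nhdsLT hτ0] with s hs
    have hs' : s ∈ Ico 0 τ := ⟨hs.1.le, hs.2⟩
    refine ⟨w s, mem_closedBall_zero_iff.2 (not_lt.1 fun h => ?_), hw s hs'⟩
    exact absurd (hle s hs') (not_le.2 (hcon _ h))

end Vale.Agent.P253.Circle
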