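import Vale.Agent.P253.Circle.Transport

/-!
P253: the pointwise four-point bound for the speed of a varied curve.
-/

open scoped Manifold ContDiff InnerProductSpace Topology
open Complex Set Filter

noncomputable section

namespace Vale.Agent.P253.Circle

open Vale.Agent.Results.P253.SymmetricDomains (IsPos dz ddbar bisect)

variable {n : ℕ} {D : Set (Cn n)} {G : Cn n → (Cn n →L[ℂ] Cn n)}

theorem sq_smul_real (T : Cn n →L[ℂ] Cn n) (a : ℝ) (v : Cn n) :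
    sq T (a • v) = a ^ 2 * sq T v := by
  simp [sq, Vale.Agent.Results.P253.SymmetricDomains.sq, ← Complex.coe_smul, inner_smul_left]
  ring

theorem sqrt_sq_smul (T : Cn n →L[ℂ] Cn n) {a : ℝ} (ha : 0 ≤ a) (v : Cn n) :
    Real.sqrt (sq T (a • v)) = a * Real.sqrt (sq T v) := by
  rw [sq_smul_real, Real.sqrt_mul (sq_nonneg _), Real.sqrt_sq ha]

/-- Position in the variation. -/
abbrev fam (y b e : Cn n) (s : ℂ) : Cn n := y + s • b + s ^ 2 • e

theorem fam_dist {y b e : Cn n} {s : ℂ} (hs : ‖s‖ ≤ 1) :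
    ‖fam y b e s - y‖ ≤ ‖s‖ * (‖b‖ + ‖e‖) := by
  rw [show fam y b e s - y = s • b + s ^ 2 • e by simp [fam]; abel]
  refine (norm_add_le _ _).trans ?_
  rw [norm_smul, norm_smul, norm_pow, mul_add]
  gcongr
  exact pow_le_of_le_one (norm_nonneg _) hs two_ne_zero

theorem levi_parallel (hG : Local D G) {y : Cn n} (hy : y ∈ D) (u P : Cn n) (β ℓ : ℝ) :
    levi G y (β • P) u (β • conn G y u P + (-(1 / ℓ)) • P) =
      -bisect G y (β • P) u + sq (G y) P / ℓ ^ 2 := by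
  have e : β • conn G y u P + (-(1 / ℓ)) • P + (G y).inverse (dz G y (β • P) u)
      = (-(1 / ℓ)) • P := by
    rw [hG.sym y hy (β • P) u]
    simp only [conn, neg_apply, ContinuousLinearMap.coe_restrictScalars',
      ContinuousLinearMap.coe_comp', Function.comp_apply, ← Complex.coe_smul, map_smul]
    module
  rw [levi, e, sq_smul_real, neg_sq, div_pow, one_pow, one_div, inv_mul_eq_div]

/-- The bound on jets used by `pointwise`. -/
def jetSet (c₀ : Cn n) (ρ Ap A Au Aw Aq : ℝ) : Set (Jet n) :=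
  (Metric.closedBall c₀ ρ ×ˢ Metric.closedBall 0 Ap ×ˢ Metric.closedBall 0 A)
    ×ˢ (Metric.closedBall 0 Au ×ˢ Metric.closedBall 0 Aw ×ˢ Metric.closedBall 0 Aq)

theorem isCompact_jetSet (c₀ : Cn n) (ρ Ap A Au Aw Aq : ℝ) :
    IsCompact (jetSet c₀ ρ Ap A Au Aw Aq) :=
  ((isCompact_closedBall _ _).prod ((isCompact_closedBall _ _).prod (isCompact_closedBall _ _))).prod
    ((isCompact_closedBall _ _).prod ((isCompact_closedBall _ _).prod (isCompact_closedBall _ _)))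

theorem mem_jetSet {c₀ y W q u W' q' : Cn n} {ρ Ap A Au Aw Aq : ℝ}
    (hy : y ∈ Metric.closedBall c₀ ρ) (hW : ‖W‖ ≤ Ap) (hq : ‖q‖ ≤ A) (hu : ‖u‖ ≤ Au)
    (hW' : ‖W'‖ ≤ Aw) (hq' : ‖q'‖ ≤ Aq) :
    (((y, W, q), (u, W', q')) : Jet n) ∈ jetSet c₀ ρ Ap A Au Aw Aq :=
  ⟨⟨hy, mem_closedBall_zero_iff.2 hW, mem_closedBall_zero_iff.2 hq⟩, mem_closedBall_zero_iff.2 hu,
    mem_closedBall_zero_iff.2 hW', mem_closedBall_zero_iff.2 hq'⟩

/-- Constants for a piece of a curve. -/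
structure Box (G : Cn n → (Cn n →L[ℂ] Cn n)) where
  /-- centre -/
  c₀ : Cn n
  /-- radius -/
  ρ : ℝ
  /-- lower bound of the metric -/
  a : ℝ
  /-- bound of the connection -/
  C : ℝ
  /-- bound of the parallel vector -/
  Ap : ℝ
  /-- bound of the second order datum -/
  A : ℝ
  /-- length of the whole variation -/
  ℓ : ℝ
  /-- length of the piece -/
  δ : ℝ
  a_pos : 0 < a
  C_nonneg : 0 ≤ C
  ℓ_ge : 1 ≤ ℓ
  δ_pos : 0 < δ
  lower : ∀ y ∈ Metric.closedBall c₀ ρ, ∀ v, a * ‖v‖ ≤ Real.sqrt (sq (G y) v)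
  conn_le : ∀ y ∈ Metric.closedBall c₀ ρ, ∀ v, ‖conn G y v‖ ≤ C * Real.sqrt (sq (G y) v)

/-- The jets of a box. -/
def Box.jets (b : Box G) : Set (Jet n) :=
  jetSet b.c₀ b.ρ b.Ap b.A (1 / b.a) (b.Ap + b.C * b.Ap) (b.A / b.δ)

theorem pointwise (hG : Local D G) (b : Box G) (hbD : Metric.closedBall b.c₀ b.ρ ⊆ D)
    {ε r₀ : ℝ}
    (hjet : ∀ p ∈ b.jets, ∀ r : ℝ, 0 ≤ r → r < r₀ → four (jetE G p) r ≤ 4 * jetE G p 0 +
      r ^ 2 * (4 * levi G p.1.1 p.1.2.1 p.2.1 p.2.2.1 + ε))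
    {y v P q Q₀ : Cn n} (hy : y ∈ Metric.closedBall b.c₀ b.ρ) {β κ w S : ℝ}
    (hw : w = Real.sqrt (sq (G y) v)) (hP : ‖P‖ ≤ b.Ap) (hS : sq (G y) P = S)
    (hβ : 0 ≤ β ∧ β ≤ 1) (hq : ‖q‖ ≤ b.A) (hQ : ‖Q₀‖ ≤ b.A)
    (hκ : ∀ u, sq (G y) u = 1 → κ ≤ bisect G y (β • P) u) {r : ℝ} (hr : 0 ≤ r) (hrr : r < r₀)
    (hmem : ∀ s : ℂ, ‖s‖ = r → fam y (β • P) q s ∈ D) :
    four (fun s => Real.sqrt (sq (G (fam y (β • P) q s))
      (fam v (β • conn G y v P + (-(w / b.ℓ)) • P) ((-(w / b.δ)) • Q₀) s))) r ≤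
      w * (4 + r ^ 2 * (2 * (-κ + S / b.ℓ ^ 2) + ε / 2)) := by
  have hw0 : 0 ≤ w := hw ▸ Real.sqrt_nonneg _
  by_cases hw00 : w = 0
  · have hv0 : v = 0 := by
      have := b.lower _ hy v
      rw [← hw, hw00] at this
      exact norm_eq_zero.1 (le_antisymm (nonpos_of_mul_nonpos_right this b.a_pos) (norm_nonneg _))
    simp [four, hw00, hv0, conn_zero, sq, Vale.Agent.Results.P253.SymmetricDomains.sq]
  have hwp : 0 < w := lt_of_le_of_ne hw0 (Ne.symm hw00)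
  obtain ⟨u, hu⟩ : ∃ u, v = w • u := ⟨w⁻¹ • v, by rw [smul_smul, mul_inv_cancel₀ hw00, one_smul]⟩
  have hpos := hG.pos _ (hbD hy)
  have hu1 : sq (G y) u = 1 := by
    have e : sq (G y) v = w ^ 2 * sq (G y) u := by rw [hu, sq_smul_real]
    have e' : sq (G y) v = w ^ 2 := by rw [hw, Real.sq_sqrt (hpos.nonneg _)]
    rw [e'] at e
    exact mul_left_cancel₀ (pow_ne_zero 2 hw00) (by rw [mul_one]; exact e.symm)
  set W : Cn n := β • conn G y u P + (-(1 / b.ℓ)) • P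
  set qh : Cn n := (-(1 / b.δ)) • Q₀
  set p : Jet n := ((y, β • P, q), (u, W, qh))
  have hW : β • conn G y v P + (-(w / b.ℓ)) • P = w • W := by
    simp only [W, hu, conn_smul, smul_apply, smul_add, smul_smul]
    rw [mul_comm β w, mul_neg, mul_one_div]
  have hqh : (-(w / b.δ)) • Q₀ = w • qh := by
    rw [smul_smul, mul_neg, mul_one_div]
  have hv : ∀ s : ℂ, fam v (β • conn G y v P + (-(w / b.ℓ)) • P) ((-(w / b.δ)) • Q₀) s
      = w • fam u W qh s := fun s => by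
    rw [hW, hqh, hu]
    simp only [fam, smul_add, smul_comm w s, smul_comm w (s ^ 2)]
  have hpK : p ∈ b.jets := by
    have h1 := b.lower _ hy u
    rw [hu1, Real.sqrt_one] at h1
    refine mem_jetSet hy ?_ hq ?_ ?_ ?_
    · rw [norm_smul, Real.norm_eq_abs, abs_of_nonneg hβ.1]
      exact (mul_le_of_le_one_left (norm_nonneg _) hβ.2).trans hP
    · rw [le_div_iff₀ b.a_pos]; linarith
    · refine (norm_add_le _ _).trans ?_
      rw [norm_smul, norm_smul, Real.norm_eq_abs, Real.norm_eq_abs, abs_of_nonneg hβ.1, abs_neg,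
        abs_of_pos (show (0 : ℝ) < 1 / b.ℓ by have := b.ℓ_ge; positivity)]
      have c0 := b.conn_le _ hy u
      rw [hu1, Real.sqrt_one, mul_one] at c0
      have c1 : β * ‖conn G y u P‖ ≤ b.C * b.Ap :=
        ((mul_le_of_le_one_left (norm_nonneg _) hβ.2).trans ((conn G y u).le_opNorm _)).trans
          (mul_le_mul c0 hP (norm_nonneg _) b.C_nonneg)
      have c2 : 1 / b.ℓ * ‖P‖ ≤ b.Ap :=
        (mul_le_of_le_one_left (norm_nonneg _)
          ((div_le_one (by linarith [b.ℓ_ge])).2 b.ℓ_ge)).trans hP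
      linarith
    · rw [norm_smul, Real.norm_eq_abs, abs_neg, abs_of_pos (one_div_pos.2 b.δ_pos), one_div,
        inv_mul_eq_div]
      exact div_le_div_of_nonneg_right hQ b.δ_pos.le
  have hj := hjet p hpK r hr hrr
  have h0 : jetE G p 0 = 1 := by simp [jetE, p, hu1]
  have hlev : levi G y (β • P) u W ≤ -κ + S / b.ℓ ^ 2 := by
    rw [levi_parallel hG (hbD hy), hS]
    linarith [hκ u hu1]
  have hsmall : ∀ s : ℂ, ‖s‖ = r → Real.sqrt (sq (G (fam y (β • P) q s))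
      (fam v (β • conn G y v P + (-(w / b.ℓ)) • P) ((-(w / b.δ)) • Q₀) s)) ≤
      w * ((1 + jetE G p s) / 2) := fun s hs => by
    rw [hv s, sqrt_sq_smul _ hw0]
    exact mul_le_mul_of_nonneg_left (half_le_sqrt ((hG.pos _ (hmem s hs)).nonneg _)) hw0
  have n1 : ‖(r : ℂ)‖ = r := by simp [abs_of_nonneg hr]
  have n2 : ‖-(r : ℂ)‖ = r := by rw [norm_neg, n1]
  have n3 : ‖(r : ℂ) * I‖ = r := by rw [norm_mul, n1, Complex.norm_I, mul_one]
  have n4 : ‖-((r : ℂ) * I)‖ = r := by rw [norm_neg, n3]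
  have s1 := hsmall _ n1
  have s2 := hsmall _ n2
  have s3 := hsmall _ n3
  have s4 := hsmall _ n4
  rw [h0] at hj
  simp only [four] at hj ⊢
  have m1 := mul_le_mul_of_nonneg_left hj hw0
  have m2 := mul_le_mul_of_nonneg_left (mul_le_mul_of_nonneg_left hlev (sq_nonneg r)) hw0
  simp only [p] at m1
  linarith

end Vale.Agent.P253.Circle
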