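import Vale.Agent.P253.Circle.Imm
import Vale.Agent.P253.Circle.Dist
import Vale.Agent.P253.Circle.Point

/-!
P253: the linearisation at a sink extends to all of `ℂ^n`.
-/

open scoped Manifold ContDiff InnerProductSpace Topology
open Complex Set Filter

noncomputable section

namespace Vale.Agent.P253.Circle

open Vale.Agent.Results.P253.SymmetricDomains (rot CFlow RealSymmetry BisectNonneg pull sq_pull
  testCond_pull isPos_pull continuousAt_pull sq_bound)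

variable {n : ℕ} {M : Type} [TopologicalSpace M] [ChartedSpace (Cn n) M]

/-- A linearisation of the action near the sink. -/
structure Start (G : Metric (Cn n) M) (ρ : ℝ → M → M) (o : M) (k : Fin n → ℕ) where
  /-- radius -/
  r : ℝ
  /-- the inverse chart -/
  Ψ₀ : Cn n → M
  r_pos : 0 < r
  k_pos : ∀ j, 0 < k j
  zero : Ψ₀ 0 = o
  imm : ∀ z ∈ Metric.ball (0 : Cn n) r, Imm n Ψ₀ z
  inj : InjOn Ψ₀ (Metric.ball (0 : Cn n) r)
  equiv : ∀ z ∈ Metric.ball (0 : Cn n) r, ∀ s : ℝ, ρ s (Ψ₀ z) = Ψ₀ (rot k ((s : ℂ) * I) z)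

/-- The Euler field. -/
abbrev eul (k : Fin n → ℕ) : Cn n →L[ℂ] Cn n := diag fun j => (k j : ℂ)

theorem hasDerivAt_rot (k : Fin n → ℕ) (z : Cn n) (t : ℝ) :
    HasDerivAt (fun s : ℝ => rot k (s : ℂ) z) (eul k (rot k (t : ℂ) z)) t := by
  have h0 : ∀ j, HasDerivAt (fun s : ℝ => Complex.exp ((k j : ℂ) * (s : ℂ)) * z j)
      ((k j : ℂ) * (Complex.exp ((k j : ℂ) * (t : ℂ)) * z j)) t := fun j => by
    have := (((hasDerivAt_id t).ofReal_comp.const_mul (k j : ℂ)).cexp).mul_const (z j)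
    simpa [mul_comm, mul_left_comm, mul_assoc] using this
  exact (PiLp.continuousLinearEquiv 2 ℝ (fun _ : Fin n => ℂ)).symm.hasFDerivAt.comp_hasDerivAt t
    (hasDerivAt_pi.2 h0)

theorem rot_eul (k : Fin n → ℕ) (τ : ℂ) (z : Cn n) : eul k (rot k τ z) = rot k τ (eul k z) := by
  ext j
  simp [rot, mul_left_comm]

theorem norm_rot_mono (k : Fin n → ℕ) {s t : ℝ} (h : s ≤ t) (z : Cn n) :
    ‖rot k (s : ℂ) z‖ ≤ ‖rot k (t : ℂ) z‖ := by
  rw [show (s : ℂ) = ((s - t : ℝ) : ℂ) + (t : ℂ) by push_cast; ring, rot_add]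
  exact norm_rot_le k (by simpa using h) _

theorem norm_rot_shrink {k : Fin n → ℕ} (hk : ∀ j, 0 < k j) {t : ℝ} (ht : 0 ≤ t) (z : Cn n) :
    ‖rot k ((-t : ℝ) : ℂ) z‖ ≤ Real.exp (-t) * ‖z‖ := by
  have e : ((Real.exp (-t) : ℝ) : ℂ) • diag (fun j => Complex.exp (((k j : ℂ) - 1) * ((-t : ℝ) : ℂ))) z
      = rot k ((-t : ℝ) : ℂ) z := by
    ext j
    simp [rot, ← mul_assoc, ← Complex.exp_add]
    ring_nf
    simp
  rw [← e, norm_smul, Complex.norm_real, Real.norm_eq_abs, abs_of_pos (Real.exp_pos _)]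
  refine mul_le_mul_of_nonneg_left ?_ (Real.exp_pos _).le
  simp only [EuclideanSpace.norm_eq]
  refine Real.sqrt_le_sqrt (Finset.sum_le_sum fun j _ => ?_)
  rw [diag_apply, norm_mul, mul_pow]
  refine mul_le_of_le_one_left (sq_nonneg _) (pow_le_one₀ (norm_nonneg _) ?_)
  rw [Complex.norm_exp, Real.exp_le_one_iff]
  have h1 : (1 : ℝ) ≤ k j := by exact_mod_cast hk j
  simp
  nlinarith

theorem eventually_small {k : Fin n → ℕ} (hk : ∀ j, 0 < k j) (z : Cn n) {r : ℝ} (hr : 0 < r) :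
    ∀ᶠ N : ℝ in atTop, 0 ≤ N ∧ ‖rot k ((-N : ℝ) : ℂ) z‖ < r := by
  have h : Tendsto (fun N : ℝ => Real.exp (-N) * ‖z‖) atTop (𝓝 0) := by
    simpa using Real.tendsto_exp_neg_atTop_nhds_zero.mul_const ‖z‖
  filter_upwards [h.eventually_lt_const hr, eventually_ge_atTop (0 : ℝ)] with N h1 h2
  exact ⟨h2, (norm_rot_shrink hk h2 z).trans_lt h1⟩

variable [IsManifold 𝓘(ℂ, Cn n) ω M] {G : Metric (Cn n) M} {ρ : ℝ → M → M} {o : M} {k : Fin n → ℕ}

theorem orbit_int (hρ : CircleSymmetry G ρ) {F : Cn n → M} {z : Cn n} {a b : ℝ}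
    (hF : ∀ t ∈ Icc a b, Imm n F (rot k (t : ℂ) z) ∧ ∀ s : ℝ,
      ρ s (F (rot k (t : ℂ) z)) = F (rot k ((s : ℂ) * I) (rot k (t : ℂ) z))) :
    IntCurve n ρ (fun t => F (rot k (t : ℂ) z)) a b := by
  refine ⟨fun t ht => ((hF t ht).1.1.comp (f := fun t : ℝ => rot k (t : ℂ) z)
    (hasDerivAt_rot k z t).continuousAt).continuousWithinAt, fun t ht => ?_⟩
  obtain ⟨hi, he⟩ := hF t ht
  have h1 := ((hi.2.1.hasFDerivAt.restrictScalars ℝ).comp_hasDerivAt t
    (hasDerivAt_rot k z t)).hasDerivWithinAt (s := Icc a b)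
  rw [fld_equiv hρ hi (Eventually.of_forall he) (mem_chart_source (Cn n) _)]
  exact h1

variable (S : Start G ρ o k)

/-- The flow of a ball point exists up to time `t`, holomorphically in the point. -/
def Start.Ext (w : Cn n) (t : ℝ) : Prop :=
  ∃ U, IsOpen U ∧ w ∈ U ∧ U ⊆ Metric.ball 0 S.r ∧ ∃ F : Cn n → M, ∀ u ∈ U, Imm n F u ∧
    ∃ γ : ℝ → M, IntCurve n ρ γ 0 t ∧ γ 0 = S.Ψ₀ u ∧ γ t = F u

theorem Start.ball_orbit (hρ : CircleSymmetry G ρ) {z : Cn n} {a b : ℝ}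
    (hb : ‖rot k (b : ℂ) z‖ < S.r) :
    IntCurve n ρ (fun t => S.Ψ₀ (rot k (t : ℂ) z)) a b := by
  refine orbit_int hρ fun t ht => ?_
  have : rot k (t : ℂ) z ∈ Metric.ball (0 : Cn n) S.r :=
    mem_ball_zero_iff.2 ((norm_rot_mono k ht.2 z).trans_lt hb)
  exact ⟨S.imm _ this, S.equiv _ this⟩

theorem Start.ext_zero (hρ : CircleSymmetry G ρ) {w : Cn n} (hw : w ∈ Metric.ball 0 S.r) :
    S.Ext w 0 := by
  refine ⟨Metric.ball 0 S.r, Metric.isOpen_ball, hw, subset_rfl, S.Ψ₀, fun u hu => ⟨S.imm u hu,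
    fun t => S.Ψ₀ (rot k (t : ℂ) u), S.ball_orbit hρ ?_, ?_, ?_⟩⟩
  · simpa [rot_zero] using mem_ball_zero_iff.1 hu
  · simp [rot_zero]
  · simp [rot_zero]

theorem IntCurve.glue_shift {γ c : ℝ → M} {t δ τ : ℝ} (ht : 0 ≤ t)
    (h₁ : IntCurve n ρ γ 0 t) (h₂ : IntCurve n ρ c (-δ) δ) (hτ : τ ∈ Icc 0 δ) (e : γ t = c 0) :
    ∃ η : ℝ → M, IntCurve n ρ η 0 (t + τ) ∧ η 0 = γ 0 ∧ η (t + τ) = c τ := by
  have h3 : IntCurve n ρ (fun s => c (s + -t)) t (t + τ) :=
    (h₂.shift (-t)).mono (by linarith [hτ.1, hτ.2]) (by linarith [hτ.2])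
  refine ⟨_, IntCurve.glue ht (by linarith [hτ.1]) h₁ h3 (by simp [e]), if_pos ht, ?_⟩
  show (if t + τ ≤ t then γ (t + τ) else c (t + τ + -t)) = c τ
  split_ifs with h
  · have h0 : τ = 0 := le_antisymm (by linarith) hτ.1
    simp [h0, e]
  · simp

theorem Start.step [T2Space M] (hρ : CircleSymmetry G ρ) (x : M) :
    ∃ V ∈ 𝓝 x, ∃ δ > 0, ∀ (w : Cn n) (t : ℝ), 0 ≤ t → S.Ext w t →
      (∀ γ : ℝ → M, IntCurve n ρ γ 0 t → γ 0 = S.Ψ₀ w → γ t ∈ V) →
      ∀ τ ∈ Icc (0 : ℝ) δ, S.Ext w (t + τ) := by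
  obtain ⟨r', hr', δ, hδ, Φ, hsub, hΦd, hΦ⟩ := local_flow hρ x
  set B := (ch n x).source ∩ ⇑(ch n x) ⁻¹' Metric.ball (ch n x x) r'
  have hB : IsOpen B := (ch n x).isOpen_inter_preimage Metric.isOpen_ball
  refine ⟨B, hB.mem_nhds ⟨mem_chart_source _ x, Metric.mem_ball_self hr'⟩, δ, hδ,
    fun w t ht hE hV τ hτ => ?_⟩
  obtain ⟨U, hU, hwU, hUb, F, hF⟩ := hE
  have hwB : F w ∈ B := by
    obtain ⟨γ, hγ, h0, ht'⟩ := (hF w hwU).2
    exact ht' ▸ hV γ hγ h0
  have hτ' : τ ∈ Icc (-δ) δ := ⟨by linarith [hτ.1], hτ.2⟩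
  have hev : ∀ᶠ u in 𝓝 w, u ∈ U ∧ F u ∈ B :=
    (Eventually.and (hU.mem_nhds hwU) ((hF w hwU).1.1 (hB.mem_nhds hwB)))
  obtain ⟨U', hU', hU'o, hwU'⟩ := mem_nhds_iff.1 hev
  refine ⟨U', hU'o, hwU', fun u hu => hUb (hU' hu).1,
    fun u => (ch n x).symm (Φ τ (ch n x (F u))), fun u hu => ?_⟩
  obtain ⟨huU, huB⟩ := hU' hu
  obtain ⟨hI, γ, hγ, hγ0, hγt⟩ := hF u huU
  obtain ⟨hy1, hy2, hy3⟩ := hΦd τ hτ' _ huB.2
  refine ⟨?_, ?_⟩
  · have hd1 := hI.read_deriv huB.1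
    have hc : ContinuousAt (fun u => (ch n x).symm (Φ τ (ch n x (F u)))) u :=
      ContinuousAt.comp (g := (ch n x).symm) (f := fun u => Φ τ (ch n x (F u)))
        ((ch n x).continuousAt_symm hy1)
        (ContinuousAt.comp (g := Φ τ) (f := fun q => ch n x (F q)) hy2.continuousAt
          hd1.1.continuousAt)
    have hev2 : (fun q => ch n x ((ch n x).symm (Φ τ (ch n x (F q))))) =ᶠ[𝓝 u]
        Φ τ ∘ fun q => ch n x (F q) := by
      filter_upwards [(ContinuousAt.comp (g := Φ τ) (f := fun q => ch n x (F q)) hy2.continuousAt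
        hd1.1.continuousAt) ((ch n x).open_target.mem_nhds hy1)] with q hq
      simp only [Function.comp_apply]
      exact (ch n x).right_inv hq
    have hd := (hy2.hasFDerivAt.comp u hd1.1).congr_of_eventuallyEq hev2
    refine Imm.of_read hc ((ch n x).map_target hy1) hd.differentiableAt ?_
    rw [hd.fderiv, ← hd1.1.fderiv]
    exact hy3.comp hd1.2
  · obtain ⟨hΦ0, hcur⟩ := hΦ _ huB.2
    obtain ⟨η, h1, h2, h3⟩ := IntCurve.glue_shift ht hγ hcur hτ (by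
      show γ t = (ch n x).symm (Φ 0 (ch n x (F u)))
      rw [hΦ0, hγt, (ch n x).left_inv huB.1])
    exact ⟨η, h1, h2.trans hγ0, h3⟩

/-- The points reached from the ball by the flow. -/
def Start.Dom (z : Cn n) : Prop :=
  ∃ N : ℝ, 0 ≤ N ∧ S.Ext (rot k ((-N : ℝ) : ℂ) z) N

open Classical in
/-- The extension. -/
def Start.map (z : Cn n) : M :=
  if h : S.Dom z then (h.choose_spec.2.choose_spec.2.2.2.choose) (rot k ((-h.choose : ℝ) : ℂ) z)
  else o

theorem Start.curve_eq [T2Space M] (hρ : CircleSymmetry G ρ) {z : Cn n} {N N' : ℝ} (hN : 0 ≤ N)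
    (hNN : N ≤ N') (hz : ‖rot k ((-N : ℝ) : ℂ) z‖ < S.r) {γ γ' : ℝ → M}
    (h : IntCurve n ρ γ 0 N) (h0 : γ 0 = S.Ψ₀ (rot k ((-N : ℝ) : ℂ) z))
    (h' : IntCurve n ρ γ' 0 N') (h0' : γ' 0 = S.Ψ₀ (rot k ((-N' : ℝ) : ℂ) z)) :
    γ N = γ' N' := by
  set d := N' - N
  set u' := rot k ((-N' : ℝ) : ℂ) z
  have e : rot k (d : ℂ) u' = rot k ((-N : ℝ) : ℂ) z := by
    rw [← rot_add]; congr 1; push_cast [d]; ring
  have hd : 0 ≤ d := sub_nonneg.2 hNN
  have h1 := IntCurve.unique hρ (h'.mono (c := 0) (d := d) le_rfl (by linarith [hN]))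
    (S.ball_orbit hρ (a := 0) (b := d) (z := u') (by rw [e]; exact hz)) (left_mem_Icc.2 hd)
    (by simp [h0', u', rot_zero]) (right_mem_Icc.2 hd)
  simp only [e] at h1
  have h2 := IntCurve.unique hρ h ((h'.shift d).mono (c := 0) (d := N) (by linarith) (by linarith))
    (left_mem_Icc.2 hN) (by simp [h0, h1]) (right_mem_Icc.2 hN)
  simpa [d] using h2

theorem Start.spec [T2Space M] (hρ : CircleSymmetry G ρ) {z : Cn n} (hz : S.Dom z) {N : ℝ}
    (hN : 0 ≤ N) (hb : ‖rot k ((-N : ℝ) : ℂ) z‖ < S.r) {γ : ℝ → M} (h : IntCurve n ρ γ 0 N)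
    (h0 : γ 0 = S.Ψ₀ (rot k ((-N : ℝ) : ℂ) z)) : S.map z = γ N := by
  classical
  have hN' := hz.choose_spec.1
  have hE := hz.choose_spec.2.choose_spec
  obtain ⟨γ', h', h0', he⟩ := (hE.2.2.2.choose_spec _ hE.2.1).2
  have hb' := mem_ball_zero_iff.1 (hE.2.2.1 hE.2.1)
  rw [Start.map, dif_pos hz, ← he]
  rcases le_total hz.choose N with hle | hle
  · exact S.curve_eq hρ hN' hle hb' h' h0' h h0
  · exact (S.curve_eq hρ hN hle hb h h0 h' h0').symm

theorem Start.local_form [T2Space M] (hρ : CircleSymmetry G ρ) {z : Cn n} {N : ℝ} (hN : 0 ≤ N)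
    (hE : S.Ext (rot k ((-N : ℝ) : ℂ) z) N) :
    (∀ᶠ q in 𝓝 z, S.Dom q) ∧ Imm n S.map z := by
  obtain ⟨U, hU, hwU, hUb, F, hF⟩ := hE
  have hc : Continuous fun q => rot k ((-N : ℝ) : ℂ) q := by
    rw [rot_eq]; exact (diag _).continuous
  have hev : ∀ᶠ q in 𝓝 z, rot k ((-N : ℝ) : ℂ) q ∈ U := hc.continuousAt (hU.mem_nhds hwU)
  have hD : ∀ᶠ q in 𝓝 z, S.Dom q := hev.mono fun q hq => ⟨N, hN, U, hU, hq, hUb, F, hF⟩
  refine ⟨hD, ((hF _ hwU).1.comp_rot (k := k) (τ := ((-N : ℝ) : ℂ))).congr ?_⟩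
  filter_upwards [hev, hD] with q hq hqD
  obtain ⟨γ, h1, h2, h3⟩ := (hF _ hq).2
  rw [S.spec hρ hqD hN (mem_ball_zero_iff.1 (hUb hq)) h1 h2, h3]

theorem Start.dom_open [T2Space M] (hρ : CircleSymmetry G ρ) : IsOpen {z | S.Dom z} :=
  isOpen_iff_mem_nhds.2 fun _ ⟨_, hN, hE⟩ => (S.local_form hρ hN hE).1

theorem Start.imm_map [T2Space M] (hρ : CircleSymmetry G ρ) {z : Cn n} (hz : S.Dom z) :
    Imm n S.map z :=
  (S.local_form hρ hz.choose_spec.1 hz.choose_spec.2).2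

theorem Start.ball_dom [T2Space M] (hρ : CircleSymmetry G ρ) {z : Cn n}
    (hz : z ∈ Metric.ball (0 : Cn n) S.r) : S.Dom z ∧ S.map z = S.Ψ₀ z := by
  have e : rot k ((-0 : ℝ) : ℂ) z = z := by simp [rot_zero]
  have hd : S.Dom z := ⟨0, le_rfl, by rw [e]; exact S.ext_zero hρ hz⟩
  refine ⟨hd, ?_⟩
  have := S.spec hρ hd le_rfl (by rw [e]; exact mem_ball_zero_iff.1 hz)
    (S.ball_orbit hρ (z := z) (a := 0) (b := 0) (by simpa [rot_zero] using mem_ball_zero_iff.1 hz))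
    (by simp [rot_zero])
  simpa [rot_zero] using this

theorem Start.equivariant [T2Space M] (hρ : CircleSymmetry G ρ) {z : Cn n} (hz : S.Dom z) (s : ℝ) :
    S.Dom (rot k ((s : ℂ) * I) z) ∧ S.map (rot k ((s : ℂ) * I) z) = ρ s (S.map z) := by
  obtain ⟨N, hN, U, hU, hwU, hUb, F, hF⟩ := hz
  set L : ℂ := (s : ℂ) * I
  have hinv : ∀ q, rot k L (rot k (-L) q) = q := fun q => by
    rw [← rot_add, add_neg_cancel, rot_zero]
  have hinv' : ∀ q, rot k (-L) (rot k L q) = q := fun q => by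
    rw [← rot_add, neg_add_cancel, rot_zero]
  have hswap : rot k ((-N : ℝ) : ℂ) (rot k L z) = rot k L (rot k ((-N : ℝ) : ℂ) z) := by
    rw [← rot_add, ← rot_add, add_comm]
  set U' := (fun q => rot k (-L) q) ⁻¹' U
  have hcL : Continuous fun q => rot k (-L) q := by rw [rot_eq]; exact (diag _).continuous
  have hU'b : U' ⊆ Metric.ball 0 S.r := fun q hq => by
    have := mem_ball_zero_iff.1 (hUb hq)
    rw [mem_ball_zero_iff, ← hinv q, norm_rot_imag]
    exact this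
  have hd : S.Dom (rot k L z) := by
    refine ⟨N, hN, U', hU.preimage hcL, ?_, hU'b, fun q => ρ s (F (rot k (-L) q)), fun q hq => ?_⟩
    · show rot k (-L) _ ∈ U
      rw [hswap, hinv']
      exact hwU
    · obtain ⟨hI, γ, h1, h2, h3⟩ := hF _ hq
      refine ⟨(hI.rho hρ s).comp_rot (F := fun q => ρ s (F q)) (τ := -L) (k := k), fun t => ρ s (γ t),
        h1.map hρ s, ?_, by show ρ s (γ N) = _; rw [h3]⟩
      show ρ s (γ 0) = _
      rw [h2, S.equiv _ (hUb hq) s, hinv]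
  refine ⟨hd, ?_⟩
  obtain ⟨-, γ, h1, h2, h3⟩ := hF _ hwU
  have hz' : S.Dom z := ⟨N, hN, U, hU, hwU, hUb, F, hF⟩
  have hb := mem_ball_zero_iff.1 (hUb hwU)
  rw [S.spec hρ hz' hN hb h1 h2, S.spec hρ hd hN (by rwa [hswap, norm_rot_imag]) (h1.map hρ s)
    (by rw [h2, S.equiv _ (hUb hwU) s, hswap])]

theorem Start.symmetry [T2Space M] (hρ : CircleSymmetry G ρ) :
    RealSymmetry {z | S.Dom z} (indMetric G S.map) (rot k) := by
  intro s z hz
  obtain ⟨hz', he⟩ := S.equivariant hρ hz s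
  refine ⟨hz', fun u => ?_⟩
  set L : ℂ := (s : ℂ) * I
  set x := S.map z
  set y := ρ s x
  have hx := mem_chart_source (Cn n) x
  have hy : S.map (rot k L z) ∈ (ch n y).source := by rw [he]; exact mem_chart_source _ y
  have hi := S.imm_map hρ hz
  have hi' := S.imm_map hρ hz'
  have hp := (ch n x).map_source hx
  have hy2 : ρ s ((ch n x).symm (ch n x x)) ∈ (ch n y).source := by
    rw [(ch n x).left_inv hx]; exact mem_chart_source _ y
  have hev : (fun q => ch n y (S.map q)) ∘ rot k L =ᶠ[𝓝 z]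
      act n ρ x y s ∘ fun q => ch n x (S.map q) := by
    filter_upwards [(S.dom_open hρ).mem_nhds hz, hi.1 ((ch n x).open_source.mem_nhds hx)] with q h1 h2
    simp [act, (ch n x).left_inv h2, (S.equivariant hρ h1 s).2, L]
  have hd1 := (hi'.read_deriv hy).1.differentiableAt.hasFDerivAt.comp z
    (show DifferentiableAt ℂ (rot k L) z by
      rw [rot_eq]; exact (diag _).differentiableAt).hasFDerivAt
  have hd2 := ((act_diff hρ hp hy2).hasFDerivAt.comp z hi.2.1.hasFDerivAt).congr_of_eventuallyEq hev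
  have e := congrArg (fun T : Cn n →L[ℂ] Cn n => T u) (hd1.unique hd2)
  simp only [ContinuousLinearMap.comp_apply] at e
  show sq (indMetric G S.map (rot k L z)) (fderiv ℂ (rot k L) z u) = sq (indMetric G S.map z) u
  rw [indMetric_eq hi' hy, sq_pullG, e, he, indMetric_eq hi hx, sq_pullG,
    ← act_isometry hρ hp hy2]
  simp [act, (ch n x).left_inv hx, x, y]

theorem Start.orbit_bound [T2Space M] (hG : IsKaehler G) (hK : PositiveBisect G)
    (hρ : CircleSymmetry G ρ) {w : Cn n} {b : ℝ} (hb : 0 < b)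
    (hdom : ∀ x < b, S.Dom (rot k (x : ℂ) w)) :
    ∃ K ≥ 0, ∀ t₁ t₂, 0 ≤ t₁ → t₁ ≤ t₂ → t₂ < b →
      gd G (S.map (rot k (t₁ : ℂ) w)) (S.map (rot k (t₂ : ℂ) w)) ≤ K * (t₂ - t₁) := by
  set D : Set (Cn n) := {z | S.Dom z}
  set H := indMetric G S.map
  have hD : IsOpen D := S.dom_open hρ
  obtain ⟨hL, hnn⟩ := indMetric_local (F := S.map) hG hD (fun z hz => S.imm_map hρ hz) hK
  have hH := hL.herm
  have hKn : BisectNonneg D H := hnn
  have hΦ := cflow_rot k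
  have hS := S.symmetry hρ
  set T := pull H (rot k) w
  obtain ⟨C, hC⟩ := sq_bound (T := T) (a := -1) (b := b) (by norm_num) hb
    (fun x hx => (continuousAt_pull hD hH hΦ (hdom x hx.2)).continuousWithinAt)
    (fun x hx => isPos_pull hH hΦ (hdom x hx.2))
    (fun x hx => testCond_pull hD hH hKn hΦ hS (hdom x hx.2))
  refine ⟨Real.sqrt (C * ‖eul k w‖ ^ 2), Real.sqrt_nonneg _, fun t₁ t₂ h1 h12 h2 => ?_⟩
  set θ : ℝ → ℝ := fun s => t₁ + (t₂ - t₁) * Real.smoothTransition s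
  have hθ : ContDiff ℝ 1 θ :=
    contDiff_const.add (contDiff_const.mul Real.smoothTransition.contDiff)
  have hθI : ∀ s, θ s ∈ Icc t₁ t₂ := fun s => by
    have a := Real.smoothTransition.nonneg s
    have b := Real.smoothTransition.le_one s
    constructor <;> simp only [θ] <;> nlinarith
  set c : ℝ → Cn n := fun s => rot k (θ s : ℂ) w
  have hcd : ∀ s, HasDerivAt c (deriv θ s • eul k (rot k (θ s : ℂ) w)) s := fun s =>
    (hasDerivAt_rot k w (θ s)).scomp s (hθ.differentiable one_ne_zero s).hasDerivAt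
  have hc : ContDiff ℝ 1 c := contDiff_one_iff_deriv.2 ⟨fun s => (hcd s).differentiableAt, by
    rw [show deriv c = fun s => deriv θ s • eul k (rot k (θ s : ℂ) w) from
      funext fun s => (hcd s).deriv]
    exact (hθ.continuous_deriv le_rfl).smul ((eul k).continuous.comp
      (continuous_iff_continuousAt.2 fun s => (hcd s).continuousAt))⟩
  have hcm : ∀ s, c s ∈ D := fun s => hdom _ ((hθI s).2.trans_lt h2)
  obtain ⟨hcur, hsp⟩ := curve_push G (F := S.map) hD (fun z hz => S.imm_map hρ hz) hc hcm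
  refine (gd_le hcur (by simp [c, θ]) (by simp [c, θ])).trans ?_
  have hn : ∀ s, 0 ≤ deriv θ s := fun s => Monotone.deriv_nonneg (fun a b hab => by
    simp only [θ]
    nlinarith [Real.smoothTransition.monotone hab])
  have hle : ∀ s, speed G (S.map ∘ c) s ≤ deriv θ s * Real.sqrt (C * ‖eul k w‖ ^ 2) := fun s => by
    rw [hsp, (hcd s).deriv, sqrt_sq_smul _ (hn s)]
    refine mul_le_mul_of_nonneg_left (Real.sqrt_le_sqrt ?_) (hn s)
    have e : sq (T (θ s)) (eul k w) = sq (H (c s)) (eul k (rot k (θ s : ℂ) w)) := by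
      refine (sq_pull H (rot k) w (θ s) (eul k w)).trans ?_
      rw [Vale.Agent.Results.P253.SymmetricDomains.CFlow.Dz, fderiv_rot, rot_eul]
      rfl
    rw [← e]
    exact hC _ ⟨h1.trans (hθI s).1, (hθI s).2.trans_lt h2⟩ _
  calc clen G (S.map ∘ c) ≤ ∫ s in (0 : ℝ)..1, deriv θ s * Real.sqrt (C * ‖eul k w‖ ^ 2) :=
        intervalIntegral.integral_mono_on zero_le_one
          ((speed_continuous hG hcur).intervalIntegrable _ _)
          (((hθ.continuous_deriv le_rfl).mul continuous_const).intervalIntegrable _ _)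
          fun s _ => hle s
    _ = _ := by
      rw [intervalIntegral.integral_mul_const, intervalIntegral.integral_deriv_eq_sub
        (fun s _ => hθ.differentiable one_ne_zero s)
        ((hθ.continuous_deriv le_rfl).intervalIntegrable _ _)]
      simp [θ]
      ring

theorem Start.ext_forever [T2Space M] [ConnectedSpace M] (hG : IsKaehler G)
    (hK : PositiveBisect G) (hC : Complete G) (hρ : CircleSymmetry G ρ) {w : Cn n}
    (hw : w ∈ Metric.ball 0 S.r) {t : ℝ} (ht : 0 ≤ t) : S.Ext w t := by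
  set T := {t : ℝ | 0 ≤ t ∧ ∀ s ∈ Icc (0 : ℝ) t, S.Ext w s}
  have h0 : (0 : ℝ) ∈ T := ⟨le_rfl, fun s hs => by
    rw [le_antisymm hs.2 hs.1]; exact S.ext_zero hρ hw⟩
  by_contra hno
  have hne : ∀ s ∈ T, s < t := fun s hs => not_le.1 fun h => hno (hs.2 t ⟨ht, h⟩)
  have hbdd : BddAbove T := ⟨t, fun s hs => (hne s hs).le⟩
  set b := sSup T
  have hgrow : ∀ s ∈ T, ∀ δ, 0 ≤ δ → (∀ τ ∈ Icc (0 : ℝ) δ, S.Ext w (s + τ)) → s + δ ≤ b :=
    fun s hs δ hδ h => le_csSup hbdd ⟨by linarith [hs.1], fun u hu => by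
      rcases le_total u s with h' | h'
      · exact hs.2 u ⟨hu.1, h'⟩
      · simpa using h (u - s) ⟨sub_nonneg.2 h', by linarith [hu.2]⟩⟩
  have hb : 0 < b := by
    obtain ⟨V, hV, δ, hδ, hstep⟩ := S.step hρ (S.Ψ₀ w)
    have := hgrow 0 h0 δ hδ.le (hstep w 0 le_rfl (S.ext_zero hρ hw)
      fun γ _ hγ => hγ ▸ mem_of_mem_nhds hV)
    linarith
  have hdom : ∀ x < b, S.Dom (rot k (x : ℂ) w) := fun x hx => by
    rcases le_total x 0 with h | h
    · exact (S.ball_dom hρ (mem_ball_zero_iff.2 ((norm_rot_mono k h w).trans_lt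
        (by simpa [rot_zero] using mem_ball_zero_iff.1 hw)))).1
    · obtain ⟨s, hs, hxs⟩ := exists_lt_of_lt_csSup ⟨0, h0⟩ hx
      refine ⟨x, h, ?_⟩
      rw [← rot_add]
      simpa [rot_zero] using hs.2 x ⟨h, hxs.le⟩
  have hval : ∀ x, 0 ≤ x → x < b → ∀ γ : ℝ → M, IntCurve n ρ γ 0 x → γ 0 = S.Ψ₀ w →
      γ x = S.map (rot k (x : ℂ) w) := fun x hx hxb γ hγ hγ0 => by
    have e : rot k ((-x : ℝ) : ℂ) (rot k (x : ℂ) w) = w := by
      rw [← rot_add]; simp [rot_zero]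
    exact (S.spec hρ (hdom x hxb) hx (by rw [e]; exact mem_ball_zero_iff.1 hw) hγ
      (by rw [e]; exact hγ0)).symm
  obtain ⟨K, hK0, hKb⟩ := S.orbit_bound hG hK hρ hb hdom
  set u : ℕ → ℝ := fun j => b - b / ((j : ℝ) + 2)
  have hu : ∀ j, 0 ≤ u j ∧ u j < b := fun j => by
    have : (1 : ℝ) ≤ (j : ℝ) + 2 := by linarith [Nat.cast_nonneg (α := ℝ) j]
    exact ⟨sub_nonneg.2 (div_le_self hb.le this), sub_lt_self b (by positivity)⟩
  have hut : Tendsto u atTop (𝓝 b) := by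
    have := (tendsto_const_nhds (x := b)).div_atTop
      (tendsto_atTop_add_const_right atTop (2 : ℝ) tendsto_natCast_atTop_atTop)
    simpa [u] using this.const_sub b
  obtain ⟨q, hq⟩ := hC (fun j => S.map (rot k (u j : ℂ) w)) fun ε hε => by
    obtain ⟨N, hN⟩ := Metric.cauchySeq_iff.1 hut.cauchySeq (ε / (K + 1)) (by positivity)
    refine ⟨N, fun i j hi hj => within_of_lt hG ?_⟩
    have hd := hN i hi j hj
    rw [Real.dist_eq, lt_div_iff₀ (by positivity)] at hd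
    rcases le_total (u i) (u j) with h | h
    · have := hKb _ _ (hu i).1 h (hu j).2
      rw [abs_of_nonpos (by linarith)] at hd
      nlinarith
    · have := hKb _ _ (hu j).1 h (hu i).2
      rw [abs_of_nonneg (by linarith)] at hd
      rw [gd_comm hG]
      nlinarith
  obtain ⟨V, hV, δ, hδ, hstep⟩ := S.step hρ q
  obtain ⟨j, hj1, hj2⟩ := ((hq.eventually hV).and
    (hut.eventually (lt_mem_nhds (show b - δ < b by linarith)))).exists
  have hjT : u j ∈ T := by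
    obtain ⟨s, hs, hus⟩ := exists_lt_of_lt_csSup ⟨0, h0⟩ (hu j).2
    exact ⟨(hu j).1, fun v hv => hs.2 v ⟨hv.1, hv.2.trans hus.le⟩⟩
  have := hgrow _ hjT δ hδ.le (hstep w (u j) (hu j).1 (hjT.2 _ ⟨(hu j).1, le_rfl⟩)
    fun γ hγ hγ0 => (hval _ (hu j).1 (hu j).2 γ hγ hγ0) ▸ hj1)
  linarith

/-- The linearisation extends to an injective immersion of all of `ℂ^n`, with open image. -/
theorem Start.extend [T2Space M] [ConnectedSpace M] (hG : IsKaehler G) (hK : PositiveBisect G)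
    (hC : Complete G) (hρ : CircleSymmetry G ρ) :
    (∀ z, Imm n S.map z) ∧ Function.Injective S.map ∧ S.map 0 = o ∧
      (∀ z (s : ℝ), ρ s (S.map z) = S.map (rot k ((s : ℂ) * I) z)) ∧ IsOpen (range S.map) := by
  have hall : ∀ z, S.Dom z := fun z => by
    obtain ⟨N, hN, hb⟩ := (eventually_small S.k_pos z S.r_pos).exists
    exact ⟨N, hN, S.ext_forever hG hK hC hρ (mem_ball_zero_iff.2 hb) hN⟩
  have himm : ∀ z, Imm n S.map z := fun z => S.imm_map hρ (hall z)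
  refine ⟨himm, fun z z' h => ?_, ?_, fun z s => (S.equivariant hρ (hall z) s).2.symm, ?_⟩
  · obtain ⟨N, ⟨hN, hb⟩, -, hb'⟩ :=
      ((eventually_small S.k_pos z S.r_pos).and (eventually_small S.k_pos z' S.r_pos)).exists
    obtain ⟨U, -, hwU, hUb, F, hF⟩ := S.ext_forever hG hK hC hρ (mem_ball_zero_iff.2 hb) hN
    obtain ⟨-, γ, h1, h2, -⟩ := hF _ hwU
    obtain ⟨U', -, hwU', hUb', F', hF'⟩ := S.ext_forever hG hK hC hρ (mem_ball_zero_iff.2 hb') hN
    obtain ⟨-, γ', h1', h2', -⟩ := hF' _ hwU'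
    have e := IntCurve.unique hρ h1 h1' (right_mem_Icc.2 hN)
      (by rw [← S.spec hρ (hall z) hN hb h1 h2, h, S.spec hρ (hall z') hN hb' h1' h2'])
      (left_mem_Icc.2 hN)
    rw [h2, h2'] at e
    have e' := congrArg (rot k (N : ℂ))
      (S.inj (mem_ball_zero_iff.2 hb) (mem_ball_zero_iff.2 hb') e)
    rw [← rot_add, ← rot_add] at e'
    simpa [rot_zero] using e'
  · rw [(S.ball_dom hρ (Metric.mem_ball_self S.r_pos)).2, S.zero]
  · rw [isOpen_iff_mem_nhds]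
    rintro _ ⟨z, rfl⟩
    set x := S.map z
    have hx := mem_chart_source (Cn n) x
    set f : Cn n → Cn n := fun w => ch n x (S.map w)
    have hev : ∀ᶠ w in 𝓝 z, S.map w ∈ (ch n x).source :=
      (himm z).1 ((ch n x).open_source.mem_nhds hx)
    obtain ⟨V, hVs, hV, hzV⟩ := mem_nhds_iff.1 hev
    have hf : DifferentiableOn ℂ f V := fun w hw =>
      ((himm w).read_diff (hVs hw)).differentiableWithinAt
    have hst := ((contDiffOn_holo hV hf).contDiffAt (hV.mem_nhds hzV)).hasStrictFDerivAt (by simp)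
    set E := (LinearEquiv.ofInjectiveEndo (fderiv ℂ f z : Cn n →ₗ[ℂ] Cn n)
      (himm z).2.2).toContinuousLinearEquiv
    have hm := HasStrictFDerivAt.map_nhds_eq_of_equiv (f' := E)
      (hst.congr_fderiv (ContinuousLinearMap.ext fun v => rfl))
    have h1 : (f '' V) ∈ 𝓝 (f z) := hm ▸ image_mem_map (hV.mem_nhds hzV)
    have h2 : ∀ᶠ q in 𝓝 x, q ∈ (ch n x).source ∧ ch n x q ∈ f '' V :=
      Eventually.and ((ch n x).open_source.mem_nhds hx) (((ch n x).continuousAt hx) h1)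
    filter_upwards [h2] with q hq
    obtain ⟨w, hw, e⟩ := hq.2
    exact ⟨w, (ch n x).injOn (hVs hw) hq.1 e⟩

end Vale.Agent.P253.Circle
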