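import Vale.Agent.P253.Circle.Action

/-!
P253: the holomorphic local flow of the turned generator, by Euler's polygons.
-/

open scoped Manifold ContDiff Topology NNReal
open Complex Set Filter

noncomputable section

namespace Vale.Agent.P253.Circle

variable {n : ℕ}

/-- One step of Euler's polygon. -/
def eulerStep (X : Cn n → Cn n) (h : ℂ) (y : Cn n) : Cn n := y + h • X y

theorem euler_step_bound {X : Cn n → Cn n} {p y : Cn n} {ρ C : ℝ} {h : ℂ} (hC : 0 ≤ C)
    (hX : ∀ z ∈ Metric.closedBall p ρ, ‖X z‖ ≤ C) :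
    ∀ k : ℕ, ‖y - p‖ + k * (‖h‖ * C) ≤ ρ → ‖(eulerStep X h)^[k] y - y‖ ≤ k * (‖h‖ * C) := by
  intro k
  induction k with
  | zero => simp
  | succ k ih =>
    intro hk
    push_cast at hk
    have hhC : 0 ≤ ‖h‖ * C := by positivity
    have ih' := ih (by linarith)
    set z := (eulerStep X h)^[k] y
    rw [Function.iterate_succ_apply']
    have hz : z ∈ Metric.closedBall p ρ := by
      rw [mem_closedBall_iff_norm]
      linarith [norm_sub_le_norm_sub_add_norm_sub z y p]
    show ‖z + h • X z - y‖ ≤ _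
    rw [add_sub_right_comm]
    refine (norm_add_le _ _).trans ?_
    rw [norm_smul]
    push_cast
    linarith [mul_le_mul_of_nonneg_left (hX z hz) (norm_nonneg h)]

theorem euler_error {X : Cn n → Cn n} {p y : Cn n} {ρ C L : ℝ} (hC : 0 ≤ C) (hL : 0 ≤ L)
    (hX : ∀ z ∈ Metric.closedBall p ρ, ‖X z‖ ≤ C)
    (hLip : ∀ z ∈ Metric.closedBall p ρ, ∀ w ∈ Metric.closedBall p ρ, ‖X z - X w‖ ≤ L * ‖z - w‖)
    {δ : ℝ} {c : ℝ → Cn n} (hc0 : c 0 = y) (hcm : ∀ s ∈ Icc (-δ) δ, c s ∈ Metric.closedBall p ρ)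
    (hcd : ∀ s ∈ Icc (-δ) δ, HasDerivWithinAt c (X (c s)) (Icc (-δ) δ) s)
    {t : ℝ} (ht : |t| ≤ δ) (hy : ‖y - p‖ + |t| * C ≤ ρ) {N : ℕ} (hN : 0 < N) :
    ‖c t - (eulerStep X ((t / N : ℝ) : ℂ))^[N] y‖ ≤ L * C * δ ^ 2 * Real.exp (L * δ) / N := by
  set h : ℝ := t / N
  have hN' : (0 : ℝ) < N := by exact_mod_cast hN
  have hd : 0 ≤ δ := (abs_nonneg t).trans ht
  have hNh : (N : ℝ) * |h| = |t| := by
    simp only [h, abs_div, abs_of_pos hN']
    field_simp
  have hmem : ∀ k : ℕ, k ≤ N → (k : ℝ) * h ∈ Icc (-δ) δ := fun k hk => by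
    refine abs_le.1 ?_
    rw [abs_mul, Nat.abs_cast]
    exact le_trans (mul_le_mul_of_nonneg_right (by exact_mod_cast hk) (abs_nonneg h)) (hNh.le.trans ht)
  have hnh : ‖((h : ℝ) : ℂ)‖ = |h| := by rw [Complex.norm_real, Real.norm_eq_abs]
  have hcl : ∀ a ∈ Icc (-δ) δ, ∀ b ∈ Icc (-δ) δ, ‖c b - c a‖ ≤ C * |b - a| := fun a ha b hb => by
    have h1 := (convex_Icc (-δ) δ).norm_image_sub_le_of_norm_hasDerivWithin_le hcd
      (fun s hs => hX _ (hcm s hs)) ha hb
    simpa [Real.norm_eq_abs] using h1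
  have hind : ∀ k : ℕ, k ≤ N → ‖c ((k : ℝ) * h) - (eulerStep X (h : ℂ))^[k] y‖ ≤
      k * (L * C * h ^ 2) * (1 + L * |h|) ^ k := by
    intro k
    induction k with
    | zero => simp [hc0]
    | succ k ih =>
      intro hk
      have ih' := ih (Nat.le_of_succ_le hk)
      set z := (eulerStep X (h : ℂ))^[k] y
      set a := (k : ℝ) * h
      have ha : a ∈ Icc (-δ) δ := hmem k (Nat.le_of_succ_le hk)
      have hb : a + h ∈ Icc (-δ) δ := by
        have := hmem (k + 1) hk
        push_cast at this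
        rwa [add_mul, one_mul] at this
      have hz : z ∈ Metric.closedBall p ρ := by
        rw [mem_closedBall_iff_norm]
        have h1 := euler_step_bound (h := (h : ℂ)) (y := y) hC hX k (by
          rw [hnh]
          nlinarith [show ((k : ℝ)) * |h| ≤ |t| from hNh ▸
            mul_le_mul_of_nonneg_right (by exact_mod_cast Nat.le_of_succ_le hk) (abs_nonneg h)])
        rw [hnh] at h1
        have h2 : (k : ℝ) * |h| ≤ |t| := hNh ▸
          mul_le_mul_of_nonneg_right (by exact_mod_cast Nat.le_of_succ_le hk) (abs_nonneg h)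
        nlinarith [norm_sub_le_norm_sub_add_norm_sub z y p]
      have hseg : uIcc a (a + h) ⊆ Icc (-δ) δ := ordConnected_Icc.uIcc_subset ha hb
      have hloc : ‖c (a + h) - c a - h • X (c a)‖ ≤ L * C * h ^ 2 := by
        have := (convex_uIcc a (a + h)).norm_image_sub_le_of_norm_hasDerivWithin_le
          (f := fun s => c s - s • X (c a)) (f' := fun s => X (c s) - (1 : ℝ) • X (c a))
          (C := L * (C * |h|))
          (fun s hs => ((hcd s (hseg hs)).mono hseg).sub
            ((hasDerivWithinAt_id s _).smul_const (X (c a))))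
          (fun s hs => by
            rw [one_smul]
            refine (hLip _ (hcm s (hseg hs)) _ (hcm a ha)).trans (mul_le_mul_of_nonneg_left ?_ hL)
            refine (hcl a ha s (hseg hs)).trans (mul_le_mul_of_nonneg_left ?_ hC)
            simpa using abs_sub_left_of_mem_uIcc hs)
          left_mem_uIcc right_mem_uIcc
        rw [Real.norm_eq_abs, add_sub_cancel_left] at this
        calc ‖c (a + h) - c a - h • X (c a)‖
            = ‖c (a + h) - (a + h) • X (c a) - (c a - a • X (c a))‖ := by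
              congr 1; rw [add_smul]; abel
          _ ≤ L * (C * |h|) * |h| := this
          _ = L * C * h ^ 2 := by rw [← sq_abs h]; ring
      rw [show (((k + 1 : ℕ) : ℝ) * h) = a + h by simp [a, add_mul],
        Function.iterate_succ_apply']
      show ‖c (a + h) - (z + (h : ℂ) • X z)‖ ≤ _
      rw [Complex.coe_smul]
      have e : c (a + h) - (z + h • X z) =
          (c (a + h) - c a - h • X (c a)) + (c a - z) + h • (X (c a) - X z) := by
        rw [smul_sub]; abel
      rw [e]
      refine (norm_add₃_le).trans ?_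
      rw [norm_smul, Real.norm_eq_abs]
      have h3 := mul_le_mul_of_nonneg_left (hLip _ (hcm a ha) _ hz) (abs_nonneg h)
      set q := 1 + L * |h|
      have hq : 1 ≤ q := le_add_of_nonneg_right (by positivity)
      have hA : 0 ≤ L * C * h ^ 2 := by positivity
      calc ‖c (a + h) - c a - h • X (c a)‖ + ‖c a - z‖ + |h| * ‖X (c a) - X z‖
          ≤ L * C * h ^ 2 + q * ((k : ℝ) * (L * C * h ^ 2) * q ^ k) := by
            have := mul_le_mul_of_nonneg_left ih' (zero_le_one.trans hq)
            simp only [q] at this ⊢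
            nlinarith [norm_nonneg (c a - z)]
        _ ≤ (L * C * h ^ 2) * q ^ (k + 1) + q * ((k : ℝ) * (L * C * h ^ 2) * q ^ k) :=
            add_le_add (le_mul_of_one_le_right hA (one_le_pow₀ hq)) le_rfl
        _ = _ := by push_cast; ring
  have hfin := hind N le_rfl
  rw [show (N : ℝ) * h = t by simp only [h]; field_simp] at hfin
  refine hfin.trans ?_
  have hexp : (1 + L * |h|) ^ N ≤ Real.exp (L * δ) := by
    refine (pow_le_pow_left₀ (by positivity) (show 1 + L * |h| ≤ Real.exp (L * |h|) by linarith [Real.add_one_le_exp (L * |h|)]) N).trans ?_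
    rw [← Real.exp_nat_mul]
    refine Real.exp_le_exp.2 ?_
    calc (N : ℝ) * (L * |h|) = L * |t| := by rw [← hNh]; ring
      _ ≤ _ := mul_le_mul_of_nonneg_left ht hL
  have e : (N : ℝ) * (L * C * h ^ 2) = L * C * |t| ^ 2 / N := by
    simp only [h, sq_abs]
    field_simp
  rw [e]
  calc L * C * |t| ^ 2 / N * (1 + L * |h|) ^ N ≤ L * C * δ ^ 2 / N * Real.exp (L * δ) :=
        mul_le_mul (by gcongr) hexp (by positivity) (by positivity)
    _ = _ := by ring

/-- The holomorphic local flow of a holomorphic vector field. -/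
theorem euler_flow {X : Cn n → Cn n} {D : Set (Cn n)} (hD : IsOpen D)
    (hX : DifferentiableOn ℂ X D) {p : Cn n} (hp : p ∈ D) :
    ∃ r > 0, ∃ δ > 0, ∃ Φ : ℝ → Cn n → Cn n,
      (∀ t ∈ Icc (-δ) δ, DifferentiableOn ℂ (Φ t) (Metric.ball p (2 * r))) ∧
      (∀ t ∈ Icc (-δ) δ, ∀ y ∈ Metric.ball p r, Φ t y ∈ Metric.ball p (2 * r)) ∧
      ∀ y ∈ Metric.ball p (2 * r), Φ 0 y = y ∧ ∀ t ∈ Icc (-δ) δ,
        Φ t y ∈ D ∧ HasDerivWithinAt (fun s => Φ s y) (X (Φ t y)) (Icc (-δ) δ) t := by
  obtain ⟨ρ, hρ, hsub⟩ := Metric.nhds_basis_closedBall.mem_iff.1 (hD.mem_nhds hp)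
  obtain ⟨C, hC⟩ := (isCompact_closedBall p ρ).exists_bound_of_continuousOn
    (hX.continuousOn.mono hsub)
  have hXs : ContDiffOn ℂ ∞ X D := contDiffOn_holo hD hX
  obtain ⟨L, hLb⟩ := (isCompact_closedBall p ρ).exists_bound_of_continuousOn
    ((hXs.continuousOn_fderiv_of_isOpen hD (by simp)).mono hsub)
  have hL0 : 0 ≤ L := (norm_nonneg _).trans (hLb p (Metric.mem_closedBall_self hρ.le))
  have hC0 : 0 ≤ C := (norm_nonneg _).trans (hC p (Metric.mem_closedBall_self hρ.le))
  have hLip : ∀ z ∈ Metric.closedBall p ρ, ∀ w ∈ Metric.closedBall p ρ,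
      ‖X z - X w‖ ≤ L * ‖z - w‖ := fun z hz w hw =>
    (convex_closedBall p ρ).norm_image_sub_le_of_norm_fderiv_le (𝕜 := ℂ)
      (fun q hq => hX.differentiableAt (hD.mem_nhds (hsub hq))) hLb hw hz
  set δ := ρ / (16 * (C + 1))
  have hδ : 0 < δ := by positivity
  have hδC : δ * C ≤ ρ / 16 := by
    simp only [δ]
    rw [div_mul_eq_mul_div, div_le_div_iff₀ (by positivity) (by norm_num)]
    nlinarith
  set a : ℝ≥0 := ⟨ρ / 16, by positivity⟩
  have ha : (a : ℝ) = ρ / 16 := rfl
  have hsol : ∀ y : Cn n, ∃ c : ℝ → Cn n, y ∈ Metric.ball p (ρ / 2) → c 0 = y ∧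
      ∀ t ∈ Icc (-δ) δ, HasDerivWithinAt c (X (c t)) (Icc (-δ) δ) t ∧
        c t ∈ Metric.closedBall y (ρ / 16) := by
    intro y
    by_cases hy : y ∈ Metric.ball p (ρ / 2)
    swap
    · exact ⟨fun _ => y, fun h => absurd h hy⟩
    have hsuby : Metric.closedBall y (ρ / 16) ⊆ Metric.closedBall p ρ :=
      Metric.closedBall_subset_closedBall' (by linarith [Metric.mem_ball.1 hy])
    have hpl : IsPicardLindelof (fun _ u => X u) (tmin := -δ) (tmax := δ)
        ⟨0, by constructor <;> linarith⟩ y a 0 C.toNNReal L.toNNReal := by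
      refine ⟨fun t _ => LipschitzOnWith.of_dist_le_mul fun z hz w hw => ?_,
        fun u _ => continuousOn_const, fun t _ u hu => ?_, ?_⟩
      · rw [dist_eq_norm, dist_eq_norm, Real.coe_toNNReal _ hL0]
        exact hLip z (hsuby hz) w (hsuby hw)
      · rw [Real.coe_toNNReal _ hC0]
        exact hC u (hsuby hu)
      · simp only [sub_zero, zero_sub, neg_neg, max_self, NNReal.coe_zero,
          Real.coe_toNNReal _ hC0, ha]
        linarith
    obtain ⟨c, hc0, hc⟩ := hpl.exists_eq_forall_mem_Icc_hasDerivWithinAt₀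
    refine ⟨c, fun _ => ⟨hc0, ?_⟩⟩
    have hstay : ∀ t ∈ Icc (-δ) δ, c t ∈ Metric.closedBall y (ρ / 16) := by
      by_contra h
      push Not at h
      obtain ⟨t, ht, htout⟩ := h
      rw [mem_closedBall_iff_norm, not_le] at htout
      -- first time of leaving
      set S := {s | s ∈ Icc (-δ) δ ∧ ρ / 16 ≤ ‖c s - y‖}
      have hcc : ContinuousOn c (Icc (-δ) δ) := fun s hs => (hc s hs).continuousWithinAt
      have hSc : IsCompact S := isCompact_Icc.of_isClosed_subset
        ((hcc.sub continuousOn_const).norm.preimage_isClosed_of_isClosed isClosed_Icc isClosed_Ici)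
        fun s hs => hs.1
      obtain ⟨τ, hτ, hmin⟩ := hSc.exists_isMinOn ⟨t, ht, htout.le⟩
        (f := fun s : ℝ => |s|) continuous_abs.continuousOn
      have hin : ∀ s ∈ Icc (-δ) δ, |s| < |τ| → c s ∈ Metric.closedBall y (ρ / 16) := fun s hs hlt => by
        by_contra hs'
        rw [mem_closedBall_iff_norm, not_le] at hs'
        exact absurd (hmin ⟨hs, hs'.le⟩) (not_le.2 hlt)
      have hseg : uIcc 0 τ ⊆ Icc (-δ) δ :=
        ordConnected_Icc.uIcc_subset ⟨by linarith, hδ.le⟩ hτ.1
      have hclosure : ∀ s ∈ uIcc 0 τ, c s ∈ Metric.closedBall y (ρ / 16) := by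
        intro s hs
        have hs' : |s| ≤ |τ| := by simpa using abs_sub_left_of_mem_uIcc hs
        rcases hs'.lt_or_eq with hlt | heq
        · exact hin s (hseg hs) hlt
        · rcases eq_or_ne τ 0 with h0 | h0
          · have : s = 0 := by simpa [h0] using heq
            rw [this, hc0]
            exact Metric.mem_closedBall_self (by linarith)
          have hlim : Tendsto (fun m : ℕ => (1 - 1 / ((m : ℝ) + 1)) * s) atTop (𝓝[Icc (-δ) δ] s) := by
            refine tendsto_nhdsWithin_iff.2 ⟨?_, Eventually.of_forall fun m => ?_⟩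
            · simpa using ((tendsto_one_div_add_atTop_nhds_zero_nat (𝕜 := ℝ)).const_sub 1).mul_const s
            · have h1 : 0 ≤ 1 - 1 / ((m : ℝ) + 1) := sub_nonneg.2 ((div_le_one (by positivity)).2 (by simp))
              refine abs_le.1 (le_trans ?_ (abs_le.2 (hseg hs)))
              rw [abs_mul, abs_of_nonneg h1]
              exact mul_le_of_le_one_left (abs_nonneg _) (sub_le_self _ (by positivity))
          refine Metric.isClosed_closedBall.mem_of_tendsto ((hcc s (hseg hs)).tendsto.comp hlim)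
            (Eventually.of_forall fun m => ?_)
          have h1 : 0 ≤ 1 - 1 / ((m : ℝ) + 1) := sub_nonneg.2 ((div_le_one (by positivity)).2 (by simp))
          have h2 : |(1 - 1 / ((m : ℝ) + 1)) * s| < |τ| := by
            rw [abs_mul, abs_of_nonneg h1, heq]
            exact mul_lt_of_lt_one_left (abs_pos.2 h0) (sub_lt_self _ (by positivity))
          exact hin _ (abs_le.1 ((h2.le).trans (abs_le.2 hτ.1))) h2
      have hb := (convex_uIcc (0 : ℝ) τ).norm_image_sub_le_of_norm_hasDerivWithin_le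
        (fun s hs => (hc s (hseg hs)).mono hseg)
        (fun s hs => hC _ (hsuby (hclosure s hs))) left_mem_uIcc right_mem_uIcc
      rw [hc0, sub_zero, Real.norm_eq_abs] at hb
      have h3 : C * |τ| ≤ C * δ := mul_le_mul_of_nonneg_left (abs_le.2 hτ.1) hC0
      have h4 : δ * C < ρ / 16 := by
        simp only [δ]
        rw [div_mul_eq_mul_div, div_lt_div_iff₀ (by positivity) (by norm_num)]
        nlinarith
      linarith [hτ.2]
    exact fun t ht => ⟨hc t ht, hstay t ht⟩
  choose c hc using hsol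
  refine ⟨ρ / 16, by positivity, δ, hδ, fun t y => c y t, fun t ht => ?_, fun t ht y hy => ?_,
    fun y hy => ?_⟩
  · have hN : ∀ N : ℕ, 0 < N → DifferentiableOn ℂ
        (fun y => (eulerStep X ((t / N : ℝ) : ℂ))^[N] y) (Metric.ball p (ρ / 2)) := by
      intro N hN y hy
      set h : ℂ := ((t / N : ℝ) : ℂ)
      have hstep : ∀ k ≤ N, DifferentiableAt ℂ (fun y => (eulerStep X h)^[k] y) y := by
        intro k
        induction k with
        | zero => intro _; exact differentiableAt_id
        | succ k ih =>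
          intro hk
          have hkk := ih (Nat.le_of_succ_le hk)
          have hNt : (N : ℝ) * ‖h‖ = |t| := by
            simp only [h, Complex.norm_real, Real.norm_eq_abs, abs_div, Nat.abs_cast]
            have : (0 : ℝ) < N := by exact_mod_cast hN
            field_simp
          have h2 : (k : ℝ) * (‖h‖ * C) ≤ ρ / 16 := by
            calc (k : ℝ) * (‖h‖ * C) ≤ (N : ℝ) * (‖h‖ * C) :=
                  mul_le_mul_of_nonneg_right (by exact_mod_cast Nat.le_of_succ_le hk) (by positivity)
              _ = |t| * C := by rw [← mul_assoc, hNt]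
              _ ≤ δ * C := mul_le_mul_of_nonneg_right (abs_le.2 ht) hC0
              _ ≤ _ := hδC
          have hy' := mem_ball_iff_norm.1 hy
          have h1 := euler_step_bound (h := h) (y := y) hC0 hC k (by linarith)
          have hz : (eulerStep X h)^[k] y ∈ D := hsub (by
            rw [mem_closedBall_iff_norm]
            linarith [norm_sub_le_norm_sub_add_norm_sub ((eulerStep X h)^[k] y) y p])
          simp only [Function.iterate_succ_apply']
          have hXd : DifferentiableAt ℂ X ((eulerStep X h)^[k] y) :=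
            hX.differentiableAt (hD.mem_nhds hz)
          exact hkk.add ((hXd.comp y hkk).const_smul h)
      exact (hstep N le_rfl).differentiableWithinAt
    have hu : TendstoUniformlyOn (fun N : ℕ => fun y => (eulerStep X ((t / N : ℝ) : ℂ))^[N] y)
        (fun y => c y t) atTop (Metric.ball p (2 * (ρ / 4))) := by
      rw [Metric.tendstoUniformlyOn_iff]
      intro ε hε
      have h0 : Tendsto (fun N : ℕ => L * C * δ ^ 2 * Real.exp (L * δ) / N) atTop (𝓝 0) :=
        tendsto_const_div_atTop_nhds_zero_nat _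
      filter_upwards [h0.eventually_lt_const hε, eventually_gt_atTop 0] with N hNε hN0 y hy
      have hy2 : y ∈ Metric.ball p (ρ / 2) := Metric.ball_subset_ball (by linarith) hy
      obtain ⟨hc0, hcd⟩ := hc y hy2
      have hyn := mem_ball_iff_norm.1 hy2
      rw [dist_eq_norm]
      refine lt_of_le_of_lt (euler_error hC0 hL0 hC hLip hc0 (fun s hs => ?_)
        (fun s hs => (hcd s hs).1) (abs_le.2 ht) ?_ hN0) hNε
      · exact Metric.closedBall_subset_closedBall' (by linarith [Metric.mem_ball.1 hy2]) (hcd s hs).2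
      · linarith [mul_le_mul_of_nonneg_right (abs_le.2 ht) hC0]
    have := holo_limit (r := ρ / 4) (by linarith)
      (eventually_atTop.2 ⟨1, fun N hN' => (hN N hN').mono (Metric.ball_subset_ball (by linarith))⟩) hu
    exact this.mono (Metric.ball_subset_ball (by linarith))
  · have h1 := ((hc y (Metric.ball_subset_ball (by linarith) hy)).2 t ht).2
    rw [Metric.mem_ball] at hy ⊢
    rw [Metric.mem_closedBall] at h1
    linarith [dist_triangle (c y t) y p]
  · have hy2 : y ∈ Metric.ball p (ρ / 2) := Metric.ball_subset_ball (by linarith) hy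
    obtain ⟨hc0, hcd⟩ := hc y hy2
    refine ⟨hc0, fun t ht => ⟨hsub ?_, (hcd t ht).1⟩⟩
    exact Metric.closedBall_subset_closedBall' (by linarith [Metric.mem_ball.1 hy2]) (hcd t ht).2

variable {M : Type} [TopologicalSpace M] [ChartedSpace (Cn n) M] [IsManifold 𝓘(ℂ, Cn n) ω M]
  {G : Metric (Cn n) M} {ρ : ℝ → M → M}

theorem IntCurve.of_chart (hρ : CircleSymmetry G ρ) (x : M) {c : ℝ → Cn n} {a b : ℝ}
    (hm : ∀ t ∈ Icc a b, c t ∈ (ch n x).target)
    (hd : ∀ t ∈ Icc a b, HasDerivWithinAt c (fld n ρ x (c t)) (Icc a b) t) :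
    IntCurve n ρ (fun t => (ch n x).symm (c t)) a b := by
  refine ⟨(ch n x).continuousOn_symm.comp (fun t ht => (hd t ht).continuousWithinAt) hm,
    fun t ht => ?_⟩
  set z := (ch n x).symm (c t)
  have hs : c t ∈ (tr n x z).source := tr_mem_center (hm t ht)
  have h1 := ((tr_deriv hs).restrictScalars ℝ).comp_hasDerivWithinAt t (hd t ht)
  have h2 := fld_change hρ (x := x) (y := z) ((ch n x).map_target (hm t ht)) (mem_chart_source _ z)
  rw [(ch n x).right_inv (hm t ht)] at h2
  rw [h2]
  exact h1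

theorem local_flow (hρ : CircleSymmetry G ρ) [T2Space M] (x : M) :
    ∃ r > 0, ∃ δ > 0, ∃ Φ : ℝ → Cn n → Cn n,
      Metric.ball (ch n x x) (2 * r) ⊆ (ch n x).target ∧
      (∀ t ∈ Icc (-δ) δ, ∀ y ∈ Metric.ball (ch n x x) r, Φ t y ∈ (ch n x).target ∧
        DifferentiableAt ℂ (Φ t) y ∧ Function.Injective (fderiv ℂ (Φ t) y)) ∧
      ∀ y ∈ Metric.ball (ch n x x) r, Φ 0 y = y ∧
        IntCurve n ρ (fun t => (ch n x).symm (Φ t y)) (-δ) δ := by
  obtain ⟨r, hr, δ, hδ, Φ, hdiff, hstay, hflow⟩ :=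
    euler_flow (ch n x).open_target (fld_holo hρ x) ((ch n x).map_source (mem_chart_source _ x))
  have hb : Metric.ball (ch n x x) r ⊆ Metric.ball (ch n x x) (2 * r) :=
    Metric.ball_subset_ball (by linarith)
  have h0δ : (0 : ℝ) ∈ Icc (-δ) δ := ⟨by linarith, hδ.le⟩
  have hcur : ∀ y ∈ Metric.ball (ch n x x) (2 * r),
      IntCurve n ρ (fun t => (ch n x).symm (Φ t y)) (-δ) δ := fun y hy =>
    IntCurve.of_chart hρ x (fun t ht => ((hflow y hy).2 t ht).1) fun t ht => ((hflow y hy).2 t ht).2
  refine ⟨r, hr, δ, hδ, Φ, fun y hy => (hflow y hy).1 ▸ ((hflow y hy).2 0 h0δ).1,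
    fun t ht y hy => ⟨((hflow y (hb hy)).2 t ht).1,
      (hdiff t ht).differentiableAt (Metric.isOpen_ball.mem_nhds (hb hy)), ?_⟩,
    fun y hy => ⟨(hflow y (hb hy)).1, hcur y (hb hy)⟩⟩
  have hnt : -t ∈ Icc (-δ) δ := ⟨by linarith [ht.2], by linarith [ht.1]⟩
  have hinv : ∀ q ∈ Metric.ball (ch n x x) r, Φ (-t) (Φ t q) = q := by
    intro q hq
    have hw := hstay t ht q hq
    have h1 := (hcur q (hb hq)).shift t
    set a := min 0 (-t)
    set b := max 0 (-t)
    have e := IntCurve.unique hρ (h1.mono (c := a) (d := b)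
        (le_min (by linarith [ht.1]) (by linarith)) (max_le (by linarith [ht.2]) (by linarith)))
      ((hcur _ hw).mono (c := a) (d := b) (le_min (by linarith) (by linarith [ht.2]))
        (max_le hδ.le (by linarith [ht.1])))
      (t₀ := 0) ⟨min_le_left _ _, le_max_left _ _⟩ (by simp [(hflow _ hw).1])
      (show -t ∈ Icc a b from ⟨min_le_right _ _, le_max_right _ _⟩)
    simp only [neg_add_cancel, (hflow q (hb hq)).1] at e
    have := congrArg (ch n x) e
    rwa [(ch n x).right_inv ((hflow q (hb hq)).1 ▸ ((hflow q (hb hq)).2 0 h0δ).1),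
      (ch n x).right_inv ((hflow _ hw).2 (-t) hnt).1, eq_comm] at this
  have hw := hstay t ht y hy
  have h1 := ((hdiff (-t) hnt).differentiableAt (Metric.isOpen_ball.mem_nhds hw)).hasFDerivAt.comp y
    ((hdiff t ht).differentiableAt (Metric.isOpen_ball.mem_nhds (hb hy))).hasFDerivAt
  have h2 : HasFDerivAt (Φ (-t) ∘ Φ t) (ContinuousLinearMap.id ℂ (Cn n)) y := by
    refine (hasFDerivAt_id y).congr_of_eventuallyEq ?_
    filter_upwards [Metric.isOpen_ball.mem_nhds hy] with q hq using hinv q hq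
  intro u v huv
  have e := congrArg (fderiv ℂ (Φ (-t)) (Φ t y)) huv
  rwa [← ContinuousLinearMap.comp_apply, ← ContinuousLinearMap.comp_apply, h1.unique h2] at e

end Vale.Agent.P253.Circle
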