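import Vale.Agent.P253.Circle.Levi
import Vale.Agent.P253.Circle.Holo

/-!
P253: pulling a Kaehler chart metric back by a holomorphic immersion: it stays Kaehler and its
bisectional curvature does not drop.
-/

open scoped ContDiff InnerProductSpace Topology
open Complex Set Filter

noncomputable section

namespace Vale.Agent.P253.Circle

open Vale.Agent.Results.P253.SymmetricDomains (IsPos dz bisect hasDerivAt_apply hasDerivAt_line)

variable {n : ℕ}

/-- The pulled back endomorphism field. -/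
def pullG (f : Cn n → Cn n) (G : Cn n → (Cn n →L[ℂ] Cn n)) (z : Cn n) : Cn n →L[ℂ] Cn n :=
  (ContinuousLinearMap.adjoint (fderiv ℂ f z)).comp ((G (f z)).comp (fderiv ℂ f z))

theorem inner_pullG (f : Cn n → Cn n) (G : Cn n → (Cn n →L[ℂ] Cn n)) (z a b : Cn n) :
    ⟪a, pullG f G z b⟫_ℂ = ⟪fderiv ℂ f z a, G (f z) (fderiv ℂ f z b)⟫_ℂ := by
  simp [pullG, ContinuousLinearMap.adjoint_inner_right]

theorem sq_pullG (f : Cn n → Cn n) (G : Cn n → (Cn n →L[ℂ] Cn n)) (z v : Cn n) :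
    sq (pullG f G z) v = sq (G (f z)) (fderiv ℂ f z v) := by
  simp [sq, Vale.Agent.Results.P253.SymmetricDomains.sq, inner_pullG]

section

variable {D U : Set (Cn n)} {G : Cn n → (Cn n →L[ℂ] Cn n)} {f : Cn n → Cn n}
  (hG : Local D G) (hU : IsOpen U) (hf : DifferentiableOn ℂ f U) (hfD : MapsTo f U D)

include hU hf in
theorem fderiv_smooth : ContDiffOn ℂ ∞ (fderiv ℂ f) U :=
  (contDiffOn_holo hU hf).fderiv_of_isOpen hU (by simp)

include hG hU hf hfD in
theorem pullG_smooth : ContDiffOn ℝ ∞ (pullG f G) U := by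
  have hD : ContDiffOn ℝ ∞ (fderiv ℂ f) U := (fderiv_smooth hU hf).restrict_scalars ℝ
  have hGf : ContDiffOn ℝ ∞ (fun z => G (f z)) U :=
    hG.smooth.comp ((contDiffOn_holo hU hf).restrict_scalars ℝ) hfD
  have hcomp : ∀ {A B : Cn n → (Cn n →L[ℂ] Cn n)}, ContDiffOn ℝ ∞ A U → ContDiffOn ℝ ∞ B U →
      ContDiffOn ℝ ∞ (fun z => (A z).comp (B z)) U := fun {A B} hA hB =>
    ((ContinuousLinearMap.compL ℂ (Cn n) (Cn n) (Cn n)).bilinearRestrictScalars ℝ).isBoundedBilinearMap.contDiff.comp_contDiffOn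
      (hA.prodMk hB)
  exact hcomp ((ContinuousLinearMap.adjoint (𝕜 := ℂ) (E := Cn n) (F := Cn n)).toLinearIsometry.toLinearMap.toAddMonoidHom.toRealLinearMap
    (LinearIsometryEquiv.continuous _) |>.contDiff.comp_contDiffOn hD) (hcomp hGf hD)

include hG hU hf hfD in
theorem pullG_deriv {z : Cn n} (hz : z ∈ U) (d a b : Cn n) :
    ⟪a, fderiv ℝ (pullG f G) z d b⟫_ℂ =
      ⟪fderiv ℂ (fderiv ℂ f) z d a, G (f z) (fderiv ℂ f z b)⟫_ℂ +
        ⟪fderiv ℂ f z a, fderiv ℝ G (f z) (fderiv ℂ f z d) (fderiv ℂ f z b)⟫_ℂ +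
        ⟪fderiv ℂ f z a, G (f z) (fderiv ℂ (fderiv ℂ f) z d b)⟫_ℂ := by
  have hl : HasDerivAt (fun t : ℝ => z + t • d) d 0 := by
    simpa using ((hasDerivAt_id (0 : ℝ)).smul_const d).const_add z
  have e0 : z + (0 : ℝ) • d = z := by simp
  have hP : HasDerivAt (fun t : ℝ => pullG f G (z + t • d)) (fderiv ℝ (pullG f G) z d) 0 :=
    (((pullG_smooth hG hU hf hfD).contDiffAt (hU.mem_nhds hz)).differentiableAt
      (by simp)).hasFDerivAt.comp_hasDerivAt_of_eq (0 : ℝ) hl e0.symm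
  have h1 := (hasDerivAt_const (0 : ℝ) a).inner ℂ (hasDerivAt_apply hP (hasDerivAt_const (0 : ℝ) b))
  have hD : HasDerivAt (fun t : ℝ => fderiv ℂ f (z + t • d)) (fderiv ℂ (fderiv ℂ f) z d) 0 :=
    ((((fderiv_smooth hU hf).contDiffAt (hU.mem_nhds hz)).differentiableAt
      (by simp)).hasFDerivAt.restrictScalars ℝ).comp_hasDerivAt_of_eq (0 : ℝ) hl e0.symm
  have hfd : HasDerivAt (fun t : ℝ => f (z + t • d)) (fderiv ℂ f z d) 0 :=
    ((hf.differentiableAt (hU.mem_nhds hz)).hasFDerivAt.restrictScalars ℝ).comp_hasDerivAt_of_eq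
      (0 : ℝ) hl e0.symm
  have hGd : HasDerivAt (fun t : ℝ => G (f (z + t • d))) (fderiv ℝ G (f z) (fderiv ℂ f z d)) 0 :=
    ((hG.smooth.contDiffAt (hG.isOpen.mem_nhds (hfD hz))).differentiableAt
      (by simp)).hasFDerivAt.comp_hasDerivAt_of_eq (0 : ℝ) hfd (by simp)
  have h2 := (hasDerivAt_apply hD (hasDerivAt_const (0 : ℝ) a)).inner ℂ
    (hasDerivAt_apply hGd (hasDerivAt_apply hD (hasDerivAt_const (0 : ℝ) b)))
  simp only [map_zero, add_zero, inner_zero_left, e0] at h1 h2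
  simp only [inner_pullG] at h1
  have := h1.unique h2
  rw [this, inner_add_right]
  ring

include hG hU hf hfD in
theorem pullG_dz {z : Cn n} (hz : z ∈ U) (u w : Cn n) :
    dz (pullG f G) z u w = ContinuousLinearMap.adjoint (fderiv ℂ f z)
      (dz G (f z) (fderiv ℂ f z u) (fderiv ℂ f z w) + G (f z) (fderiv ℂ (fderiv ℂ f) z u w)) := by
  refine ext_inner_left ℂ fun a => ?_
  rw [ContinuousLinearMap.adjoint_inner_right, inner_add_right]
  simp only [dz, smul_apply, sub_apply, inner_smul_right, inner_sub_right,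
    pullG_deriv hG hU hf hfD hz, map_smul, inner_smul_left, Complex.conj_I]
  ring_nf
  simp only [Complex.I_sq]
  ring

theorem second_symm {z : Cn n} {f : Cn n → Cn n} {U : Set (Cn n)} (hU : IsOpen U)
    (hf : DifferentiableOn ℂ f U) (hz : z ∈ U) (u w : Cn n) :
    fderiv ℂ (fderiv ℂ f) z u w = fderiv ℂ (fderiv ℂ f) z w u :=
  ((contDiffOn_holo hU hf).contDiffAt (hU.mem_nhds hz)).isSymmSndFDerivAt (by simp only [minSmoothness_of_isRCLikeNormedField]; norm_cast) u w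

include hG hU hf hfD in
theorem pullG_local (hinj : ∀ z ∈ U, Function.Injective (fderiv ℂ f z)) : Local U (pullG f G) := by
  refine ⟨hU, pullG_smooth hG hU hf hfD, fun z hz => ⟨fun u v => ?_, fun u hu => ?_⟩,
    fun z hz u w => ?_⟩
  · simp [pullG, ContinuousLinearMap.adjoint_inner_left, ContinuousLinearMap.adjoint_inner_right,
      (hG.pos _ (hfD hz)).sym]
  · show 0 < sq (pullG f G z) u
    rw [sq_pullG]
    exact (hG.pos _ (hfD hz)).pos _ fun h => hu (hinj z hz (by rw [h, map_zero]))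
  · rw [pullG_dz hG hU hf hfD hz, pullG_dz hG hU hf hfD hz, hG.sym _ (hfD hz), second_symm hU hf hz]

/-- Second derivative along a line of a function of a holomorphic curve depends only on jets. -/
theorem line_jet {F : Type} [NormedAddCommGroup F] [NormedSpace ℂ F] {Φ : F → ℝ} {g : ℂ → F}
    (hΦ : ContDiffAt ℝ 2 Φ (g 0)) (hg : ∀ᶠ τ in 𝓝 0, DifferentiableAt ℂ g τ)
    (hg' : DifferentiableAt ℂ (deriv g) 0) (e : ℂ) {k : ℝ → ℝ} {k₂ : ℝ}
    (hk : ∀ᶠ h in 𝓝 (0 : ℝ), HasDerivAt (fun s : ℝ => Φ (g ((s : ℂ) * e))) (k h) h)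
    (hk₂ : HasDerivAt k k₂ 0) :
    k₂ = fderiv ℝ (fderiv ℝ Φ) (g 0) (e • deriv g 0) (e • deriv g 0) +
      fderiv ℝ Φ (g 0) (e • (e • deriv (deriv g) 0)) := by
  have hl : ∀ s : ℝ, HasDerivAt (fun t : ℝ => (t : ℂ) * e) e s := fun s => by
    simpa using (hasDerivAt_id s).ofReal_comp.mul_const e
  have ht : Tendsto (fun t : ℝ => (t : ℂ) * e) (𝓝 0) (𝓝 0) := by
    simpa using (hl 0).continuousAt.tendsto
  have hΦd : ∀ᶠ x in 𝓝 (g 0), DifferentiableAt ℝ Φ x :=
    (hΦ.eventually (by simp)).mono fun x hx => hx.differentiableAt (by norm_num)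
  have hgc : Tendsto (fun t : ℝ => g ((t : ℂ) * e)) (𝓝 0) (𝓝 (g 0)) :=
    hg.self_of_nhds.continuousAt.tendsto.comp ht
  have hk' : k =ᶠ[𝓝 0] fun s => fderiv ℝ Φ (g ((s : ℂ) * e)) (e • deriv g ((s : ℂ) * e)) := by
    filter_upwards [hk, ht.eventually hg, hgc.eventually hΦd] with s hs hgs hΦs
    exact hs.unique (hΦs.hasFDerivAt.comp_hasDerivAt s (hgs.hasDerivAt.scomp s (hl s)))
  have hg0 : HasDerivAt (fun t : ℝ => g ((t : ℂ) * e)) (e • deriv g 0) 0 :=
    (hg.self_of_nhds.hasDerivAt).scomp_of_eq (0 : ℝ) (hl 0) (by simp)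
  have hg1 : HasDerivAt (fun t : ℝ => e • deriv g ((t : ℂ) * e)) (e • (e • deriv (deriv g) 0)) 0 :=
    (hg'.hasDerivAt.scomp_of_eq (0 : ℝ) (hl 0) (by simp)).const_smul e
  have hD : DifferentiableAt ℝ (fderiv ℝ Φ) (g 0) :=
    (hΦ.fderiv_right (m := 1) (by norm_num)).differentiableAt one_ne_zero
  have h2 := (hD.hasFDerivAt.comp_hasDerivAt_of_eq (0 : ℝ) hg0 (by simp)).clm_apply hg1
  simp only [Function.comp_apply, Complex.ofReal_zero, zero_mul] at h2
  exact hk₂.unique (h2.congr_of_eventuallyEq hk')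

include hG hU hf hfD in
/-- Bisectional curvature does not drop under pull back. -/
theorem pullG_bisect (hinj : ∀ z ∈ U, Function.Injective (fderiv ℂ f z)) {z : Cn n} (hz : z ∈ U)
    (u w : Cn n) : bisect G (f z) (fderiv ℂ f z u) (fderiv ℂ f z w) ≤ bisect (pullG f G) z u w := by
  set D1 := fderiv ℂ f z
  set D2 := fderiv ℂ (fderiv ℂ f) z
  have hL := pullG_local hG hU hf hfD hinj
  obtain ⟨w', hw'⟩ := (LinearMap.injective_iff_surjective.1 (hinj z hz) :
    Function.Surjective D1) (-((G (f z)).inverse (dz G (f z) (D1 u) (D1 w))) - D2 u w)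
  set c : ℂ → Cn n := fun τ => z + τ • u
  set W : ℂ → Cn n := fun τ => w + τ • w'
  have hc : ContDiff ℂ ∞ c := contDiff_const.add (contDiff_id.smul contDiff_const)
  have hW : ContDiff ℂ ∞ W := contDiff_const.add (contDiff_id.smul contDiff_const)
  have dc : ∀ τ, HasDerivAt c u τ := fun τ => by
    simpa [c] using ((hasDerivAt_id τ).smul_const u).const_add z
  have dW : ∀ τ, HasDerivAt W w' τ := fun τ => by
    simpa [W] using ((hasDerivAt_id τ).smul_const w').const_add w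
  set g : ℂ → Cn n × Cn n := fun τ => (f (c τ), fderiv ℂ f (c τ) (W τ))
  have hc0 : c 0 = z := by simp [c]
  have hW0 : W 0 = w := by simp [W]
  have hgs : ContDiffOn ℂ ∞ g (c ⁻¹' U) :=
    ((contDiffOn_holo hU hf).comp hc.contDiffOn fun τ hτ => hτ).prodMk
      (((fderiv_smooth hU hf).comp hc.contDiffOn fun τ hτ => hτ).clm_apply hW.contDiffOn)
  have hV : IsOpen (c ⁻¹' U) := hU.preimage hc.continuous
  have h0V : (0 : ℂ) ∈ c ⁻¹' U := by simp [hc0, hz]
  have hg : ∀ᶠ τ in 𝓝 0, DifferentiableAt ℂ g τ := by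
    filter_upwards [hV.mem_nhds h0V] with τ hτ
    exact (hgs.differentiableOn (by simp)).differentiableAt (hV.mem_nhds hτ)
  have hg' : DifferentiableAt ℂ (deriv g) 0 :=
    ((hgs.deriv_of_isOpen hV (m := ∞) (by simp)).differentiableOn (by simp)).differentiableAt
      (hV.mem_nhds h0V)
  have hd0 : deriv g 0 = (D1 u, D2 u w + D1 w') := by
    have h1 : HasDerivAt (fun τ => f (c τ)) (D1 u) 0 :=
      (hf.differentiableAt (hU.mem_nhds hz)).hasFDerivAt.comp_hasDerivAt_of_eq 0 (dc 0) hc0.symm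
    have h2 : HasDerivAt (fun τ => fderiv ℂ f (c τ)) (D2 u) 0 :=
      (((fderiv_smooth hU hf).contDiffAt (hU.mem_nhds hz)).differentiableAt
        (by simp)).hasFDerivAt.comp_hasDerivAt_of_eq 0 (dc 0) hc0.symm
    have h3 := h2.clm_apply (dW 0)
    rw [hc0, hW0] at h3
    exact (h1.prodMk h3).deriv
  set a2 := deriv (deriv g) 0
  set p : ℂ → Cn n × Cn n := fun τ => g 0 + τ • deriv g 0 + τ ^ 2 • ((1 / 2 : ℂ) • a2)
  have dp : ∀ τ, HasDerivAt p (deriv g 0 + τ • a2) τ := fun τ => by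
    have := (((hasDerivAt_id τ).smul_const (deriv g 0)).const_add (g 0)).add
      (((hasDerivAt_id τ).pow 2).smul_const ((1 / 2 : ℂ) • a2))
    refine this.congr_deriv ?_
    simp only [id, one_smul, smul_smul]
    congr 2
    norm_num
    ring
  have dp' : HasDerivAt (deriv p) a2 0 := by
    rw [show deriv p = fun τ => deriv g 0 + τ • a2 from funext fun τ => (dp τ).deriv]
    simpa using ((hasDerivAt_id (0 : ℂ)).smul_const a2).const_add (deriv g 0)
  set Φ : Cn n × Cn n → ℝ := fun q => sq (G q.1) q.2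
  have hp0 : p 0 = g 0 := by simp [p]
  have hg0D : (g 0).1 ∈ D := by simpa [g, hc0] using hfD hz
  have hΦ : ContDiffAt ℝ 2 Φ (g 0) := by
    have h1 : ContDiffAt ℝ 2 (fun q : Cn n × Cn n => G q.1) (g 0) :=
      ((hG.smooth.contDiffAt (hG.isOpen.mem_nhds hg0D)).of_le (by norm_cast)).comp (g 0) contDiffAt_fst
    have h2 := ((ContinuousLinearMap.restrictScalarsL ℂ (Cn n) (Cn n) ℝ ℝ).contDiff.contDiffAt.comp
      (g 0) h1).clm_apply contDiffAt_snd
    exact Complex.reCLM.contDiff.contDiffAt.comp (g 0) (contDiffAt_snd.inner ℂ h2)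
  have hps : ContDiff ℂ ∞ p :=
    (contDiff_const.add (contDiff_id.smul contDiff_const)).add
      ((contDiff_id.pow 2).smul contDiff_const)
  have hcW : ∀ τ : ℂ, sq (pullG f G (c τ)) (W τ) = Φ (g τ) := fun τ => sq_pullG f G _ _
  obtain ⟨k, l, hk, hl, k2, l2, hk2, hl2, eP⟩ := levi_eq hL hc hW (a := 0) (by rw [hc0]; exact hz)
  obtain ⟨k', l', hk', hl', k2', l2', hk2', hl2', eG⟩ := levi_eq hG hps.fst hps.snd (a := 0)
    (show (p 0).1 ∈ D by rw [hp0]; exact hg0D)
  simp only [zero_add, hcW] at hk hl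
  simp only [zero_add] at hk' hl'
  have hpp : ∀ᶠ τ in 𝓝 (0 : ℂ), DifferentiableAt ℂ p τ :=
    Eventually.of_forall fun τ => (dp τ).differentiableAt
  have hpd : deriv p 0 = deriv g 0 := by simp [(dp 0).deriv]
  have hp2 : deriv (deriv p) 0 = a2 := dp'.deriv
  have hΦp : ContDiffAt ℝ 2 Φ (p 0) := hp0 ▸ hΦ
  have e1 := line_jet hΦ hg hg' 1 hk hk2
  have e2 := line_jet hΦ hg hg' I hl hl2
  have e1' := line_jet hΦp hpp dp'.differentiableAt 1 hk' hk2'
  have e2' := line_jet hΦp hpp dp'.differentiableAt I hl' hl2'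
  rw [hp0, hpd, hp2] at e1' e2'
  have hkey : levi (pullG f G) (c 0) (deriv c 0) (W 0) (deriv W 0) =
      levi G (p 0).1 (deriv (fun τ => (p τ).1) 0) (p 0).2 (deriv (fun τ => (p τ).2) 0) := by
    linarith
  have hq1 : HasDerivAt (fun τ => (p τ).1) (deriv g 0).1 0 := by
    have := (dp 0).hasFDerivAt.fst.hasDerivAt
    simpa using this
  have hq2 : HasDerivAt (fun τ => (p τ).2) (deriv g 0).2 0 := by
    have := (dp 0).hasFDerivAt.snd.hasDerivAt
    simpa using this
  rw [hc0, hW0, (dc 0).deriv, (dW 0).deriv, hq1.deriv, hq2.deriv, hp0, hd0] at hkey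
  simp only [g, hc0, hW0] at hkey
  have hV2 : D2 u w + D1 w' = -((G (f z)).inverse (dz G (f z) (D1 u) (D1 w))) := by
    have hw2 : D1 w' = -((G (f z)).inverse (dz G (f z) (D1 u) (D1 w))) - D2 u w := hw'
    rw [hw2]; abel
  rw [levi, levi, hV2, neg_add_cancel] at hkey
  have h0 : sq (G (f z)) (0 : Cn n) = 0 := by
    simp [sq, Vale.Agent.Results.P253.SymmetricDomains.sq]
  have := (hL.pos z hz).nonneg (w' + (pullG f G z).inverse (dz (pullG f G) z u w))
  simp only [sq] at hkey h0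
  linarith

end

end Vale.Agent.P253.Circle
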