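import Vale.Agent.P253.Circle.Linear
import Vale.Agent.P253.Circle.Pull

/-!
P253: holomorphic immersions of open subsets of `ℂ^n` into the manifold and the metric they induce.
-/

open scoped Manifold ContDiff InnerProductSpace Topology
open Complex Set Filter

noncomputable section

namespace Vale.Agent.P253.Circle

open Vale.Agent.Results.P253.SymmetricDomains (bisect dz)

variable {n : ℕ} {M : Type} [TopologicalSpace M] [ChartedSpace (Cn n) M]

/-- `F` is a holomorphic immersion near `z`. -/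
def Imm (n : ℕ) [ChartedSpace (Cn n) M] (F : Cn n → M) (z : Cn n) : Prop :=
  ContinuousAt F z ∧ DifferentiableAt ℂ (fun w => ch n (F z) (F w)) z ∧
    Function.Injective (fderiv ℂ (fun w => ch n (F z) (F w)) z)

/-- The metric induced by `F`. -/
def indMetric (G : Metric (Cn n) M) (F : Cn n → M) (z : Cn n) : Cn n →L[ℂ] Cn n :=
  pullG (fun w => ch n (F z) (F w)) (rp G (F z)) z

variable [IsManifold 𝓘(ℂ, Cn n) ω M] {G : Metric (Cn n) M} {ρ : ℝ → M → M} {F : Cn n → M} {z : Cn n}

theorem Imm.of_read {x : M} (hc : ContinuousAt F z) (hx : F z ∈ (ch n x).source)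
    (hd : DifferentiableAt ℂ (fun w => ch n x (F w)) z)
    (hi : Function.Injective (fderiv ℂ (fun w => ch n x (F w)) z)) : Imm n F z := by
  have hev : (fun w => ch n (F z) (F w)) =ᶠ[𝓝 z] tr n x (F z) ∘ fun w => ch n x (F w) := by
    filter_upwards [hc ((ch n x).open_source.mem_nhds hx)] with w hw
    simp [tr, (ch n x).left_inv hw]
  have hs := tr_mem' hx (mem_chart_source (Cn n) (F z))
  have hd' := ((tr_deriv hs).comp z hd.hasFDerivAt).congr_of_eventuallyEq hev
  refine ⟨hc, hd'.differentiableAt, ?_⟩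
  rw [hd'.fderiv]
  exact (dtr_inj hs).comp hi

theorem Imm.read_deriv (h : Imm n F z) {x : M} (hx : F z ∈ (ch n x).source) :
    HasFDerivAt (fun w => ch n x (F w))
      ((dtr n (F z) x (ch n (F z) (F z))).comp (fderiv ℂ (fun w => ch n (F z) (F w)) z)) z ∧
    Function.Injective (fderiv ℂ (fun w => ch n x (F w)) z) := by
  have hz := mem_chart_source (Cn n) (F z)
  have hev : (fun w => ch n x (F w)) =ᶠ[𝓝 z] tr n (F z) x ∘ fun w => ch n (F z) (F w) := by
    filter_upwards [h.1 ((ch n (F z)).open_source.mem_nhds hz)] with w hw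
    simp [tr, (ch n (F z)).left_inv hw]
  have hs := tr_mem' hz hx
  have hd := ((tr_deriv hs).comp z h.2.1.hasFDerivAt).congr_of_eventuallyEq hev
  refine ⟨hd, ?_⟩
  rw [hd.fderiv]
  exact (dtr_inj hs).comp h.2.2

theorem Imm.read_diff (h : Imm n F z) {x : M} (hx : F z ∈ (ch n x).source) :
    DifferentiableAt ℂ (fun w => ch n x (F w)) z :=
  (h.read_deriv hx).1.differentiableAt

theorem Imm.congr {F' : Cn n → M} (h : Imm n F z) (e : F' =ᶠ[𝓝 z] F) : Imm n F' z := by
  have hx : F' z ∈ (ch n (F z)).source := by rw [e.self_of_nhds]; exact mem_chart_source _ _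
  have e2 : (fun w => ch n (F z) (F' w)) =ᶠ[𝓝 z] fun w => ch n (F z) (F w) :=
    e.mono fun w hw => by simp [hw]
  exact Imm.of_read (h.1.congr e.symm) hx (h.2.1.congr_of_eventuallyEq e2)
    (by rw [e2.fderiv_eq]; exact h.2.2)

theorem Imm.comp_diag {a : Cn n} {c : Fin n → ℂ} (hc : ∀ j, c j ≠ 0) (h : Imm n F (diag c a)) :
    Imm n (fun w => F (diag c w)) a := by
  have hd := (h.read_deriv (mem_chart_source (Cn n) (F (diag c a))))
  have h2 : HasFDerivAt (fun w => ch n (F (diag c a)) (F (diag c w))) _ a :=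
    hd.1.comp a (diag c).hasFDerivAt
  refine ⟨ContinuousAt.comp (g := F) h.1 (diag c).continuous.continuousAt, h2.differentiableAt, ?_⟩
  rw [h2.fderiv, ← hd.1.fderiv]
  refine hd.2.comp fun u v huv => ?_
  ext j
  have := congrArg (fun w : Cn n => w j) huv
  simp only [diag_apply] at this
  exact mul_left_cancel₀ (hc j) this

theorem Imm.comp_rot {a : Cn n} {k : Fin n → ℕ} {τ : ℂ}
    (h : Imm n F (Vale.Agent.Results.P253.SymmetricDomains.rot k τ a)) :
    Imm n (fun w => F (Vale.Agent.Results.P253.SymmetricDomains.rot k τ w)) a := by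
  rw [rot_eq] at h ⊢
  exact Imm.comp_diag (fun j => Complex.exp_ne_zero _) h

theorem act_chain (hρ : CircleSymmetry G ρ) {x y : M} {s : ℝ} {p : Cn n}
    (hp : p ∈ (ch n x).target) (hy : ρ s ((ch n x).symm p) ∈ (ch n y).source) :
    act n ρ x y s =ᶠ[𝓝 p] tr n (ρ s ((ch n x).symm p)) y ∘
      act n ρ ((ch n x).symm p) (ρ s ((ch n x).symm p)) s ∘ tr n x ((ch n x).symm p) := by
  set z := (ch n x).symm p
  set w := ρ s z
  have hc : ContinuousAt (fun q => ρ s ((ch n x).symm q)) p :=
    ContinuousAt.comp (g := ρ s) (hρ.cont.comp (continuous_const.prodMk continuous_id)).continuousAt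
      ((ch n x).continuousAt_symm hp)
  filter_upwards [(tr n x z).open_source.mem_nhds (tr_mem_center hp),
    hc ((ch n w).open_source.mem_nhds (mem_chart_source _ w))] with q hq hq2
  simp [act, tr, (ch n z).left_inv (tr_mem.1 hq).2, (ch n w).left_inv hq2, w]

theorem act_inj (hρ : CircleSymmetry G ρ) {x y : M} {s : ℝ} {p : Cn n}
    (hp : p ∈ (ch n x).target) (hy : ρ s ((ch n x).symm p) ∈ (ch n y).source) :
    Function.Injective (fderiv ℂ (act n ρ x y s) p) := by
  set q := act n ρ x y s p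
  have hq : q ∈ (ch n y).target := (ch n y).map_source hy
  have e : ρ (-s) ((ch n y).symm q) = (ch n x).symm p := by
    rw [show (ch n y).symm q = _ from (ch n y).left_inv hy, ← hρ.add, neg_add_cancel, hρ.zero]
  have hqx : ρ (-s) ((ch n y).symm q) ∈ (ch n x).source := e ▸ (ch n x).map_target hp
  have h1 := (act_diff hρ hq hqx).hasFDerivAt.comp p (act_diff hρ hp hy).hasFDerivAt
  have hev : act n ρ y x (-s) ∘ act n ρ x y s =ᶠ[𝓝 p] id := by
    have hc : ContinuousAt (fun q => ρ s ((ch n x).symm q)) p :=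
      ContinuousAt.comp (g := ρ s)
        (hρ.cont.comp (continuous_const.prodMk continuous_id)).continuousAt
        ((ch n x).continuousAt_symm hp)
    filter_upwards [(ch n x).open_target.mem_nhds hp, hc ((ch n y).open_source.mem_nhds hy)]
      with r hr hr2
    simp [act, (ch n y).left_inv hr2, ← hρ.add, hρ.zero, (ch n x).right_inv hr]
  have h2 := h1.unique ((hasFDerivAt_id p).congr_of_eventuallyEq hev)
  intro u v huv
  have := congrArg (fderiv ℂ (act n ρ y x (-s)) q) huv
  rwa [← ContinuousLinearMap.comp_apply, ← ContinuousLinearMap.comp_apply, h2] at this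

theorem act_isometry (hρ : CircleSymmetry G ρ) {x y : M} {s : ℝ} {p : Cn n}
    (hp : p ∈ (ch n x).target) (hy : ρ s ((ch n x).symm p) ∈ (ch n y).source) (v : Cn n) :
    sq (rp G y (act n ρ x y s p)) (fderiv ℂ (act n ρ x y s) p v) = sq (rp G x p) v := by
  set z := (ch n x).symm p
  set w := ρ s z
  have hzs := mem_chart_source (Cn n) z
  have hws := mem_chart_source (Cn n) w
  have hm : (mfderiv 𝓘(ℂ, Cn n) 𝓘(ℂ, Cn n) (ρ s) z : Cn n →L[ℂ] Cn n) =
      fderiv ℂ (act n ρ z w s) (ch n z z) := by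
    rw [(hρ.holo s z).mfderiv]
    simp [writtenInExtChartAt, ch, Function.comp_def, w]
    rfl
  have ht : tr n x z p = ch n z z := rfl
  have hd2 : HasFDerivAt (act n ρ z w s) (fderiv ℂ (act n ρ z w s) (ch n z z)) (tr n x z p) := by
    rw [ht]
    exact (act_diff hρ ((ch n z).map_source hzs) (by rw [(ch n z).left_inv hzs]; exact hws)).hasFDerivAt
  have e1 : act n ρ z w s (tr n x z p) = ch n w w := by simp [ht, act, (ch n z).left_inv hzs, w]
  have hd3 : HasFDerivAt (tr n w y) (dtr n w y (ch n w w)) (act n ρ z w s (tr n x z p)) := by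
    rw [e1]
    exact tr_deriv (tr_mem' hws hy)
  have hd := (hd3.comp p (hd2.comp p (tr_deriv (tr_mem_center hp)))).congr_of_eventuallyEq
    (act_chain hρ hp hy)
  rw [hd.fderiv, sq_rep G hp, ← hρ.isometry s z,
    show dMap (Cn n) (ρ s) z = fderiv ℂ (act n ρ z w s) (ch n z z) from hm]
  have e2 : act n ρ x y s p = tr n w y (ch n w w) := by
    simp [act, tr, (ch n w).left_inv hws, w, z]
  rw [e2]
  simp only [ContinuousLinearMap.comp_apply]
  rw [← sq_change G (tr_mem' hws hy), rep_center]

theorem Imm.rho (hρ : CircleSymmetry G ρ) (h : Imm n F z) (s : ℝ) :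
    Imm n (fun w => ρ s (F w)) z := by
  set x := F z
  set y := ρ s x
  have hx := mem_chart_source (Cn n) x
  have hy := mem_chart_source (Cn n) y
  have hp := (ch n x).map_source hx
  have hy' : ρ s ((ch n x).symm (ch n x x)) ∈ (ch n y).source := by
    rw [(ch n x).left_inv hx]; exact hy
  have hev : (fun w => ch n y (ρ s (F w))) =ᶠ[𝓝 z] act n ρ x y s ∘ fun w => ch n x (F w) := by
    filter_upwards [h.1 ((ch n x).open_source.mem_nhds hx)] with w hw
    simp [act, (ch n x).left_inv hw]
  have hd := ((act_diff hρ hp hy').hasFDerivAt.comp z h.2.1.hasFDerivAt).congr_of_eventuallyEq hev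
  refine Imm.of_read (x := y) (ContinuousAt.comp (g := ρ s)
    (hρ.cont.comp (continuous_const.prodMk continuous_id)).continuousAt h.1) hy hd.differentiableAt ?_
  rw [hd.fderiv]
  exact (act_inj hρ hp hy').comp h.2.2

/-- The turned generator is the image of the Euler field under an equivariant immersion. -/
theorem fld_equiv (hρ : CircleSymmetry G ρ) {k : Fin n → ℕ} (h : Imm n F z)
    (he : ∀ᶠ s : ℝ in 𝓝 0,
      ρ s (F z) = F (Vale.Agent.Results.P253.SymmetricDomains.rot k ((s : ℂ) * I) z))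
    {x : M} (hx : F z ∈ (ch n x).source) :
    fld n ρ x (ch n x (F z)) =
      fderiv ℂ (fun w => ch n x (F w)) z (diag (fun j => (k j : ℂ)) z) := by
  have hd := (h.read_diff hx).hasFDerivAt
  have hl : HasDerivAt (fun s : ℝ => Vale.Agent.Results.P253.SymmetricDomains.rot k ((s : ℂ) * I) z)
      (I • diag (fun j => (k j : ℂ)) z) 0 := by
    have h0 : ∀ j, HasDerivAt (fun s : ℝ => Complex.exp ((k j : ℂ) * ((s : ℂ) * I)) * z j)
        (I * ((k j : ℂ) * z j)) 0 := fun j => by
      have := ((((hasDerivAt_id (0 : ℝ)).ofReal_comp.mul_const I).const_mul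
        (k j : ℂ)).cexp).mul_const (z j)
      simpa [mul_comm, mul_left_comm, mul_assoc] using this
    have h1 : HasDerivAt (fun s : ℝ => fun j => Complex.exp ((k j : ℂ) * ((s : ℂ) * I)) * z j)
        (fun j => I * ((k j : ℂ) * z j)) 0 := hasDerivAt_pi.2 h0
    have h2 := (PiLp.continuousLinearEquiv 2 ℝ (fun _ : Fin n => ℂ)).symm.hasFDerivAt.comp_hasDerivAt
      (0 : ℝ) h1
    exact h2
  have h2 := (hd.restrictScalars ℝ).comp_hasDerivAt_of_eq (0 : ℝ) hl (by simp [rot_zero])
  have h3 : HasDerivAt (fun s => ch n x (ρ s (F z)))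
      (fderiv ℂ (fun w => ch n x (F w)) z (I • diag (fun j => (k j : ℂ)) z)) 0 := by
    refine h2.congr_of_eventuallyEq ?_
    filter_upwards [he] with s hs
    simp [hs]
  rw [fld, (gen_hasDerivAt hρ hx).unique h3, map_smul, smul_smul]
  simp

theorem conj_comp (A B T : Cn n →L[ℂ] Cn n) :
    (ContinuousLinearMap.adjoint (A.comp B)).comp (T.comp (A.comp B)) =
      (ContinuousLinearMap.adjoint B).comp
        (((ContinuousLinearMap.adjoint A).comp (T.comp A)).comp B) := by
  rw [ContinuousLinearMap.adjoint_comp]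
  rfl

theorem indMetric_eq {x : M} (h : Imm n F z) (hx : F z ∈ (ch n x).source) :
    indMetric G F z = pullG (fun w => ch n x (F w)) (rp G x) z := by
  have hz := mem_chart_source (Cn n) (F z)
  have h1 := rep_change G (tr_mem' hz hx)
  have e : tr n (F z) x (ch n (F z) (F z)) = ch n x (F z) :=
    congrArg (ch n x) ((ch n (F z)).left_inv hz)
  rw [e] at h1
  have h2 := (h.read_deriv hx).1.fderiv
  unfold indMetric pullG
  rw [h2, h1, conj_comp]

theorem sq_indMetric (v : Cn n) : sq (indMetric G F z) v =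
    sq (G (F z)) (fderiv ℂ (fun w => ch n (F z) (F w)) z v) := by
  rw [indMetric, sq_pullG, rep_center]

/-- An immersion of an open set induces a Kaehler metric with curvature at least as large. -/
theorem indMetric_local (hG : IsKaehler G) {U : Set (Cn n)} (hU : IsOpen U)
    (h : ∀ w ∈ U, Imm n F w) (hK : PositiveBisect G) :
    Local U (indMetric G F) ∧ ∀ w ∈ U, ∀ u v, 0 ≤ bisect (indMetric G F) w u v := by
  have key : ∀ w ∈ U, ∃ V, IsOpen V ∧ w ∈ V ∧ Local V (indMetric G F) ∧
      ∀ u v, 0 ≤ bisect (indMetric G F) w u v := by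
    intro w hw
    set x := F w
    have hx := mem_chart_source (Cn n) x
    have hev : ∀ᶠ q in 𝓝 w, F q ∈ (ch n x).source :=
      (h w hw).1 ((ch n x).open_source.mem_nhds hx)
    obtain ⟨V, hVU, hV, hwV⟩ := mem_nhds_iff.1 (hev.and (hU.mem_nhds hw))
    set f := fun q => ch n x (F q)
    have hf : DifferentiableOn ℂ f V := fun q hq =>
      ((h q (hVU hq).2).read_diff (hVU hq).1).differentiableWithinAt
    have hfD : MapsTo f V (ch n x).target := fun q hq => (ch n x).map_source (hVU hq).1
    have hinj : ∀ q ∈ V, Function.Injective (fderiv ℂ f q) :=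
      fun q hq => ((h q (hVU hq).2).read_deriv (hVU hq).1).2
    have hP := pullG_local (hG.chartMetric x) hV hf hfD hinj
    have he : ∀ q ∈ V, indMetric G F q = pullG f (rp G x) q :=
      fun q hq => indMetric_eq (h q (hVU hq).2) (hVU hq).1
    have hee : ∀ q ∈ V, indMetric G F =ᶠ[𝓝 q] pullG f (rp G x) := fun q hq =>
      mem_of_superset (hV.mem_nhds hq) he
    refine ⟨V, hV, hwV, ⟨hV, hP.smooth.congr he, fun q hq => he q hq ▸ hP.pos q hq,
      fun q hq u v => ?_⟩, fun u v => ?_⟩
    · simp only [dz, (hee q hq).fderiv_eq]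
      exact hP.sym q hq u v
    · have e2 : fderiv ℝ (indMetric G F) =ᶠ[𝓝 w] fderiv ℝ (pullG f (rp G x)) :=
        mem_of_superset (hV.mem_nhds hwV) fun q hq => (hee q hq).fderiv_eq
      have hb : bisect (indMetric G F) w u v = bisect (pullG f (rp G x)) w u v := by
        simp only [bisect, Vale.Agent.Results.P253.SymmetricDomains.ddbar, dz,
          e2.self_of_nhds, e2.fderiv_eq, he w hwV]
      rw [hb]
      refine le_trans ?_ (pullG_bisect (hG.chartMetric x) hV hf hfD hinj hwV u v)
      by_cases hu : fderiv ℂ f w u = 0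
      · simp [hu, bisect, dz, Vale.Agent.Results.P253.SymmetricDomains.ddbar]
      by_cases hv : fderiv ℂ f w v = 0
      · simp [hv, bisect]
      exact (hK x _ (hfD hwV) _ _ hu hv).le
  refine ⟨⟨hU, fun w hw => ?_, fun w hw => ?_, fun w hw => ?_⟩, fun w hw => ?_⟩
  · obtain ⟨V, hV, hwV, hL, -⟩ := key w hw
    exact (hL.smooth.contDiffAt (hV.mem_nhds hwV)).contDiffWithinAt
  · obtain ⟨V, -, hwV, hL, -⟩ := key w hw
    exact hL.pos w hwV
  · obtain ⟨V, -, hwV, hL, -⟩ := key w hw
    exact hL.sym w hwV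
  · obtain ⟨V, -, -, -, hb⟩ := key w hw
    exact hb

/-- Curves pushed forward by an immersion. -/
theorem curve_push (G : Metric (Cn n) M) {U : Set (Cn n)} (hU : IsOpen U) (h : ∀ w ∈ U, Imm n F w)
    {c : ℝ → Cn n} (hc : ContDiff ℝ 1 c) (hm : ∀ t, c t ∈ U) :
    C1Curve (Cn n) (F ∘ c) ∧
      ∀ t, speed G (F ∘ c) t = Real.sqrt (sq (indMetric G F (c t)) (deriv c t)) := by
  have hcont : Continuous (F ∘ c) :=
    continuous_iff_continuousAt.2 fun t => (h _ (hm t)).1.comp hc.continuous.continuousAt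
  refine ⟨⟨hcont, fun t => ?_⟩, fun t => ?_⟩
  · set x := F (c t)
    have hev : ∀ᶠ q in 𝓝 (c t), F q ∈ (ch n x).source :=
      (h _ (hm t)).1 ((ch n x).open_source.mem_nhds (mem_chart_source _ x))
    obtain ⟨V, hVU, hV, hwV⟩ := mem_nhds_iff.1 (hev.and (hU.mem_nhds (hm t)))
    have hf : DifferentiableOn ℂ (fun q => ch n x (F q)) V := fun q hq =>
      ((h q (hVU hq).2).read_diff (hVU hq).1).differentiableWithinAt
    exact ((((contDiffOn_holo hV hf).contDiffAt (hV.mem_nhds hwV)).restrict_scalars ℝ).of_le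
      (by simp)).comp t hc.contDiffAt
  · have hd := ((h _ (hm t)).2.1.hasFDerivAt.restrictScalars ℝ).comp_hasDerivAt t
      (hc.differentiable one_ne_zero t).hasDerivAt
    rw [speed_eq G hcont.continuousAt (x := F (c t)) (mem_chart_source (Cn n) (F (c t))) hd,
      sq_indMetric]
    simp only [Function.comp_apply, rep_center]
    rfl

end Vale.Agent.P253.Circle
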