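import Vale.Agent.P253.Circle.Defs

/-!
P253: the Levi form of the energy of a holomorphic family, uniformly on compact sets of jets.
-/

open scoped Manifold ContDiff InnerProductSpace Topology
open Complex Set Filter

noncomputable section

namespace Vale.Agent.P253.Circle

open Vale.Agent.Results.P253.SymmetricDomains (HermMetric IsPos dz ddbar bisect line_expansion fderiv_symm)

variable {n : ℕ}

/-- A chart metric: smooth, Hermitian positive, with symmetric holomorphic derivative. -/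
structure Local (D : Set (Cn n)) (G : Cn n → (Cn n →L[ℂ] Cn n)) : Prop where
  isOpen : IsOpen D
  smooth : ContDiffOn ℝ ∞ G D
  pos : ∀ y ∈ D, IsPos (G y)
  sym : ∀ y ∈ D, ∀ u w, dz G y u w = dz G y w u

variable {D : Set (Cn n)} {G : Cn n → (Cn n →L[ℂ] Cn n)}

theorem Local.herm (hG : Local D G) : HermMetric D G :=
  ⟨hG.smooth.of_le (by norm_cast), fun y hy => ⟨(hG.pos y hy).sym, (hG.pos y hy).pos⟩⟩

/-- The Levi form of `sq (G c) W` at a point with data `c = y`, `c' = u`, `W = w`, `W' = w'`. -/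
def levi (G : Cn n → (Cn n →L[ℂ] Cn n)) (y u w w' : Cn n) : ℝ :=
  -bisect G y u w + sq (G y) (w' + (G y).inverse (dz G y u w))

theorem levi_eq (hG : Local D G) {c W : ℂ → Cn n} (hc : ContDiff ℂ ∞ c) (hW : ContDiff ℂ ∞ W)
    {a : ℂ} (ha : c a ∈ D) : ∃ k l : ℝ → ℝ,
      (∀ᶠ h in 𝓝 (0 : ℝ),
        HasDerivAt (fun s : ℝ => sq (G (c (a + (s : ℂ) * 1))) (W (a + (s : ℂ) * 1))) (k h) h) ∧
      (∀ᶠ h in 𝓝 (0 : ℝ),
        HasDerivAt (fun s : ℝ => sq (G (c (a + (s : ℂ) * I))) (W (a + (s : ℂ) * I))) (l h) h) ∧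
      ∃ k₂ l₂ : ℝ, HasDerivAt k k₂ 0 ∧ HasDerivAt l l₂ 0 ∧
        k₂ + l₂ = 4 * levi G (c a) (deriv c a) (W a) (deriv W a) := by
  obtain ⟨k, hk, -, hk2⟩ := line_expansion hG.isOpen hG.herm hc hW ha 1
  obtain ⟨l, hl, -, hl2⟩ := line_expansion hG.isOpen hG.herm hc hW ha I
  refine ⟨k, l, hk, hl, _, _, hk2, hl2, ?_⟩
  set y := c a
  set u := deriv c a
  set w := W a
  set w' := deriv W a
  have hP := hG.pos y ha
  have hs : ∀ d p q, ⟪fderiv ℝ G y d p, q⟫_ℂ = ⟪p, fderiv ℝ G y d q⟫_ℂ :=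
    fun d p q => fderiv_symm hG.isOpen hG.herm ha d p q
  have s1 : ∀ d p q, (⟪p, fderiv ℝ G y d q⟫_ℂ).re = (⟪q, fderiv ℝ G y d p⟫_ℂ).re := fun d p q => by
    rw [← hs, ← inner_conj_symm (fderiv ℝ G y d p) q, Complex.conj_re]
  have s2 : ∀ d p q, (⟪p, fderiv ℝ G y d q⟫_ℂ).im = -(⟪q, fderiv ℝ G y d p⟫_ℂ).im := fun d p q => by
    rw [← hs, ← inner_conj_symm (fderiv ℝ G y d p) q, Complex.conj_im]
  set m := dz G y u w with hm
  have e1 : sq (G y) (w' + (G y).inverse m) =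
      sq (G y) w' + 2 * (⟪w', m⟫_ℂ).re + (⟪m, (G y).inverse m⟫_ℂ).re := by
    simp only [sq, Vale.Agent.Results.P253.SymmetricDomains.sq, map_add, hP.apply_inv, inner_add_left, inner_add_right, Complex.add_re]
    have : (⟪(G y).inverse m, G y w'⟫_ℂ).re = (⟪w', m⟫_ℂ).re := by
      rw [← hP.sym, hP.apply_inv, ← inner_conj_symm m w', Complex.conj_re]
    have h2 : (⟪(G y).inverse m, m⟫_ℂ).re = (⟪m, (G y).inverse m⟫_ℂ).re := by
      rw [← inner_conj_symm m, Complex.conj_re]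
    rw [this, h2]
    ring
  rw [levi, bisect, ← hm, e1, hm]
  simp only [dz, ddbar, one_mul, one_smul, Complex.I_mul_I, neg_smul, map_neg, map_smul, sq,
    Vale.Agent.Results.P253.SymmetricDomains.sq,
    inner_neg_left, inner_neg_right, inner_smul_left, inner_smul_right, neg_apply, smul_apply,
    add_apply, sub_apply, inner_sub_right, inner_add_right, Complex.conj_I]
  simp [Complex.mul_re, Complex.mul_im, s1 (I • u) w w', s2 (I • u) w w', s1 u w w']
  ring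

/-! ### Four-point sums -/

/-- The sum over the four points `± r`, `± i r`. -/
def four {A : Type*} [Add A] (f : ℂ → A) (r : ℝ) : A :=
  f (r : ℂ) + f (-(r : ℂ)) + f ((r : ℂ) * I) + f (-((r : ℂ) * I))

theorem second_diff {h h₁ h₂ : ℝ → ℝ} {r ε : ℝ} (hr : 0 ≤ r)
    (d1 : ∀ s ∈ Icc (-r) r, HasDerivAt h (h₁ s) s) (d2 : ∀ s ∈ Icc (-r) r, HasDerivAt h₁ (h₂ s) s)
    (hε : ∀ s ∈ Icc (-r) r, |h₂ s - h₂ 0| ≤ ε) :
    |h r + h (-r) - 2 * h 0 - r ^ 2 * h₂ 0| ≤ 2 * ε * r ^ 2 := by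
  set φ₁ : ℝ → ℝ := fun s => h₁ s - h₁ (-s) - 2 * s * h₂ 0
  have hmem : ∀ s ∈ Icc 0 r, s ∈ Icc (-r) r ∧ -s ∈ Icc (-r) r := fun s hs =>
    ⟨⟨by linarith [hs.1], hs.2⟩, ⟨by linarith [hs.2], by linarith [hs.1]⟩⟩
  have b1 : ∀ s ∈ Icc 0 r, |φ₁ s| ≤ 2 * ε * r := by
    intro s hs
    have h' : ∀ t ∈ Icc 0 r, HasDerivWithinAt φ₁ (h₂ t + h₂ (-t) - 2 * h₂ 0) (Icc 0 r) t := fun t ht => by
      have := ((d2 _ (hmem t ht).1).sub ((d2 _ (hmem t ht).2).comp t (hasDerivAt_neg t))).sub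
        (((hasDerivAt_id t).const_mul 2).mul_const (h₂ 0))
      refine (this.congr_deriv ?_).hasDerivWithinAt
      ring
    have := (convex_Icc 0 r).norm_image_sub_le_of_norm_hasDerivWithin_le h' (C := 2 * ε)
      (fun t ht => by
        rw [Real.norm_eq_abs, abs_le]
        have a := abs_le.1 (hε _ (hmem t ht).1)
        have b := abs_le.1 (hε _ (hmem t ht).2)
        constructor <;> linarith [a.1, a.2, b.1, b.2]) (left_mem_Icc.2 hr) hs
    simp only [φ₁, neg_zero, sub_self, mul_zero, zero_mul, sub_zero, Real.norm_eq_abs,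
      abs_of_nonneg hs.1] at this
    have hε0 : 0 ≤ ε := (abs_nonneg _).trans (hε 0 ⟨by linarith, hr⟩)
    calc |φ₁ s| ≤ 2 * ε * s := this
      _ ≤ 2 * ε * r := mul_le_mul_of_nonneg_left hs.2 (by positivity)
  set φ : ℝ → ℝ := fun s => h s + h (-s) - 2 * h 0 - s ^ 2 * h₂ 0
  have h' : ∀ t ∈ Icc 0 r, HasDerivWithinAt φ (φ₁ t) (Icc 0 r) t := fun t ht => by
    have := (((d1 _ (hmem t ht).1).add ((d1 _ (hmem t ht).2).comp t (hasDerivAt_neg t))).sub_const
      (2 * h 0)).sub (((hasDerivAt_id t).pow 2).mul_const (h₂ 0))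
    refine (this.congr_deriv ?_).hasDerivWithinAt
    simp [φ₁]
    ring
  have := (convex_Icc 0 r).norm_image_sub_le_of_norm_hasDerivWithin_le h' (C := 2 * ε * r)
    (fun t ht => b1 t ht) (left_mem_Icc.2 hr) (right_mem_Icc.2 hr)
  simp only [φ, neg_zero, Real.norm_eq_abs, sub_zero, abs_of_nonneg hr] at this
  have e : h 0 + h 0 - 2 * h 0 - (0 : ℝ) ^ 2 * h₂ 0 = 0 := by ring
  rw [e, sub_zero] at this
  calc _ ≤ 2 * ε * r * r := this
    _ = _ := by ring

/-- Jets of a holomorphic family: `y + τ b + τ² e` with velocity `u + τ b' + τ² e'`. -/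
abbrev Jet (n : ℕ) := (Cn n × Cn n × Cn n) × (Cn n × Cn n × Cn n)

/-- The energy density of a jet at parameter `τ`. -/
def jetE (G : Cn n → (Cn n →L[ℂ] Cn n)) (p : Jet n) (τ : ℂ) : ℝ :=
  sq (G (p.1.1 + τ • p.1.2.1 + τ ^ 2 • p.1.2.2)) (p.2.1 + τ • p.2.2.1 + τ ^ 2 • p.2.2.2)

theorem jet_four (hG : Local D G) {P : Set (Jet n)} (hP : IsCompact P) (hPD : ∀ p ∈ P, p.1.1 ∈ D)
    {ε : ℝ} (hε : 0 < ε) : ∃ r₀ > 0, ∀ p ∈ P, ∀ r : ℝ, 0 ≤ r → r < r₀ →
      four (jetE G p) r ≤ 4 * jetE G p 0 +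
        r ^ 2 * (4 * levi G p.1.1 p.1.2.1 p.2.1 p.2.2.1 + ε) := by
  have key : ∀ e : ℂ, ∃ r₀ > 0, ∀ p ∈ P, ∀ r : ℝ, 0 ≤ r → r < r₀ → ∀ k k₂,
      (∀ᶠ h in 𝓝 (0 : ℝ), HasDerivAt (fun s : ℝ => jetE G p ((s : ℂ) * e)) (k h) h) →
      HasDerivAt k k₂ 0 →
        jetE G p ((r : ℂ) * e) + jetE G p (-((r : ℂ) * e)) ≤
          2 * jetE G p 0 + r ^ 2 * (k₂ + ε / 2) := by
    intro e
    set pt : Jet n × ℝ → Cn n := fun q =>
      q.1.1.1 + ((q.2 : ℂ) * e) • q.1.1.2.1 + ((q.2 : ℂ) * e) ^ 2 • q.1.1.2.2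
    set U : Set (Jet n × ℝ) := pt ⁻¹' D
    set F : Jet n × ℝ → ℝ := fun q => jetE G q.1 ((q.2 : ℂ) * e)
    have hs : ContDiff ℝ ∞ fun q : Jet n × ℝ => (q.2 : ℂ) * e :=
      (Complex.ofRealCLM.contDiff.comp contDiff_snd).mul contDiff_const
    have hpt : ContDiff ℝ ∞ pt :=
      (((contDiff_fst.comp contDiff_fst).comp contDiff_fst).add
        (hs.smul (((contDiff_fst.comp contDiff_snd).comp contDiff_fst).comp contDiff_fst))).add
        ((hs.pow 2).smul (((contDiff_snd.comp contDiff_snd).comp contDiff_fst).comp contDiff_fst))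
    have hU : IsOpen U := hG.isOpen.preimage hpt.continuous
    have hv : ContDiff ℝ ∞ fun q : Jet n × ℝ =>
        q.1.2.1 + ((q.2 : ℂ) * e) • q.1.2.2.1 + ((q.2 : ℂ) * e) ^ 2 • q.1.2.2.2 :=
      (((contDiff_fst.comp contDiff_snd).comp contDiff_fst).add
        (hs.smul (((contDiff_fst.comp contDiff_snd).comp contDiff_snd).comp contDiff_fst))).add
        ((hs.pow 2).smul (((contDiff_snd.comp contDiff_snd).comp contDiff_snd).comp contDiff_fst))
    have hF : ContDiffOn ℝ ∞ F U := by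
      have hGc : ContDiffOn ℝ ∞ (fun q => G (pt q)) U :=
        hG.smooth.comp hpt.contDiffOn fun q hq => hq
      have hGv := ((ContinuousLinearMap.restrictScalarsL ℂ (Cn n) (Cn n) ℝ ℝ).contDiff.comp_contDiffOn
        hGc).clm_apply hv.contDiffOn
      exact Complex.reCLM.contDiff.comp_contDiffOn (hv.contDiffOn.inner ℂ hGv)
    set F₁ : Jet n × ℝ → ℝ := fun q => fderiv ℝ F q (0, 1)
    have hF1 : ContDiffOn ℝ ∞ F₁ U :=
      (hF.fderiv_of_isOpen hU (by simp)).clm_apply contDiffOn_const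
    set F₂ : Jet n × ℝ → ℝ := fun q => fderiv ℝ F₁ q (0, 1)
    have hF2 : ContinuousOn F₂ U :=
      ((hF1.fderiv_of_isOpen hU (m := ∞) (by simp)).clm_apply contDiffOn_const).continuousOn
    have slice : ∀ {H : Jet n × ℝ → ℝ}, ContDiffOn ℝ ∞ H U → ∀ p s, (p, s) ∈ U →
        HasDerivAt (fun t => H (p, t)) (fderiv ℝ H (p, s) (0, 1)) s := fun {H} hH p s hq =>
      ((hH.contDiffAt (hU.mem_nhds hq)).differentiableAt (by simp)).hasFDerivAt.comp_hasDerivAt s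
        ((hasDerivAt_const s p).prodMk (hasDerivAt_id s))
    have h0U : ∀ p ∈ P, (p, (0 : ℝ)) ∈ U := fun p hp => by simpa [U, pt] using hPD p hp
    have hev : ∀ p ∈ P, ∀ᶠ z : Jet n × ℝ in 𝓝 (p, 0),
        z ∈ U ∧ |F₂ z - F₂ (z.1, 0)| ≤ ε / 4 := by
      intro p hp
      have hn := hU.mem_nhds (h0U p hp)
      have c1 : ContinuousAt F₂ (p, 0) := hF2.continuousAt hn
      have c2 : ContinuousAt (fun z : Jet n × ℝ => F₂ (z.1, 0)) (p, 0) :=
        ContinuousAt.comp (g := F₂) c1 ((continuous_fst.prodMk continuous_const).continuousAt)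
      have c3 := (c1.sub c2).norm
      filter_upwards [hn, c3.eventually_lt (continuousAt_const (y := ε / 4)) (by simpa using (by linarith : 0 < ε / 4))]
        with z h1 h2
      exact ⟨h1, by simpa [Real.norm_eq_abs] using h2.le⟩
    have hall : ∀ᶠ r : ℝ in 𝓝 0, ∀ p ∈ P, (p, r) ∈ U ∧ |F₂ (p, r) - F₂ (p, 0)| ≤ ε / 4 :=
      hP.eventually_forall_of_forall_eventually fun p hp => by
        simpa [nhds_prod_eq, Prod.swap] using
          ((continuous_swap.tendsto ((0 : ℝ), p)).eventually (hev p hp))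
    obtain ⟨r₀, hr₀, hball⟩ := Metric.eventually_nhds_iff.1 hall
    refine ⟨r₀, hr₀, fun p hp r hr hrr k k₂ hk hk2 => ?_⟩
    have hin : ∀ s ∈ Icc (-r) r, (p, s) ∈ U ∧ |F₂ (p, s) - F₂ (p, 0)| ≤ ε / 4 := fun s hs =>
      hball (by rw [dist_zero_right, Real.norm_eq_abs]; exact lt_of_le_of_lt (abs_le.2 hs) hrr) p hp
    have hk2' : F₂ (p, 0) = k₂ := by
      have e : k =ᶠ[𝓝 0] fun s => F₁ (p, s) := by
        have hn : ∀ᶠ s : ℝ in 𝓝 0, (p, s) ∈ U :=
          (continuous_const.prodMk continuous_id).tendsto (0 : ℝ) (hU.mem_nhds (h0U p hp))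
        filter_upwards [hk, hn] with s hs hsU using hs.unique (slice hF p s hsU)
      exact (slice hF1 p 0 (h0U p hp)).unique (hk2.congr_of_eventuallyEq e.symm)
    have h := abs_le.1 (second_diff (h := fun s => F (p, s)) hr (fun s hs => slice hF p s (hin s hs).1)
      (fun s hs => slice hF1 p s (hin s hs).1) (fun s hs => (hin s hs).2))
    simp only [F, hk2', Complex.ofReal_neg, neg_mul, Complex.ofReal_zero, zero_mul] at h
    nlinarith [h.2]
  obtain ⟨r1, hr1, h1⟩ := key 1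
  obtain ⟨r2, hr2, h2⟩ := key I
  refine ⟨min r1 r2, lt_min hr1 hr2, fun p hp r hr hrr => ?_⟩
  set c : ℂ → Cn n := fun τ => p.1.1 + τ • p.1.2.1 + τ ^ 2 • p.1.2.2
  set W : ℂ → Cn n := fun τ => p.2.1 + τ • p.2.2.1 + τ ^ 2 • p.2.2.2
  have sm : ∀ a b e : Cn n, ContDiff ℂ ∞ (fun τ : ℂ => a + τ • b + τ ^ 2 • e) := fun a b e =>
    (contDiff_const.add (contDiff_id.smul contDiff_const)).add ((contDiff_id.pow 2).smul contDiff_const)
  have dv : ∀ a b e : Cn n, deriv (fun τ : ℂ => a + τ • b + τ ^ 2 • e) 0 = b := fun a b e => by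
    have := (((hasDerivAt_id (0 : ℂ)).smul_const b).const_add a).add
      (((hasDerivAt_id (0 : ℂ)).pow 2).smul_const e)
    exact this.deriv.trans (by simp)
  obtain ⟨k, l, hk, hl, k2, l2, hk2, hl2, e⟩ := levi_eq hG (sm _ _ _) (sm p.2.1 p.2.2.1 p.2.2.2)
    (c := c) (a := 0) (by simpa [c] using hPD p hp)
  have a1 := h1 p hp r hr (hrr.trans_le (min_le_left _ _)) k k2
    (hk.mono fun s hs => by simpa [jetE, c] using hs) hk2
  have a2 := h2 p hp r hr (hrr.trans_le (min_le_right _ _)) l l2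
    (hl.mono fun s hs => by simpa [jetE, c] using hs) hl2
  simp only [c, dv, zero_smul, add_zero, zero_pow, ne_eq, OfNat.ofNat_ne_zero, not_false_eq_true] at e
  simp only [mul_one] at a1
  simp only [four]
  nlinarith [a1, a2]

end Vale.Agent.P253.Circle
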