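import Vale.Agent.P253.Circle.Flow

/-!
P253: linearisation of the circle action at a sink.
-/

open scoped Manifold ContDiff Topology Interval
open Complex Set Filter MeasureTheory

noncomputable section

namespace Vale.Agent.P253.Circle

open Vale.Agent.Results.P253.SymmetricDomains (rot CFlow)

variable {n : ℕ}

/-- A diagonal map. -/
def diag (c : Fin n → ℂ) : Cn n →L[ℂ] Cn n :=
  LinearMap.toContinuousLinearMap
    { toFun := fun z => WithLp.toLp 2 fun j => c j * z j
      map_add' := fun x y => by ext j; simp [mul_add]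
      map_smul' := fun a x => by ext j; simp [mul_left_comm] }

@[simp] theorem diag_apply (c : Fin n → ℂ) (z : Cn n) (j : Fin n) : diag c z j = c j * z j := rfl

theorem diag_diag (c d : Fin n → ℂ) (z : Cn n) : diag c (diag d z) = diag (fun j => c j * d j) z := by
  ext j
  simp [mul_assoc]

theorem rot_eq (k : Fin n → ℕ) (τ : ℂ) : rot k τ = diag fun j => Complex.exp ((k j : ℂ) * τ) := rfl

theorem rot_add (k : Fin n → ℕ) (s t : ℂ) (z : Cn n) : rot k (s + t) z = rot k s (rot k t z) := by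
  ext j
  simp [rot, mul_add, Complex.exp_add, mul_assoc]

theorem rot_zero (k : Fin n → ℕ) (z : Cn n) : rot k 0 z = z := by
  ext j
  simp [rot]

theorem fderiv_rot (k : Fin n → ℕ) (τ : ℂ) (z : Cn n) :
    fderiv ℂ (rot k τ) z = diag fun j => Complex.exp ((k j : ℂ) * τ) := by
  rw [rot_eq]
  exact ContinuousLinearMap.fderiv _

theorem cflow_rot (k : Fin n → ℕ) : CFlow (rot k) := by
  refine ⟨?_, rot_zero k, rot_add k⟩
  rw [contDiff_euclidean]
  intro j
  exact ((contDiff_const.mul contDiff_fst).cexp).mul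
    ((EuclideanSpace.proj (𝕜 := ℂ) j).contDiff.comp contDiff_snd)

theorem norm_rot_imag (k : Fin n → ℕ) (s : ℝ) (z : Cn n) : ‖rot k ((s : ℂ) * I) z‖ = ‖z‖ := by
  simp only [EuclideanSpace.norm_eq, rot]
  congr 1
  refine Finset.sum_congr rfl fun j _ => ?_
  simp [Complex.norm_exp]

theorem norm_rot_le (k : Fin n → ℕ) {τ : ℂ} (hτ : τ.re ≤ 0) (z : Cn n) :
    ‖rot k τ z‖ ≤ ‖z‖ := by
  simp only [EuclideanSpace.norm_eq, rot]
  refine Real.sqrt_le_sqrt (Finset.sum_le_sum fun j _ => ?_)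
  rw [norm_mul, Complex.norm_exp, mul_pow]
  refine mul_le_of_le_one_left (sq_nonneg _) (pow_le_one₀ (Real.exp_pos _).le ?_)
  rw [Real.exp_le_one_iff]
  simpa using mul_nonpos_of_nonneg_of_nonpos (Nat.cast_nonneg (k j)) hτ

variable {M : Type} [TopologicalSpace M] [ChartedSpace (Cn n) M] [IsManifold 𝓘(ℂ, Cn n) ω M]
  {G : Metric (Cn n) M} {ρ : ℝ → M → M}

theorem rho_period (hρ : CircleSymmetry G ρ) (z : M) :
    Function.Periodic (fun s => ρ s z) (2 * Real.pi) := fun s => by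
  show ρ (s + 2 * Real.pi) z = ρ s z
  rw [hρ.add, hρ.periodic]

theorem invariant_nhds (hρ : CircleSymmetry G ρ) {o : M} (hfix : ∀ s, ρ s o = o) {V : Set M}
    (hV : V ∈ 𝓝 o) : ∀ᶠ z in 𝓝 o, ∀ s, ρ s z ∈ V := by
  have h : ∀ᶠ z in 𝓝 o, ∀ s ∈ Icc (0 : ℝ) (2 * Real.pi), ρ s z ∈ V := by
    refine isCompact_Icc.eventually_forall_of_forall_eventually fun s _ => ?_
    have hc : ContinuousAt (fun p : M × ℝ => ρ p.2 p.1) (o, s) :=
      (hρ.cont.comp continuous_swap).continuousAt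
    have := hc.preimage_mem_nhds (show V ∈ 𝓝 (ρ s o) by rwa [hfix])
    exact this
  filter_upwards [h] with z hz s
  obtain ⟨t, ht, e⟩ := (rho_period hρ z).exists_mem_Ico₀ Real.two_pi_pos s
  have hb := hz t (Ico_subset_Icc_self ht)
  rwa [show ρ s z = ρ t z from e]

variable (b : Module.Basis (Fin n) ℂ (Cn n))

/-- Coordinates in the basis `b`. -/
def coord : Cn n ≃L[ℂ] Cn n :=
  (b.equivFun.trans (WithLp.linearEquiv 2 ℂ (Fin n → ℂ)).symm).toContinuousLinearEquiv

theorem coord_conj (D : Cn n →L[ℂ] Cn n) (c : Fin n → ℂ) (hD : ∀ j, D (b j) = c j • b j) :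
    (coord b : Cn n →L[ℂ] Cn n).comp D = (diag c).comp (coord b : Cn n →L[ℂ] Cn n) := by
  refine ContinuousLinearMap.coe_injective (b.ext fun j => ?_)
  ext i
  simp [coord, hD, Finsupp.single_apply, mul_comm]
  split_ifs with h
  · rw [h]
  · rfl

/-- The integrand of the averaged chart. -/
def avgTerm (ρ : ℝ → M → M) (o : M) (k : Fin n → ℕ) (y : Cn n) (s : ℝ) : Cn n :=
  diag (fun j => Complex.exp (-((k j : ℂ) * ((s : ℂ) * I))))
    (coord b (act n ρ o o s y - ch n o o))

/-- The averaged chart. -/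
def avg (ρ : ℝ → M → M) (o : M) (k : Fin n → ℕ) (y : Cn n) : Cn n :=
  ((1 / (2 * Real.pi) : ℝ) : ℂ) • ∫ s in (0 : ℝ)..2 * Real.pi, avgTerm b ρ o k y s

theorem avg_equivariant (hρ : CircleSymmetry G ρ) {o : M} (k : Fin n → ℕ) {y : Cn n} {t : ℝ}
    (hy : ρ t ((ch n o).symm y) ∈ (ch n o).source) :
    avg b ρ o k (act n ρ o o t y) = rot k ((t : ℂ) * I) (avg b ρ o k y) := by
  set g : ℝ → Cn n := avgTerm b ρ o k y
  have hsh : ∀ s, avgTerm b ρ o k (act n ρ o o t y) s =
      diag (fun j => Complex.exp ((k j : ℂ) * ((t : ℂ) * I))) (g (s + t)) := fun s => by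
    simp only [g, avgTerm, diag_diag]
    congr 2
    · funext j
      rw [← Complex.exp_add]
      congr 1
      push_cast
      ring
    · simp [act, (ch n o).left_inv hy, hρ.add]
  have hper : Function.Periodic g (2 * Real.pi) := fun s => by
    simp only [g, avgTerm]
    congr 2
    · congr 1
      funext j
      refine Complex.exp_eq_exp_iff_exists_int.2 ⟨-(k j : ℤ), ?_⟩
      push_cast
      ring
    · simp [act, hρ.add, hρ.periodic]
  simp only [avg, hsh, rot_eq, map_smul]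
  congr 1
  set L := diag fun j => Complex.exp ((k j : ℂ) * ((t : ℂ) * I))
  have e1 : ∫ s in (0 : ℝ)..2 * Real.pi, g (s + t) = ∫ s in (0 : ℝ)..2 * Real.pi, g s := by
    rw [intervalIntegral.integral_comp_add_right, zero_add, add_comm _ t,
      hper.intervalIntegral_add_eq t 0, zero_add]
  by_cases hint : IntervalIntegrable (fun s => g (s + t)) volume 0 (2 * Real.pi)
  · rw [L.intervalIntegral_comp_comm hint, e1]
  · have hint' : ¬IntervalIntegrable (fun s => L (g (s + t))) volume 0 (2 * Real.pi) := by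
      intro h
      refine hint ?_
      set L' := diag fun j => Complex.exp (-((k j : ℂ) * ((t : ℂ) * I)))
      have h2 : (fun s => g (s + t)) = fun s => L' (L (g (s + t))) := funext fun s => by
        ext j
        simp [L', L, ← mul_assoc, ← Complex.exp_add]
      rw [h2, intervalIntegrable_iff] at *
      exact L'.integrable_comp h
    rw [intervalIntegral.integral_undef hint', ← e1, intervalIntegral.integral_undef hint, map_zero]

/-- Differentiating an average of holomorphic maps. -/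
theorem param_deriv {f : ℝ × Cn n → Cn n} {p₀ : Cn n} {R₁ R a c : ℝ} (hR : 0 < R)
    (hR₁ : 2 * R < R₁) (hac : a ≤ c)
    (hf : ContDiffOn ℝ ∞ f (univ ×ˢ Metric.ball p₀ R₁))
    (hfc : ∀ s, DifferentiableOn ℂ (fun y => f (s, y)) (Metric.ball p₀ R₁))
    {y : Cn n} (hy : y ∈ Metric.ball p₀ R) :
    HasFDerivAt (fun y => ∫ s in a..c, f (s, y))
      (∫ s in a..c, fderiv ℂ (fun y => f (s, y)) y) y := by
  set W : Set (ℝ × Cn n) := univ ×ˢ Metric.ball p₀ R₁
  have hWo : IsOpen W := isOpen_univ.prod Metric.isOpen_ball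
  have hK : IsCompact (Icc a c ×ˢ Metric.closedBall p₀ (2 * R)) :=
    isCompact_Icc.prod (isCompact_closedBall _ _)
  obtain ⟨C, hC⟩ := hK.exists_bound_of_continuousOn (hf.continuousOn.mono fun q hq =>
    ⟨trivial, Metric.closedBall_subset_ball hR₁ hq.2⟩)
  have hC0 : 0 ≤ C := (norm_nonneg _).trans (hC (a, p₀) ⟨left_mem_Icc.2 hac,
    Metric.mem_closedBall_self (by linarith)⟩)
  have hIc : Ι a c ⊆ Icc a c := by
    rw [uIoc_of_le hac]; exact Ioc_subset_Icc_self
  have hy1 : ∀ x ∈ Metric.ball p₀ R, x ∈ Metric.ball p₀ R₁ := fun x hx =>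
    Metric.ball_subset_ball (by linarith) hx
  have hline : ∀ x ∈ Metric.ball p₀ R, Continuous fun s => f (s, x) := fun x hx =>
    continuousOn_univ.1 (ContinuousOn.comp (g := f) (f := fun s : ℝ => (s, x)) (t := W)
      hf.continuousOn ((continuous_id.prodMk continuous_const).continuousOn)
      fun s _ => ⟨trivial, hy1 x hx⟩)
  have hmeas : Continuous fun s => fderiv ℂ (fun y => f (s, y)) y := by
    rw [← continuousOn_univ, continuousOn_clm_apply]
    intro v
    have e : ∀ s : ℝ, fderiv ℂ (fun y => f (s, y)) y v = fderiv ℝ f (s, y) (0, v) := fun s => by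
      have h1 : HasFDerivAt f (fderiv ℝ f (s, y)) (s, y) :=
        ((hf.contDiffAt (hWo.mem_nhds (show (s, y) ∈ W from
          ⟨trivial, hy1 y hy⟩))).differentiableAt (by simp)).hasFDerivAt
      have hp : HasFDerivAt (fun z : Cn n => (s, z)) (ContinuousLinearMap.inr ℝ ℝ (Cn n)) y :=
        hasFDerivAt_prodMk_right s y
      have h2 : HasFDerivAt (fun z => f (s, z))
          ((fderiv ℝ f (s, y)).comp (ContinuousLinearMap.inr ℝ ℝ (Cn n))) y :=
        HasFDerivAt.comp (g := f) (f := fun z : Cn n => (s, z)) y h1 hp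
      have h3 : HasFDerivAt (fun z => f (s, z))
          ((fderiv ℂ (fun y => f (s, y)) y).restrictScalars ℝ) y :=
        ((hfc s).differentiableAt
          (Metric.isOpen_ball.mem_nhds (hy1 y hy))).hasFDerivAt.restrictScalars ℝ
      have h4 := congrArg (fun T : Cn n →L[ℝ] Cn n => T v) (h3.unique h2)
      simpa using h4
    simp only [e]
    have hD : ContinuousOn (fderiv ℝ f) W := hf.continuousOn_fderiv_of_isOpen hWo (by simp)
    have hpair : ContinuousOn (fun s : ℝ => (s, y)) univ :=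
      (continuous_id.prodMk continuous_const).continuousOn
    have hD' : ContinuousOn (fun s : ℝ => fderiv ℝ f (s, y)) univ :=
      ContinuousOn.comp (g := fderiv ℝ f) (f := fun s : ℝ => (s, y)) hD hpair
        fun s _ => ⟨trivial, hy1 y hy⟩
    exact hD'.clm_apply continuousOn_const
  refine intervalIntegral.hasFDerivAt_integral_of_dominated_of_fderiv_le (𝕜 := ℂ)
    (F := fun y s => f (s, y)) (F' := fun y s => fderiv ℂ (fun y => f (s, y)) y)
    (s := Metric.ball p₀ R) (bound := fun _ => C / R) (Metric.isOpen_ball.mem_nhds hy) ?_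
    ((hline y hy).intervalIntegrable _ _) hmeas.aestronglyMeasurable
    (Eventually.of_forall fun s hs x hx => ?_)
    (intervalIntegrable_const : IntervalIntegrable (fun _ : ℝ => C / R) volume a c)
    (Eventually.of_forall fun s hs x hx => ?_)
  · filter_upwards [Metric.isOpen_ball.mem_nhds hy] with x hx
    exact (hline x hx).aestronglyMeasurable
  · exact fderiv_bound hR hC0 ((hfc s).mono (Metric.ball_subset_ball hR₁.le))
      (fun z hz => hC (s, z) ⟨hIc hs, Metric.ball_subset_closedBall hz⟩) hx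
  · exact ((hfc s).differentiableAt (Metric.isOpen_ball.mem_nhds (hy1 x hx))).hasFDerivAt

theorem avgTerm_smooth (hρ : CircleSymmetry G ρ) {o : M} (k : Fin n → ℕ) {R₁ : ℝ}
    (hW : ∀ y ∈ Metric.ball (ch n o o) R₁, y ∈ (ch n o).target ∧
      ∀ s, ρ s ((ch n o).symm y) ∈ (ch n o).source) :
    ContDiffOn ℝ ∞ (fun q : ℝ × Cn n => avgTerm b ρ o k q.2 q.1)
        (univ ×ˢ Metric.ball (ch n o o) R₁) ∧
      ∀ s, DifferentiableOn ℂ (fun y => avgTerm b ρ o k y s) (Metric.ball (ch n o o) R₁) := by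
  refine ⟨fun q hq => ?_, fun s y hy => ?_⟩
  · have h1 := act_smooth hρ (x := o) (y := o) (hW q.2 hq.2).1 ((hW q.2 hq.2).2 q.1)
    have h2 : ContDiffAt ℝ ∞
        (fun q : ℝ × Cn n => coord b (act n ρ o o q.1 q.2 - ch n o o)) q :=
      ((coord b : Cn n →L[ℂ] Cn n).restrictScalars ℝ).contDiff.contDiffAt.comp q
        (h1.sub contDiffAt_const)
    refine ContDiffAt.contDiffWithinAt ?_
    simp only [avgTerm]
    rw [contDiffAt_piLp]
    intro j
    simp only [diag_apply]
    refine ContDiffAt.mul ?_ (((EuclideanSpace.proj (𝕜 := ℂ) j).restrictScalars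
      ℝ).contDiff.contDiffAt.comp q h2)
    exact ((contDiffAt_const.mul ((Complex.ofRealCLM.contDiff.contDiffAt.comp q
      contDiffAt_fst).mul contDiffAt_const)).neg).cexp
  · have h1 := act_diff hρ (x := o) (y := o) (hW y hy).1 ((hW y hy).2 s)
    exact ((diag _).differentiableAt.comp y ((coord b : Cn n →L[ℂ] Cn n).differentiableAt.comp y
      (h1.sub (differentiableAt_const _)))).differentiableWithinAt

theorem avgTerm_deriv (hρ : CircleSymmetry G ρ) {o : M} (hfix : ∀ s, ρ s o = o)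
    (k : Fin n → ℕ) (hlin : ∀ (s : ℝ) (j : Fin n), mfderiv 𝓘(ℂ, Cn n) 𝓘(ℂ, Cn n) (ρ s) o (b j) =
      (Complex.exp (((k j : ℂ) * (s : ℂ)) * I) • b j : Cn n)) (s : ℝ) :
    fderiv ℂ (fun y => avgTerm b ρ o k y s) (ch n o o) = (coord b : Cn n →L[ℂ] Cn n) := by
  have hsrc := mem_chart_source (Cn n) o
  have hs : ρ s ((ch n o).symm (ch n o o)) ∈ (ch n o).source := by
    rw [(ch n o).left_inv hsrc, hfix]; exact hsrc
  have hd := (act_diff hρ (x := o) (y := o) ((ch n o).map_source hsrc) hs).hasFDerivAt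
  have hm : (mfderiv 𝓘(ℂ, Cn n) 𝓘(ℂ, Cn n) (ρ s) o : Cn n →L[ℂ] Cn n) =
      fderiv ℂ (act n ρ o o s) (ch n o o) := by
    rw [(hρ.holo s o).mfderiv]
    simp [writtenInExtChartAt, hfix, ch, Function.comp_def]
    rfl
  have hconj := coord_conj b (fderiv ℂ (act n ρ o o s) (ch n o o))
    (fun j => Complex.exp (((k j : ℂ) * (s : ℂ)) * I))
    (fun j => by rw [← hm]; exact hlin s j)
  have h2 := ((diag fun j => Complex.exp (-((k j : ℂ) * ((s : ℂ) * I)))).hasFDerivAt.comp (ch n o o)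
    ((coord b : Cn n →L[ℂ] Cn n).hasFDerivAt.comp (ch n o o) (hd.sub_const (ch n o o))))
  rw [hconj] at h2
  refine (h2.congr_fderiv ?_).fderiv
  ext u j
  simp [← mul_assoc, ← Complex.exp_add]

theorem avg_diff [T2Space M] (hρ : CircleSymmetry G ρ) {o : M} (hfix : ∀ s, ρ s o = o)
    (k : Fin n → ℕ) (hlin : ∀ (s : ℝ) (j : Fin n), mfderiv 𝓘(ℂ, Cn n) 𝓘(ℂ, Cn n) (ρ s) o (b j) =
      (Complex.exp (((k j : ℂ) * (s : ℂ)) * I) • b j : Cn n)) :
    ∃ R > 0, Metric.ball (ch n o o) R ⊆ (ch n o).target ∧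
      DifferentiableOn ℂ (avg b ρ o k) (Metric.ball (ch n o o) R) ∧
      HasFDerivAt (avg b ρ o k) (coord b : Cn n →L[ℂ] Cn n) (ch n o o) ∧
      avg b ρ o k (ch n o o) = 0 := by
  have hsrc := mem_chart_source (Cn n) o
  have hp₀ : ch n o o ∈ (ch n o).target := (ch n o).map_source hsrc
  have hinv : ∀ᶠ y in 𝓝 (ch n o o), y ∈ (ch n o).target ∧
      ∀ s, ρ s ((ch n o).symm y) ∈ (ch n o).source := by
    have h1 : ∀ᶠ y in 𝓝 (ch n o o), y ∈ (ch n o).target := (ch n o).open_target.mem_nhds hp₀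
    have h2 : Tendsto (ch n o).symm (𝓝 (ch n o o)) (𝓝 o) := by
      have := ((ch n o).continuousAt_symm hp₀).tendsto
      rwa [(ch n o).left_inv hsrc] at this
    exact h1.and (h2.eventually (invariant_nhds hρ hfix ((ch n o).open_source.mem_nhds hsrc)))
  obtain ⟨R₁, hR₁, hsub⟩ := Metric.mem_nhds_iff.1 hinv
  obtain ⟨hf, hfc⟩ := avgTerm_smooth b hρ k (R₁ := R₁) fun y hy => hsub hy
  have hder : ∀ y ∈ Metric.ball (ch n o o) (R₁ / 4), HasFDerivAt
      (fun y => ∫ s in (0 : ℝ)..2 * Real.pi, avgTerm b ρ o k y s)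
      (∫ s in (0 : ℝ)..2 * Real.pi, fderiv ℂ (fun y => avgTerm b ρ o k y s) y) y := fun y hy =>
    param_deriv (f := fun q : ℝ × Cn n => avgTerm b ρ o k q.2 q.1) (R := R₁ / 4) (by linarith)
      (by linarith) Real.two_pi_pos.le hf hfc hy
  refine ⟨R₁ / 4, by linarith,
    fun y hy => (hsub (Metric.ball_subset_ball (by linarith) hy)).1,
    fun y hy => ((hder y hy).const_smul
      ((1 / (2 * Real.pi) : ℝ) : ℂ)).differentiableAt.differentiableWithinAt, ?_, ?_⟩
  · have h := (hder (ch n o o) (Metric.mem_ball_self (by linarith))).const_smul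
      ((1 / (2 * Real.pi) : ℝ) : ℂ)
    simp only [avgTerm_deriv b hρ hfix k hlin, intervalIntegral.integral_const, sub_zero] at h
    refine h.congr_fderiv ?_
    ext u j
    simp [← Complex.coe_smul]
    field_simp
  · simp [avg, avgTerm, act, (ch n o).left_inv hsrc, hfix]

/-- A holomorphic chart at the sink in which the action is linear. -/
theorem linearise [T2Space M] (hρ : CircleSymmetry G ρ) {o : M} (hfix : ∀ s, ρ s o = o)
    (k : Fin n → ℕ) (hlin : ∀ (s : ℝ) (j : Fin n), mfderiv 𝓘(ℂ, Cn n) 𝓘(ℂ, Cn n) (ρ s) o (b j) =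
      (Complex.exp (((k j : ℂ) * (s : ℂ)) * I) • b j : Cn n)) :
    ∃ r > 0, ∃ Ψ : Cn n → M, Ψ 0 = o ∧
      (∀ z ∈ Metric.ball 0 r, Ψ z ∈ (ch n o).source ∧
        DifferentiableAt ℂ (fun w => ch n o (Ψ w)) z ∧
        Function.Injective (fderiv ℂ (fun w => ch n o (Ψ w)) z)) ∧
      InjOn Ψ (Metric.ball 0 r) ∧
      ∀ z ∈ Metric.ball 0 r, ∀ s : ℝ, ρ s (Ψ z) = Ψ (rot k ((s : ℂ) * I) z) := by
  obtain ⟨R, hR, hRt, hd, hd0, hz0⟩ := avg_diff b hρ hfix k hlin
  set p₀ := ch n o o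
  set F := avg b ρ o k
  have hsrc := mem_chart_source (Cn n) o
  have hp₀ : p₀ ∈ (ch n o).target := (ch n o).map_source hsrc
  have hFs : ContDiffOn ℂ ∞ F (Metric.ball p₀ R) := contDiffOn_holo Metric.isOpen_ball hd
  have hFat : ContDiffAt ℂ ∞ F p₀ := hFs.contDiffAt (Metric.ball_mem_nhds _ hR)
  set e := hFat.toOpenPartialHomeomorph F hd0 (by simp)
  have he : ∀ y, e y = F y := fun _ => rfl
  have hep : p₀ ∈ e.source := hFat.mem_toOpenPartialHomeomorph_source hd0 (by simp)
  have hinvd : ∀ᶠ y in 𝓝 p₀, fderiv ℂ F y ∈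
      range ((↑) : (Cn n ≃L[ℂ] Cn n) → Cn n →L[ℂ] Cn n) := by
    have hc : ContinuousAt (fderiv ℂ F) p₀ :=
      (hFs.continuousOn_fderiv_of_isOpen Metric.isOpen_ball (by simp)).continuousAt
        (Metric.ball_mem_nhds _ hR)
    exact hc.preimage_mem_nhds (by rw [hd0.fderiv]; exact ContinuousLinearEquiv.nhds _)
  have hU : ∀ᶠ z in 𝓝 o, ∀ s, ρ s z ∈ (ch n o).source ∧ ch n o (ρ s z) ∈ e.source := by
    refine invariant_nhds hρ hfix (V := {z | z ∈ (ch n o).source ∧ ch n o z ∈ e.source}) ?_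
    exact inter_mem ((ch n o).open_source.mem_nhds hsrc)
      (((ch n o).continuousAt hsrc).preimage_mem_nhds (e.open_source.mem_nhds hep))
  have hV : ∀ᶠ y in 𝓝 p₀, y ∈ Metric.ball p₀ R ∧ y ∈ e.source ∧
      fderiv ℂ F y ∈ range ((↑) : (Cn n ≃L[ℂ] Cn n) → Cn n →L[ℂ] Cn n) ∧
      ∀ s, ρ s ((ch n o).symm y) ∈ (ch n o).source ∧ act n ρ o o s y ∈ e.source := by
    have h2 : Tendsto (ch n o).symm (𝓝 p₀) (𝓝 o) := by
      have := ((ch n o).continuousAt_symm hp₀).tendsto
      rwa [(ch n o).left_inv hsrc] at this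
    have a1 : ∀ᶠ y in 𝓝 p₀, y ∈ Metric.ball p₀ R := Metric.ball_mem_nhds _ hR
    have a2 : ∀ᶠ y in 𝓝 p₀, y ∈ e.source := e.open_source.mem_nhds hep
    filter_upwards [a1, a2, hinvd, h2.eventually hU] with y b1 b2 b3 b4 using ⟨b1, b2, b3, b4⟩
  have h0t : (0 : Cn n) ∈ e.target := by rw [← hz0]; exact e.map_source hep
  have e0 : e.symm 0 = p₀ := by rw [← hz0]; exact e.left_inv hep
  have hev : ∀ᶠ z in 𝓝 (0 : Cn n), z ∈ e.target ∧ (e.symm z ∈ Metric.ball p₀ R ∧
      e.symm z ∈ e.source ∧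
      fderiv ℂ F (e.symm z) ∈ range ((↑) : (Cn n ≃L[ℂ] Cn n) → Cn n →L[ℂ] Cn n) ∧
      ∀ s, ρ s ((ch n o).symm (e.symm z)) ∈ (ch n o).source ∧
        act n ρ o o s (e.symm z) ∈ e.source) := by
    have ht : Tendsto e.symm (𝓝 0) (𝓝 p₀) := e0 ▸ (e.continuousAt_symm h0t).tendsto
    have a1 : ∀ᶠ z in 𝓝 (0 : Cn n), z ∈ e.target := e.open_target.mem_nhds h0t
    exact a1.and (ht.eventually hV)
  obtain ⟨r, hr, hball⟩ := Metric.mem_nhds_iff.1 hev
  have hsym : ∀ z ∈ Metric.ball (0 : Cn n) r,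
      (ch n o).symm (e.symm z) ∈ (ch n o).source ∧
        ch n o ((ch n o).symm (e.symm z)) = e.symm z := fun z hz =>
    ⟨(ch n o).map_target (hRt (hball hz).2.1), (ch n o).right_inv (hRt (hball hz).2.1)⟩
  refine ⟨r, hr, fun z => (ch n o).symm (e.symm z), ?_, fun z hz => ?_, ?_, fun z hz s => ?_⟩
  · show (ch n o).symm (e.symm 0) = o
    rw [e0]
    exact (ch n o).left_inv hsrc
  · obtain ⟨hzt, hy1, hy2, ⟨E, hE⟩, -⟩ := hball hz
    have hdy : HasFDerivAt e (E : Cn n →L[ℂ] Cn n) (e.symm z) := by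
      rw [hE]
      exact (hd.differentiableAt (Metric.isOpen_ball.mem_nhds hy1)).hasFDerivAt
    have hds := e.hasFDerivAt_symm hzt hdy
    have hev' : (fun w => ch n o ((ch n o).symm (e.symm w))) =ᶠ[𝓝 z] e.symm := by
      filter_upwards [Metric.isOpen_ball.mem_nhds hz] with w hw using (hsym w hw).2
    have hds' := hds.congr_of_eventuallyEq hev'
    refine ⟨(hsym z hz).1, hds'.differentiableAt, ?_⟩
    rw [hds'.fderiv]
    exact E.symm.injective
  · intro z hz w hw h
    have h' := congrArg (ch n o) h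
    simp only [(hsym z hz).2, (hsym w hw).2] at h'
    rw [← e.right_inv (hball hz).1, ← e.right_inv (hball hw).1, h']
  · obtain ⟨hzt, hy1, hy2, -, horb⟩ := hball hz
    have hz' : rot k ((s : ℂ) * I) z ∈ Metric.ball (0 : Cn n) r := by
      rw [mem_ball_zero_iff, norm_rot_imag]
      exact mem_ball_zero_iff.1 hz
    have hF : F (act n ρ o o s (e.symm z)) = rot k ((s : ℂ) * I) z := by
      refine (avg_equivariant b hρ k (horb s).1).trans ?_
      show rot k ((s : ℂ) * I) (e (e.symm z)) = _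
      rw [e.right_inv hzt]
    have : e.symm (rot k ((s : ℂ) * I) z) = act n ρ o o s (e.symm z) := by
      rw [← hF, ← he]
      exact e.left_inv (horb s).2
    show ρ s _ = (ch n o).symm (e.symm (rot k ((s : ℂ) * I) z))
    rw [this]
    exact ((ch n o).left_inv (horb s).1).symm

end Vale.Agent.P253.Circle
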