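import Vale.Agent.P253.Circle.Extend

/-!
P253: the moment function of a rotation-invariant Kaehler metric on `ℂ^n`.
-/

open scoped ContDiff InnerProductSpace Topology
open Complex Set Filter

noncomputable section

namespace Vale.Agent.P253.Circle

open Vale.Agent.Results.P253.SymmetricDomains (rot RealSymmetry IsPos dz hasDerivAt_apply fderiv_symm)

variable {n : ℕ} {k : Fin n → ℕ} {H : Cn n → (Cn n →L[ℂ] Cn n)}

theorem hasDerivAt_rotC (k : Fin n → ℕ) (z : Cn n) (τ : ℂ) :
    HasDerivAt (fun t : ℂ => rot k t z) (diag (fun j => (k j : ℂ)) (rot k τ z)) τ := by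
  have h0 : ∀ j, HasDerivAt (fun t : ℂ => Complex.exp ((k j : ℂ) * t) * z j)
      ((k j : ℂ) * (Complex.exp ((k j : ℂ) * τ) * z j)) τ := fun j => by
    have := (((hasDerivAt_id τ).const_mul (k j : ℂ)).cexp).mul_const (z j)
    simpa [mul_comm, mul_left_comm, mul_assoc] using this
  exact (PiLp.continuousLinearEquiv 2 ℂ (fun _ : Fin n => ℂ)).symm.hasFDerivAt.comp_hasDerivAt τ
    (hasDerivAt_pi.2 h0)

theorem hasDerivAt_rot_line (k : Fin n → ℕ) (z : Cn n) (a e : ℂ) (t : ℝ) :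
    HasDerivAt (fun s : ℝ => rot k (a + (s : ℂ) * e) z)
      (e • diag (fun j => (k j : ℂ)) (rot k (a + (t : ℂ) * e) z)) t :=
  Vale.Agent.Results.P253.SymmetricDomains.hasDerivAt_line (hasDerivAt_rotC k z _)

theorem continuous_rot (k : Fin n → ℕ) (z : Cn n) : Continuous fun τ : ℂ => rot k τ z :=
  continuous_iff_continuousAt.2 fun τ => (hasDerivAt_rotC k z τ).continuousAt

theorem rot_two_pi (k : Fin n → ℕ) (z : Cn n) (τ : ℂ) :
    rot k (τ + ((2 * Real.pi : ℝ) : ℂ) * I) z = rot k τ z := by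
  rw [rot_add]
  congr 1
  ext j
  show Complex.exp ((k j : ℂ) * (((2 * Real.pi : ℝ) : ℂ) * I)) * z j = z j
  rw [show (k j : ℂ) * (((2 * Real.pi : ℝ) : ℂ) * I) = (k j : ℂ) * (2 * (Real.pi : ℂ) * I) by
    push_cast; ring, Complex.exp_nat_mul_two_pi_mul_I, one_mul]

theorem eul_ne {k : Fin n → ℕ} (hk : ∀ j, 0 < k j) {z : Cn n} (hz : z ≠ 0) :
    diag (fun j => (k j : ℂ)) z ≠ 0 := fun h => hz <| by
  ext j
  have := congrArg (fun w : Cn n => w j) h
  simpa [(hk j).ne'] using this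

theorem polar {T : Cn n →L[ℂ] Cn n} (hT : ∀ u v, ⟪T u, v⟫_ℂ = ⟪u, T v⟫_ℂ) (u v : Cn n) :
    sq T (u + v) = sq T u + sq T v + 2 * (⟪u, T v⟫_ℂ).re := by
  have h : (⟪v, T u⟫_ℂ).re = (⟪u, T v⟫_ℂ).re := by
    rw [← hT, ← inner_conj_symm (T v) u, Complex.conj_re]
  simp only [sq, Vale.Agent.Results.P253.SymmetricDomains.sq, map_add, inner_add_left,
    inner_add_right, Complex.add_re, h]
  ring

/-- The one-form whose potential is the moment function. -/
def form (k : Fin n → ℕ) (H : Cn n → (Cn n →L[ℂ] Cn n)) (z : Cn n) : Cn n →L[ℝ] ℝ :=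
  Complex.reCLM.comp
    (((innerSL ℂ (diag (fun j => (k j : ℂ)) z)).comp (H z)).restrictScalars ℝ)

theorem form_apply (z v : Cn n) :
    form k H z v = (⟪diag (fun j => (k j : ℂ)) z, H z v⟫_ℂ).re := rfl

variable (hH : Local univ H) (hS : RealSymmetry univ H (rot k))

include hH hS in
theorem invariance_deriv (z u v : Cn n) :
    (⟪I • diag (fun j => (k j : ℂ)) u, H z v⟫_ℂ).re +
      (⟪u, fderiv ℝ H z (I • diag (fun j => (k j : ℂ)) z) v⟫_ℂ).re +
        (⟪u, H z (I • diag (fun j => (k j : ℂ)) v)⟫_ℂ).re = 0 := by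
  have hinv : ∀ s : ℝ, (⟪rot k ((s : ℂ) * I) u, H (rot k ((s : ℂ) * I) z)
      (rot k ((s : ℂ) * I) v)⟫_ℂ).re = (⟪u, H z v⟫_ℂ).re := fun s => by
    have h : ∀ a, sq (H (rot k ((s : ℂ) * I) z)) (rot k ((s : ℂ) * I) a) = sq (H z) a :=
      fun a => by
        have := (hS s z trivial).2 a
        rw [fderiv_rot] at this
        exact this
    have e : rot k ((s : ℂ) * I) (u + v) = rot k ((s : ℂ) * I) u + rot k ((s : ℂ) * I) v := by
      rw [rot_eq]; exact map_add _ _ _
    have h1 := polar (hH.pos (rot k ((s : ℂ) * I) z) trivial).sym (rot k ((s : ℂ) * I) u)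
      (rot k ((s : ℂ) * I) v)
    have h2 := polar (hH.pos z trivial).sym u v
    rw [← e, h, h, h] at h1
    linarith
  have hl : ∀ w, HasDerivAt (fun s : ℝ => rot k ((s : ℂ) * I) w)
      (I • diag (fun j => (k j : ℂ)) w) 0 := fun w => by
    simpa [rot_zero] using hasDerivAt_rot_line k w 0 I 0
  have hHd : HasDerivAt (fun s : ℝ => H (rot k ((s : ℂ) * I) z))
      (fderiv ℝ H z (I • diag (fun j => (k j : ℂ)) z)) 0 :=
    ((hH.smooth.contDiffAt (IsOpen.mem_nhds hH.isOpen trivial)).differentiableAt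
      (by simp)).hasFDerivAt.comp_hasDerivAt_of_eq (0 : ℝ) (hl z) (by simp [rot_zero])
  have h1 := Complex.reCLM.hasFDerivAt.comp_hasDerivAt (0 : ℝ)
    ((hl u).inner ℂ (hasDerivAt_apply hHd (hl v)))
  have h2 : HasDerivAt (fun _ : ℝ => (⟪u, H z v⟫_ℂ).re) _ 0 :=
    h1.congr_of_eventuallyEq (Eventually.of_forall fun s => (hinv s).symm)
  have h3 := h2.unique (hasDerivAt_const _ _)
  simp [rot_zero, inner_add_right, map_smul, inner_smul_left, inner_smul_right] at h3 ⊢
  linarith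

include hH hS in
theorem exists_potential : ∃ F : Cn n → ℝ, ∀ z, HasFDerivAt F (form k H z) z := by
  set E : Cn n →L[ℂ] Cn n := diag fun j => (k j : ℂ)
  have hsm : ContDiff ℝ ∞ H := contDiffOn_univ.1 hH.smooth
  have hω : ContDiff ℝ ∞ (form k H) := contDiff_clm_apply_iff.2 fun y =>
    Complex.reCLM.contDiff.comp (((E.restrictScalars ℝ).contDiff).inner ℂ
      (((ContinuousLinearMap.restrictScalarsL ℂ (Cn n) (Cn n) ℝ ℝ).contDiff.comp hsm).clm_apply
        contDiff_const))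
  refine (convex_univ.exists_forall_hasFDerivAt_of_fderiv_symmetric isOpen_univ
    (hω.differentiable (by simp)).differentiableOn fun z _ a b => ?_).imp fun F hF z => hF z trivial
  have hd : ∀ x y, fderiv ℝ (form k H) z x y =
      (⟪E x, H z y⟫_ℂ).re + (⟪E z, fderiv ℝ H z x y⟫_ℂ).re := fun x y => by
    have hl : HasDerivAt (fun t : ℝ => z + t • x) x 0 := by
      simpa using ((hasDerivAt_id (0 : ℝ)).smul_const x).const_add z
    have h1 := ((hω.differentiable (by simp) z).hasFDerivAt.comp_hasDerivAt_of_eq (0 : ℝ) hl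
      (by simp)).clm_apply (hasDerivAt_const (0 : ℝ) y)
    have h2 := Complex.reCLM.hasFDerivAt.comp_hasDerivAt (0 : ℝ)
      ((((E.restrictScalars ℝ).hasFDerivAt).comp_hasDerivAt (0 : ℝ) hl).inner ℂ
        (hasDerivAt_apply ((hsm.differentiable (by simp) z).hasFDerivAt.comp_hasDerivAt_of_eq
          (0 : ℝ) hl (by simp)) (hasDerivAt_const (0 : ℝ) y)))
    have := h1.unique h2
    simp at this
    linarith
  rw [hd, hd]
  set T : Cn n → Cn n → Cn n → ℝ := fun d u v => (⟪u, fderiv ℝ H z d v⟫_ℂ).re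
  have hT : ∀ d u v, T d u v = T d v u := fun d u v => by
    simp only [T]
    rw [← fderiv_symm hH.isOpen hH.herm trivial, ← inner_conj_symm (fderiv ℝ H z d u) v,
      Complex.conj_re]
  have hI : ∀ d u v, T d (I • u) v = -T d u (I • v) := fun d u v => by
    simp [T, map_smul]
  have hK : ∀ p u w, T u p w + T (I • u) (I • p) w = T w p u + T (I • w) (I • p) u := fun p u w => by
    have h := congrArg (fun x => (⟪p, x⟫_ℂ).re) (hH.sym z trivial u w)
    simp [dz, smul_apply] at h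
    simp [T]
    linarith
  have hP := invariance_deriv hH hS z a (I • b)
  have e1 : (⟪I • E a, H z (I • b)⟫_ℂ).re = (⟪E a, H z b⟫_ℂ).re := by
    simp [map_smul]
  have e2 : (⟪a, H z (I • E (I • b))⟫_ℂ).re = -(⟪E b, H z a⟫_ℂ).re := by
    rw [map_smul E, smul_smul, Complex.I_mul_I, neg_one_smul, map_neg, inner_neg_right,
      Complex.neg_re, ← (hH.pos z trivial).sym, ← inner_conj_symm (H z a) (E b), Complex.conj_re]
  rw [e1, e2] at hP
  change _ + T (I • E z) a (I • b) + _ = 0 at hP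
  show _ + T a (E z) b = _ + T b (E z) a
  linarith [hK (E z) a b, hK b (E z) a, hK a (E z) b, hI (I • E z) b a, hI (I • E z) a b,
    hI (I • a) (E z) b, hI (I • b) (E z) a, hI (I • a) b (E z), hI (I • b) a (E z),
    hT (E z) a b, hT a b (E z), hT b a (E z), hT (I • E z) (I • b) a, hT (I • E z) (I • a) b,
    hT (I • a) (I • b) (E z), hT (I • b) (I • a) (E z)]

variable {F : Cn n → ℝ} (hF : ∀ z, HasFDerivAt F (form k H z) z)

include hH hF in
theorem potential_mono (z : Cn n) : Monotone fun t : ℝ => F (rot k (t : ℂ) z) := by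
  have hd : ∀ t : ℝ, HasDerivAt (fun t : ℝ => F (rot k (t : ℂ) z))
      (sq (H (rot k (t : ℂ) z)) (diag (fun j => (k j : ℂ)) (rot k (t : ℂ) z))) t := fun t => by
    have := (hF _).comp_hasDerivAt t (hasDerivAt_rot_line k z 0 1 t)
    simp only [zero_add, mul_one, one_smul] at this
    exact this
  exact monotone_of_deriv_nonneg (fun t => (hd t).differentiableAt) fun t => by
    rw [(hd t).deriv]; exact (hH.pos _ trivial).nonneg _

include hH hF in
theorem potential_imag (z : Cn n) (s : ℝ) : F (rot k ((s : ℂ) * I) z) = F z := by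
  have hd : ∀ t : ℝ, HasDerivAt (fun t : ℝ => F (rot k ((t : ℂ) * I) z)) 0 t := fun t => by
    have := (hF _).comp_hasDerivAt t (hasDerivAt_rot_line k z 0 I t)
    simp only [zero_add] at this
    refine this.congr_deriv ?_
    rw [form_apply, map_smul, inner_smul_right, Complex.I_mul_re, (hH.pos _ trivial).im_zero,
      neg_zero]
  simpa [rot_zero] using is_const_of_deriv_eq_zero (fun t => (hd t).differentiableAt)
    (fun t => (hd t).deriv) s 0

/-- A ray on which a function monotone along the flow stays bounded. -/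
theorem exists_ray (hk : ∀ j, 0 < k j) {Φ : Cn n → ℝ} (hc : Continuous Φ)
    (hm : ∀ z, Monotone fun t : ℝ => Φ (rot k (t : ℂ) z)) {C : ℝ}
    (hb : ∀ N : ℝ, ∃ w, N < ‖w‖ ∧ Φ w ≤ C) :
    ∃ z₀ : Cn n, ‖z₀‖ = 1 ∧ ∀ x : ℝ, Φ (rot k (x : ℂ) z₀) ≤ C := by
  set K : ℕ → Set (Cn n) := fun N => Metric.sphere 0 1 ∩ {z | Φ (rot k ((N : ℝ) : ℂ) z) ≤ C}
  have hKc : ∀ N, IsClosed (K N) := fun N => Metric.isClosed_sphere.inter <|
    isClosed_le (hc.comp (by rw [rot_eq]; exact (diag _).continuous)) continuous_const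
  have hKn : ∀ N, (K N).Nonempty := fun N => by
    set L : Cn n →L[ℂ] Cn n := diag fun j => Complex.exp ((k j : ℂ) * ((N : ℝ) : ℂ))
    obtain ⟨w, hw, hwC⟩ := hb ‖L‖
    set f : ℝ → ℝ := fun x => ‖rot k ((-x : ℝ) : ℂ) w‖
    have hf : Continuous f := ((continuous_rot k w).comp
      (Complex.continuous_ofReal.comp continuous_neg)).norm
    have hfN : 1 ≤ f N := by
      by_contra h
      have e : w = L (rot k ((-(N : ℝ) : ℝ) : ℂ) w) := by
        show _ = rot k ((N : ℝ) : ℂ) _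
        rw [← rot_add]; simp [rot_zero]
      have := (L.le_opNorm_of_le (not_le.1 h).le)
      rw [← e] at this
      linarith
    obtain ⟨M, ⟨-, hMs⟩, hM⟩ :=
      ((eventually_small hk w one_pos).and (eventually_ge_atTop (N : ℝ))).exists
    obtain ⟨x, hx, hxe⟩ := intermediate_value_Icc' hM hf.continuousOn ⟨hMs.le, hfN⟩
    refine ⟨rot k ((-x : ℝ) : ℂ) w, mem_sphere_zero_iff_norm.2 hxe, ?_⟩
    refine le_trans (hm _ hx.1) (le_trans (le_of_eq ?_) hwC)
    show Φ (rot k (x : ℂ) _) = Φ w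
    rw [← rot_add]; simp [rot_zero]
  obtain ⟨z₀, hz⟩ := IsCompact.nonempty_iInter_of_sequence_nonempty_isCompact_isClosed K
    (fun N z hz => ⟨hz.1, le_trans (hm z (by push_cast; linarith)) hz.2⟩) hKn
    ((isCompact_sphere _ _).of_isClosed_subset (hKc 0) inter_subset_left) hKc
  rw [mem_iInter] at hz
  refine ⟨z₀, mem_sphere_zero_iff_norm.1 (hz 0).1, fun x => ?_⟩
  obtain ⟨N, hN⟩ := exists_nat_ge x
  exact le_trans (hm z₀ hN) (hz N).2

end Vale.Agent.P253.Circle
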