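import Vale.Agent.P253.Circle.Point

/-!
P253: the four-point length of a varied piece of a curve in a chart.
-/

open scoped Manifold ContDiff InnerProductSpace Topology
open Complex Set Filter

noncomputable section

namespace Vale.Agent.P253.Circle

open Vale.Agent.Results.P253.SymmetricDomains (IsPos dz ddbar bisect)

variable {n : ℕ} {M : Type} [TopologicalSpace M] [ChartedSpace (Cn n) M] [IsManifold 𝓘(ℂ, Cn n) ω M]

/-- The four-point length of a varied piece of a curve in a chart. -/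
theorem piece {H : Metric (Cn n) M} (hH : IsKaehler H) {x : M} {c₀ : Cn n} {ρ : ℝ} (hρ : 0 < ρ)
    (hsub : Metric.closedBall c₀ (2 * ρ) ⊆ (ch n x).target) {C : ℝ} (hC : 0 ≤ C)
    (hconn : ∀ y ∈ Metric.closedBall c₀ ρ, ∀ v,
      ‖conn (rp H x) y v‖ ≤ C * Real.sqrt (sq (rp H x y) v))
    {SM A ε ℓ δ : ℝ} (hA : 0 ≤ A) (hε : 0 < ε) (hℓ : 1 ≤ ℓ) (hδ : 0 < δ) (hCδ : C * δ ≤ 1 / 2) :
    ∃ r₁ > 0, ∀ γ : ℝ → M, C1Curve (Cn n) γ → ∀ t₀ t₁ : ℝ, t₀ ≤ t₁ →
      (∀ t ∈ Icc t₀ t₁, γ t ∈ (ch n x).source ∧ ‖ch n x (γ t) - c₀‖ ≤ ρ) →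
      (∫ t in t₀..t₁, speed H γ t) = δ → ∀ σ₀ κ : ℝ, 0 ≤ σ₀ → σ₀ + δ ≤ ℓ → ∀ P₀ Q₀ : Cn n,
      sq (rp H x (ch n x (γ t₀))) P₀ ≤ SM → ‖Q₀‖ ≤ A →
      (∀ y ∈ Metric.closedBall c₀ ρ, ∀ W u, sq (rp H x y) u = 1 →
        (1 - (σ₀ + δ) / ℓ) ^ 2 * sq (rp H x (ch n x (γ t₀))) P₀ ≤ sq (rp H x y) W →
        sq (rp H x y) W ≤ sq (rp H x (ch n x (γ t₀))) P₀ → κ ≤ bisect (rp H x) y W u) →
      ∃ P₁ : Cn n, sq (rp H x (ch n x (γ t₁))) P₁ = sq (rp H x (ch n x (γ t₀))) P₀ ∧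
        ∀ r : ℝ, 0 ≤ r → r < r₁ →
          four (fun s => gd H ((ch n x).symm (fam (ch n x (γ t₀)) ((1 - σ₀ / ℓ) • P₀) Q₀ s))
            ((ch n x).symm (fam (ch n x (γ t₁)) ((1 - (σ₀ + δ) / ℓ) • P₁) 0 s))) r ≤
          4 * δ + r ^ 2 * δ *
            (2 * (-κ + sq (rp H x (ch n x (γ t₀))) P₀ / ℓ ^ 2) + ε / 2) := by
  have hsub1 : Metric.closedBall c₀ ρ ⊆ (ch n x).target :=
    (Metric.closedBall_subset_closedBall (by linarith)).trans hsub
  obtain ⟨a, b, ha, -, hab⟩ := hH.bounds (isCompact_closedBall c₀ ρ) hsub1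
  set G := rp H x
  have hL : Local (ch n x).target G := hH.chartMetric x
  set Ap := Real.sqrt SM / a
  set B : Box G :=
    { c₀ := c₀, ρ := ρ, a := a, C := C, Ap := Ap, A := A, ℓ := ℓ, δ := δ, a_pos := ha
      C_nonneg := hC, ℓ_ge := hℓ, δ_pos := hδ, lower := fun y hy v => (hab y hy v).1
      conn_le := hconn }
  obtain ⟨r₀, hr₀, hjet⟩ := jet_four hL (P := B.jets) (isCompact_jetSet _ _ _ _ _ _ _)
    (fun p hp => hsub1 hp.1.1) hε
  have hAp : 0 ≤ Ap := by positivity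
  refine ⟨min r₀ (min 1 (ρ / (Ap + A + 1))), by positivity,
    fun γ hγ t₀ t₁ ht hin hint σ₀ κ hσ₀ hσ₁ P₀ Q₀ hP₀ hQ₀ hκ => ?_⟩
  set I' := Icc t₀ t₁
  set w := speed H γ
  have hw : Continuous w := speed_continuous hH hγ
  have hw0 : ∀ t, 0 ≤ w t := fun t => Real.sqrt_nonneg _
  set y := read n x γ
  set v := deriv y
  have hy : ∀ t ∈ I', y t ∈ Metric.closedBall c₀ ρ := fun t h => by
    rw [mem_closedBall_iff_norm]; exact (hin t h).2
  have hdy : ∀ t ∈ I', HasDerivWithinAt y (v t) I' t := fun t h =>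
    (hγ.hasDerivAt (hin t h).1).hasDerivWithinAt
  have hyc : ContinuousOn y I' := fun t h => (hdy t h).continuousWithinAt
  have hvc : ContinuousOn v I' := by
    have hd : ContDiffOn ℝ 1 y (γ ⁻¹' (ch n x).source) :=
      fun s hs' => (hγ.contDiffAt hs').contDiffWithinAt
    exact (hd.continuousOn_deriv_of_isOpen ((ch n x).open_source.preimage hγ.1) le_rfl).mono
      fun s hs => (hin s hs).1
  have hwv : ∀ t ∈ I', w t = Real.sqrt (sq (G (y t)) (v t)) := fun t h =>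
    speed_eq H hγ.1.continuousAt (hin t h).1 (hγ.hasDerivAt (hin t h).1)
  have hAc : ContinuousOn (fun t => conn G (y t) (v t)) I' :=
    ContinuousOn.comp (g := fun q : Cn n × Cn n => conn G q.1 q.2) (f := fun t => (y t, v t))
      hL.continuous_conn (hyc.prodMk hvc) fun t h => ⟨hsub1 (hy t h), trivial⟩
  obtain ⟨P, hPc, hP0, hPd⟩ := linear_ode ht hAc hw hw0 hC
    (fun t h => by rw [hwv t h]; exact hconn _ (hy t h) _) (by rw [hint]; exact hCδ) P₀
  set S := sq (G (y t₀)) P₀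
  have hS : ∀ t ∈ I', sq (G (y t)) (P t) = S := fun t h => by
    rw [parallel_sq hL (fun t h => hsub1 (hy t h)) hdy hPd h, hP0]
  refine ⟨P t₁, hS t₁ (right_mem_Icc.2 ht), fun r hr hrr => ?_⟩
  simp only [lt_min_iff] at hrr
  set σ : ℝ → ℝ := fun t => ∫ s in t₀..t, w s
  have hσd : ∀ t, HasDerivAt σ (w t) t := fun t =>
    (hw.integral_hasStrictDerivAt t₀ t).hasDerivAt
  have hσI : ∀ t ∈ I', 0 ≤ σ t ∧ σ t ≤ δ := fun t h =>
    ⟨intervalIntegral.integral_nonneg h.1 fun s _ => hw0 s, hint ▸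
      intervalIntegral.integral_mono_interval le_rfl h.1 h.2 (Eventually.of_forall hw0)
        (hw.intervalIntegrable _ _)⟩
  set β : ℝ → ℝ := fun t => 1 - (σ₀ + σ t) / ℓ
  have hℓ0 : 0 < ℓ := by linarith
  have hβ : ∀ t ∈ I', 1 - (σ₀ + δ) / ℓ ≤ β t ∧ 0 ≤ β t ∧ β t ≤ 1 := fun t h => by
    refine ⟨?_, ?_, ?_⟩
    · exact sub_le_sub_left (div_le_div_of_nonneg_right (by linarith [(hσI t h).2]) hℓ0.le) 1
    · exact sub_nonneg.2 ((div_le_one hℓ0).2 (by linarith [(hσI t h).2]))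
    · exact sub_le_self _ (div_nonneg (by linarith [(hσI t h).1]) hℓ0.le)
  set W' : ℝ → Cn n := fun t => β t • conn G (y t) (v t) (P t) + (-(w t / ℓ)) • P t
  set q : ℝ → Cn n := fun t => (1 - σ t / δ) • Q₀
  set q' : ℝ → Cn n := fun t => (-(w t / δ)) • Q₀
  have hWd : ∀ t ∈ I', HasDerivWithinAt (fun t => β t • P t) (W' t) I' t := fun t h =>
    ((((hσd t).const_add σ₀).div_const ℓ).const_sub 1).hasDerivWithinAt.smul (hPd t h)
  have hqd : ∀ t ∈ I', HasDerivWithinAt q (q' t) I' t := fun t h =>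
    ((((hσd t).div_const δ).const_sub 1).smul_const Q₀).hasDerivWithinAt
  have hW'c : ContinuousOn W' I' := by
    have : ContinuousOn σ I' := fun t _ => (hσd t).continuousAt.continuousWithinAt
    exact ((continuousOn_const.sub ((continuousOn_const.add this).div_const ℓ)).smul
      (hAc.clm_apply hPc.continuousOn)).add
      (((hw.continuousOn.div_const ℓ).neg).smul hPc.continuousOn)
  have hbW : ∀ t ∈ I', ‖P t‖ ≤ Ap ∧ ‖q t‖ ≤ A := fun t h => by
    have h1 := (hab _ (hy t h) (P t)).1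
    rw [hS t h] at h1
    refine ⟨?_, ?_⟩
    · rw [le_div_iff₀ ha]
      nlinarith [Real.sqrt_le_sqrt hP₀]
    · have e1 : 0 ≤ 1 - σ t / δ := sub_nonneg.2 ((div_le_one hδ).2 (hσI t h).2)
      rw [norm_smul, Real.norm_eq_abs, abs_of_nonneg e1]
      exact (mul_le_of_le_one_left (norm_nonneg _)
        (sub_le_self _ (div_nonneg (hσI t h).1 hδ.le))).trans hQ₀
  have hmem : ∀ s : ℂ, ‖s‖ = r → ∀ t ∈ I', fam (y t) (β t • P t) (q t) s ∈ (ch n x).target := by
    intro s hs t h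
    refine hsub ?_
    rw [mem_closedBall_iff_norm]
    obtain ⟨h1, h2⟩ := hbW t h
    have h5 : ‖β t • P t‖ ≤ Ap := by
      rw [norm_smul, Real.norm_eq_abs, abs_of_nonneg (hβ t h).2.1]
      exact (mul_le_of_le_one_left (norm_nonneg _) (hβ t h).2.2).trans h1
    have h3 := (lt_div_iff₀ (by positivity)).1 hrr.2.2
    have h4 : ‖s‖ * (‖β t • P t‖ + ‖q t‖) ≤ ρ := by rw [hs]; nlinarith
    linarith [norm_sub_le_norm_sub_add_norm_sub (fam (y t) (β t • P t) (q t) s) (y t) c₀,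
      mem_closedBall_iff_norm.1 (hy t h),
      fam_dist (y := y t) (b := β t • P t) (e := q t) (s := s) (by linarith [hrr.2.1])]
  set f : ℂ → ℝ → ℝ := fun s t =>
    Real.sqrt (sq (G (fam (y t) (β t • P t) (q t) s)) (fam (v t) (W' t) (q' t) s))
  have hvel : ∀ s : ℂ, ContinuousOn (fun t => fam (v t) (W' t) (q' t) s) I' := fun s =>
    (hvc.add (hW'c.const_smul s)).add
      ((((hw.continuousOn.div_const δ).neg).smul continuousOn_const).const_smul (s ^ 2))
  have hpd : ∀ s : ℂ, ∀ t ∈ I', HasDerivWithinAt (fun t => fam (y t) (β t • P t) (q t) s)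
      (fam (v t) (W' t) (q' t) s) I' t := fun s t h =>
    ((hdy t h).add ((hWd t h).const_smul s)).add ((hqd t h).const_smul (s ^ 2))
  have hfi : ∀ s : ℂ, ‖s‖ = r → IntervalIntegrable (f s) MeasureTheory.volume t₀ t₁ := fun s hs => by
    refine ContinuousOn.intervalIntegrable ?_
    rw [uIcc_of_le ht]
    have hp : ContinuousOn (fun t => fam (y t) (β t • P t) (q t) s) I' :=
      fun t h => (hpd s t h).continuousWithinAt
    have hsq : ContinuousOn (fun q : Cn n × Cn n => Real.sqrt (sq (G q.1) q.2))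
        ((ch n x).target ×ˢ univ) := (hH.continuous_sq x).sqrt
    exact ContinuousOn.comp (g := fun q : Cn n × Cn n => Real.sqrt (sq (G q.1) q.2))
      (f := fun t => (fam (y t) (β t • P t) (q t) s, fam (v t) (W' t) (q' t) s)) hsq
      (hp.prodMk (hvel s)) fun t h => ⟨hmem s hs t h, trivial⟩
  have hgd : ∀ s : ℂ, ‖s‖ = r →
      gd H ((ch n x).symm (fam (ch n x (γ t₀)) ((1 - σ₀ / ℓ) • P₀) Q₀ s))
        ((ch n x).symm (fam (ch n x (γ t₁)) ((1 - (σ₀ + δ) / ℓ) • P t₁) 0 s)) ≤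
      ∫ t in t₀..t₁, f s t := fun s hs => by
    have := gd_le_arc hH ht (hmem s hs) (hpd s) (hvel s)
    have eσ0 : σ t₀ = 0 := intervalIntegral.integral_same
    have eσ1 : σ t₁ = δ := hint
    simp only [q, β, eσ0, eσ1, add_zero, zero_div, sub_zero, one_smul, div_self hδ.ne', sub_self,
      zero_smul, hP0] at this
    exact this
  have hpt : ∀ t ∈ I', four (fun s => f s t) r ≤
      w t * (4 + r ^ 2 * (2 * (-κ + S / ℓ ^ 2) + ε / 2)) := fun t h => by
    refine pointwise hL B hsub1 hjet (hy t h) (hwv t h) (hbW t h).1 (hS t h) (hβ t h).2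
      (hbW t h).2 hQ₀ (fun u hu => hκ _ (hy t h) _ u hu ?_ ?_) hr hrr.1
      (fun s hs => hmem s hs t h)
    · rw [sq_smul_real, hS t h]
      exact mul_le_mul_of_nonneg_right (pow_le_pow_left₀
        (sub_nonneg.2 ((div_le_one hℓ0).2 hσ₁)) (hβ t h).1 2)
        ((hS t h) ▸ (hL.pos _ (hsub1 (hy t h))).nonneg _)
    · rw [sq_smul_real, hS t h]
      exact mul_le_of_le_one_left ((hS t h) ▸ (hL.pos _ (hsub1 (hy t h))).nonneg _)
        (pow_le_one₀ (hβ t h).2.1 (hβ t h).2.2)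
  have n1 : ‖(r : ℂ)‖ = r := by simp [abs_of_nonneg hr]
  have n2 : ‖-(r : ℂ)‖ = r := by rw [norm_neg, n1]
  have n3 : ‖(r : ℂ) * I‖ = r := by rw [norm_mul, n1, Complex.norm_I, mul_one]
  have n4 : ‖-((r : ℂ) * I)‖ = r := by rw [norm_neg, n3]
  simp only [four] at hpt ⊢
  have i12 := (hfi _ n1).add (hfi _ n2)
  have i123 := i12.add (hfi _ n3)
  have := intervalIntegral.integral_mono_on ht (i123.add (hfi _ n4))
    ((hw.mul continuous_const : Continuous fun t =>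
      w t * (4 + r ^ 2 * (2 * (-κ + S / ℓ ^ 2) + ε / 2))).intervalIntegrable _ _) hpt
  simp only [Pi.mul_apply] at this
  rw [intervalIntegral.integral_mul_const, hint,
    intervalIntegral.integral_add i123 (hfi _ n4), intervalIntegral.integral_add i12 (hfi _ n3),
    intervalIntegral.integral_add (hfi _ n1) (hfi _ n2)] at this
  linarith [hgd _ n1, hgd _ n2, hgd _ n3, hgd _ n4]

end Vale.Agent.P253.Circle
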