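import Vale.Agent.P253.Circle.Dist

/-!
P253: parallel transport inside a chart and the four-point length of a varied piece of a curve.
-/

open scoped Manifold ContDiff InnerProductSpace Topology
open Complex Set Filter

noncomputable section

namespace Vale.Agent.P253.Circle

open Vale.Agent.Results.P253.SymmetricDomains (IsPos dz ddbar bisect dual fderiv_symm)

variable {n : ℕ}

/-- A linear ordinary differential equation whose coefficient has small integral. -/
theorem linear_ode {t₀ t₁ : ℝ} (h : t₀ ≤ t₁) {A : ℝ → (Cn n →L[ℝ] Cn n)}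
    (hA : ContinuousOn A (Icc t₀ t₁)) {w : ℝ → ℝ} (hw : Continuous w) (hw0 : ∀ t, 0 ≤ w t)
    {C : ℝ} (hC : 0 ≤ C) (hb : ∀ t ∈ Icc t₀ t₁, ‖A t‖ ≤ C * w t)
    (hsmall : C * ∫ t in t₀..t₁, w t ≤ 1 / 2) (p₀ : Cn n) :
    ∃ P : ℝ → Cn n, Continuous P ∧ P t₀ = p₀ ∧
      ∀ t ∈ Icc t₀ t₁, HasDerivWithinAt P (A t (P t)) (Icc t₀ t₁) t := by
  set I := Icc t₀ t₁
  haveI : CompactSpace I := isCompact_iff_compactSpace.1 isCompact_Icc
  haveI : Nonempty I := ⟨⟨t₀, left_mem_Icc.2 h⟩⟩
  set A' : ℝ → (Cn n →L[ℝ] Cn n) := IccExtend h (I.restrict A)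
  have hA' : Continuous A' := continuous_IccExtend_iff.2 hA.restrict
  have hA'eq : ∀ t ∈ I, A' t = A t := fun t ht => IccExtend_of_mem h _ ht
  set g : C(I, Cn n) → ℝ → Cn n := fun f t => A' t (IccExtend h f t)
  have hg : ∀ f, Continuous (g f) := fun f =>
    hA'.clm_apply (continuous_IccExtend_iff.2 f.continuous)
  set J : C(I, Cn n) → ℝ → Cn n := fun f t => p₀ + ∫ s in t₀..t, g f s
  have hJ : ∀ f t, HasDerivAt (J f) (g f t) t := fun f t =>
    ((hg f).integral_hasStrictDerivAt t₀ t).hasDerivAt.const_add p₀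
  have hJc : ∀ f, Continuous (J f) := fun f =>
    continuous_iff_continuousAt.2 fun t => (hJ f t).continuousAt
  set T : C(I, Cn n) → C(I, Cn n) := fun f =>
    ⟨fun t => J f t, (hJc f).comp continuous_subtype_val⟩
  have hT : ContractingWith (1 / 2 : NNReal) T := by
    refine ⟨by norm_num, LipschitzWith.of_dist_le_mul fun f₁ f₂ => ?_⟩
    refine (ContinuousMap.dist_le (by positivity)).2 fun t => ?_
    show dist (J f₁ t) (J f₂ t) ≤ _
    simp only [J, dist_eq_norm, add_sub_add_left_eq_sub]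
    rw [← intervalIntegral.integral_sub ((hg f₁).intervalIntegrable _ _)
      ((hg f₂).intervalIntegrable _ _)]
    have ht := t.2
    calc ‖∫ s in t₀..(t : ℝ), (g f₁ s - g f₂ s)‖
        ≤ ∫ s in t₀..(t : ℝ), C * w s * ‖f₁ - f₂‖ := by
          refine intervalIntegral.norm_integral_le_of_norm_le ht.1
            (Eventually.of_forall fun s hs => ?_)
            (((continuous_const.mul hw).mul continuous_const).intervalIntegrable _ _)
          have hsI : s ∈ I := ⟨hs.1.le, hs.2.trans ht.2⟩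
          simp only [g, hA'eq s hsI, ← map_sub, IccExtend_of_mem h _ hsI]
          refine ((A s).le_opNorm _).trans (mul_le_mul (hb s hsI) ?_ (norm_nonneg _)
            (mul_nonneg hC (hw0 s)))
          exact (f₁ - f₂).norm_coe_le_norm ⟨s, hsI⟩
      _ ≤ (C * ∫ s in t₀..t₁, w s) * ‖f₁ - f₂‖ := by
          rw [intervalIntegral.integral_mul_const, intervalIntegral.integral_const_mul]
          gcongr
          exact intervalIntegral.integral_mono_interval le_rfl ht.1 ht.2
            (Eventually.of_forall hw0) (hw.intervalIntegrable _ _)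
      _ ≤ _ := by
          push_cast
          exact mul_le_mul_of_nonneg_right hsmall (norm_nonneg _)
  set f := ContractingWith.fixedPoint T hT
  have hfix : T f = f := hT.fixedPoint_isFixedPt
  refine ⟨J f, hJc f, by simp [J], fun t ht => ?_⟩
  have e : IccExtend h f t = J f t := by
    rw [IccExtend_of_mem h _ ht]
    exact (congrFun (congrArg DFunLike.coe hfix) ⟨t, ht⟩).symm
  have := (hJ f t).hasDerivWithinAt (s := I)
  simp only [g, hA'eq t ht, e] at this
  exact this

/-- The connection operator. -/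
def conn (G : Cn n → (Cn n →L[ℂ] Cn n)) (y v : Cn n) : Cn n →L[ℝ] Cn n :=
  -(((G y).inverse.comp (dz G y v)).restrictScalars ℝ)

theorem dz_smul (G : Cn n → (Cn n →L[ℂ] Cn n)) (y v : Cn n) (a : ℝ) :
    dz G y (a • v) = a • dz G y v := by
  simp only [dz, smul_comm I a v, map_smul, smul_comm I a, ← smul_sub, smul_comm (1 / 2 : ℂ) a]

theorem conn_smul (G : Cn n → (Cn n →L[ℂ] Cn n)) (y v : Cn n) (a : ℝ) :
    conn G y (a • v) = a • conn G y v := by
  ext p : 1
  simp only [conn, dz_smul]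
  simp [← Complex.coe_smul]

theorem conn_zero (G : Cn n → (Cn n →L[ℂ] Cn n)) (y : Cn n) : conn G y 0 = 0 := by
  simp [conn, dz]

variable {D : Set (Cn n)} {G : Cn n → (Cn n →L[ℂ] Cn n)}

theorem Local.continuous_inverse (hG : Local D G) : ContinuousOn (fun y => (G y).inverse) D := by
  intro y hy
  obtain ⟨e, he⟩ := (hG.pos y hy).invertible
  have h1 : ContinuousAt ContinuousLinearMap.inverse (G y) :=
    he ▸ (contDiffAt_map_inverse (n := 0) e).continuousAt
  exact h1.comp_continuousWithinAt (hG.smooth.continuousOn y hy)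

theorem Local.continuous_dz (hG : Local D G) :
    ContinuousOn (fun q : Cn n × Cn n => dz G q.1 q.2) (D ×ˢ univ) := by
  have h : ContinuousOn (fun q : Cn n × Cn n => fderiv ℝ G q.1) (D ×ˢ univ) :=
    (hG.smooth.continuousOn_fderiv_of_isOpen hG.isOpen (by simp)).comp continuousOn_fst
      fun q hq => hq.1
  have h2 := h.clm_apply continuousOn_snd
  have h3 := h.clm_apply (continuousOn_snd.const_smul I)
  exact (h2.sub (h3.const_smul I)).const_smul (1 / 2 : ℂ)

theorem Local.continuous_conn (hG : Local D G) :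
    ContinuousOn (fun q : Cn n × Cn n => conn G q.1 q.2) (D ×ˢ univ) := by
  have h1 : ContinuousOn (fun q : Cn n × Cn n => (G q.1).inverse) (D ×ˢ univ) :=
    hG.continuous_inverse.comp continuousOn_fst fun q hq => hq.1
  exact ((ContinuousLinearMap.restrictScalarsL ℂ (Cn n) (Cn n) ℝ ℝ).continuous.comp_continuousOn
    (h1.clm_comp hG.continuous_dz)).neg

/-- The squared length of a parallel vector is constant. -/
theorem parallel_sq (hG : Local D G) {t₀ t₁ : ℝ} {c c' P : ℝ → Cn n}
    (hD : ∀ t ∈ Icc t₀ t₁, c t ∈ D)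
    (hc : ∀ t ∈ Icc t₀ t₁, HasDerivWithinAt c (c' t) (Icc t₀ t₁) t)
    (hP : ∀ t ∈ Icc t₀ t₁, HasDerivWithinAt P (conn G (c t) (c' t) (P t)) (Icc t₀ t₁) t)
    {t : ℝ} (ht : t ∈ Icc t₀ t₁) : sq (G (c t)) (P t) = sq (G (c t₀)) (P t₀) := by
  have hd : ∀ s ∈ Icc t₀ t₁,
      HasDerivWithinAt (fun u => sq (G (c u)) (P u)) 0 (Icc t₀ t₁) s := by
    intro s hs
    have hy := hD s hs
    have h1 : HasDerivWithinAt (fun u => G (c u)) (fderiv ℝ G (c s) (c' s)) (Icc t₀ t₁) s :=
      ((hG.smooth.contDiffAt (hG.isOpen.mem_nhds hy)).differentiableAt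
        (by simp)).hasFDerivAt.comp_hasDerivWithinAt s (hc s hs)
    have h2 := ((ContinuousLinearMap.restrictScalarsL ℂ (Cn n) (Cn n) ℝ
      ℝ).hasFDerivAt.comp_hasDerivWithinAt s h1).clm_apply (hP s hs)
    have h3 := Complex.reCLM.hasFDerivAt.comp_hasDerivWithinAt s ((hP s hs).inner ℂ h2)
    refine h3.congr_deriv ?_
    set p := P s
    set v := c' s
    set T := fderiv ℝ G (c s)
    have hpos := hG.pos _ hy
    set q := conn G (c s) v p
    have hq : G (c s) q = -(dz G (c s) v p) := by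
      simp [q, conn, hpos.apply_inv]
    have him : ∀ d, (⟪p, T d p⟫_ℂ).im = 0 := fun d => by
      have e := fderiv_symm hG.isOpen hG.herm hy d p p
      rw [← inner_conj_symm (T d p) p] at e
      exact Complex.conj_eq_iff_im.1 e
    have e2 : (⟪q, G (c s) p⟫_ℂ).re = (⟪p, G (c s) q⟫_ℂ).re := by
      rw [← hpos.sym, ← inner_conj_symm (G (c s) q) p, Complex.conj_re]
    have e3 : (⟪p, dz G (c s) v p⟫_ℂ).re = (⟪p, T v p⟫_ℂ).re / 2 := by
      simp [dz, T, inner_sub_right, inner_smul_right, show (⟪p, fderiv ℝ G (c s) (I • v) p⟫_ℂ).im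
        = 0 from him _]
      ring
    simp only [Complex.reCLM_apply, Function.comp_apply,
      ContinuousLinearMap.coe_restrictScalars',
      Complex.add_re, inner_add_right]
    show (⟪p, T v p⟫_ℂ).re + (⟪p, G (c s) q⟫_ℂ).re + (⟪q, G (c s) p⟫_ℂ).re = 0
    rw [e2, hq, inner_neg_right, Complex.neg_re, e3]
    ring
  exact constant_of_derivWithin_zero (fun s hs => (hd s hs).differentiableWithinAt)
    (fun s hs => (hd s (Ico_subset_Icc_self hs)).derivWithin
      (uniqueDiffOn_Icc (hs.1.trans_lt hs.2) s (Ico_subset_Icc_self hs))) t ht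

variable {M : Type} [TopologicalSpace M] [ChartedSpace (Cn n) M] [IsManifold 𝓘(ℂ, Cn n) ω M]

theorem conn_bound {H : Metric (Cn n) M} (hH : IsKaehler H) {x : M} {K : Set (Cn n)} (hK : IsCompact K)
    (hKx : K ⊆ (ch n x).target) : ∃ C > 0, ∀ y ∈ K, ∀ v,
      ‖conn (rp H x) y v‖ ≤ C * Real.sqrt (sq (rp H x y) v) := by
  obtain ⟨a, b, ha, -, hab⟩ := hH.bounds hK hKx
  obtain ⟨C, hC⟩ := (hK.prod (isCompact_closedBall (0 : Cn n) 1)).exists_bound_of_continuousOn
    ((hH.chartMetric x).continuous_conn.mono fun q hq => ⟨hKx hq.1, trivial⟩)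
  refine ⟨max C 1 / a, by positivity, fun y hy v => ?_⟩
  by_cases hv : v = 0
  · have h0 : conn (rp H x) y (0 : Cn n) = 0 := conn_zero _ _
    rw [hv, h0, norm_zero]
    positivity
  have hr : 0 < ‖v‖ := norm_pos_iff.2 hv
  have hbd := hC (y, ‖v‖⁻¹ • v) ⟨hy, by simp [norm_smul, hr.ne']⟩
  rw [conn_smul, norm_smul, norm_inv, norm_norm, inv_mul_le_iff₀ hr] at hbd
  rw [div_mul_eq_mul_div, le_div_iff₀ ha]
  calc ‖conn (rp H x) y v‖ * a ≤ ‖v‖ * max C 1 * a := by
        gcongr
        exact hbd.trans (mul_le_mul_of_nonneg_left (le_max_left _ _) hr.le)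
    _ = max C 1 * (a * ‖v‖) := by ring
    _ ≤ _ := mul_le_mul_of_nonneg_left (hab y hy v).1 (le_trans zero_le_one (le_max_right _ _))

/-- A differentiable arc in a chart bounds the distance. -/
theorem gd_le_arc {H : Metric (Cn n) M} (hH : IsKaehler H) {x : M} {t₀ t₁ : ℝ} (h : t₀ ≤ t₁)
    {c v : ℝ → Cn n} (hm : ∀ t ∈ Icc t₀ t₁, c t ∈ (ch n x).target)
    (hd : ∀ t ∈ Icc t₀ t₁, HasDerivWithinAt c (v t) (Icc t₀ t₁) t)
    (hv : ContinuousOn v (Icc t₀ t₁)) :
    gd H ((ch n x).symm (c t₀)) ((ch n x).symm (c t₁)) ≤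
      ∫ t in t₀..t₁, Real.sqrt (sq (rp H x (c t)) (v t)) := by
  set θ : ℝ → ℝ := fun t => t₀ + (t₁ - t₀) * Real.smoothTransition t
  have hθ : ContDiff ℝ 1 θ :=
    contDiff_const.add (contDiff_const.mul Real.smoothTransition.contDiff)
  have hθI : ∀ t, θ t ∈ Icc t₀ t₁ := fun t => by
    have a := Real.smoothTransition.nonneg t
    have b := Real.smoothTransition.le_one t
    constructor <;> simp only [θ] <;> nlinarith
  have hθm : Monotone θ := fun a b hab => by
    simp only [θ]
    nlinarith [Real.smoothTransition.monotone hab]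
  have hdc : ∀ t, HasDerivAt (c ∘ θ) (deriv θ t • v (θ t)) t := fun t =>
    (hd _ (hθI t)).scomp_hasDerivAt t (hθ.differentiable one_ne_zero t).hasDerivAt hθI
  have hC : ContDiff ℝ 1 (c ∘ θ) := contDiff_one_iff_deriv.2
    ⟨fun t => (hdc t).differentiableAt, by
      rw [show deriv (c ∘ θ) = fun t => deriv θ t • v (θ t) from funext fun t => (hdc t).deriv]
      exact (hθ.continuous_deriv le_rfl).smul (hv.comp_continuous hθ.continuous hθI)⟩
  obtain ⟨hcur, hsp⟩ := c1Curve_chart H x hC fun t => hm _ (hθI t)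
  have e0 : θ 0 = t₀ := by simp [θ]
  have e1 : θ 1 = t₁ := by simp [θ]
  refine (gd_le (G := H) hcur (by simp [e0]) (by simp [e1])).trans_eq ?_
  set f : ℝ → ℝ := fun t => Real.sqrt (sq (rp H x (c t)) (v t))
  have hcc : ContinuousOn c (Icc t₀ t₁) := fun t ht => (hd t ht).continuousWithinAt
  have hsq : ContinuousOn (fun q : Cn n × Cn n => Real.sqrt (sq (rp H x q.1) q.2))
      ((ch n x).target ×ˢ univ) := (hH.continuous_sq x).sqrt
  have hcv : ContinuousOn (fun t => (c t, v t)) (Icc t₀ t₁) := hcc.prodMk hv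
  have hf : ContinuousOn f (Icc t₀ t₁) :=
    ContinuousOn.comp (g := fun q : Cn n × Cn n => Real.sqrt (sq (rp H x q.1) q.2))
      (f := fun t => (c t, v t)) hsq hcv fun t ht => ⟨hm t ht, trivial⟩
  calc clen H _ = ∫ t in (0 : ℝ)..1, (f ∘ θ) t * deriv θ t := by
        refine intervalIntegral.integral_congr fun t _ => ?_
        show speed H _ t = _
        rw [hsp t, (hdc t).deriv]
        simp only [f, Function.comp_apply]
        have hn : 0 ≤ deriv θ t := hθm.deriv_nonneg
        have e : sq (rp H x (c (θ t))) (deriv θ t • v (θ t)) =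
            deriv θ t ^ 2 * sq (rp H x (c (θ t))) (v (θ t)) := by
          simp [sq, Vale.Agent.Results.P253.SymmetricDomains.sq, ← Complex.coe_smul,
            inner_smul_left]
          ring
        rw [e, Real.sqrt_mul (sq_nonneg _), Real.sqrt_sq hn, mul_comm]
    _ = ∫ u in θ 0..θ 1, f u := by
        refine intervalIntegral.integral_comp_mul_deriv'
          (fun t _ => (hθ.differentiable one_ne_zero t).hasDerivAt)
          (hθ.continuous_deriv le_rfl).continuousOn (hf.mono ?_)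
        rintro _ ⟨t, -, rfl⟩
        exact hθI t
    _ = _ := by rw [e0, e1]

theorem half_le_sqrt {a : ℝ} (ha : 0 ≤ a) : Real.sqrt a ≤ (1 + a) / 2 := by
  nlinarith [sq_nonneg (Real.sqrt a - 1), Real.sq_sqrt ha]

end Vale.Agent.P253.Circle
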